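import Vale.Agent.P153.TwoPt.Defs

/-!
# P153, two-point part: auxiliary exact statements (concentration, kernels)
-/

open MeasureTheory ProbabilityTheory Filter Topology Set
open scoped ENNReal Real

namespace Vale.Agent.P153.TwoPt

/-- The folded two-point function. -/
noncomputable def Psi (m : Kernel ℝ ℝ) (k θ : ℝ) : ℝ := ∫ τ, 1 / den τ θ ∂(m k)

/-- The causal kernel over `K` rows. -/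
noncomputable def Om (m : Kernel ℝ ℝ) (K : ℕ) (k θ : ℝ) : ℂ :=
  ∫ τ : ℝ, (1 - ((τ : ℂ) * Complex.exp (-(Complex.I * (θ : ℂ)))) ^ K) / (den τ θ : ℂ) ∂(m k)

/-- (CONC) concentration of `m k` at `1 - τ = c |k|`; no intermediate mass. -/
def ConcStatement : Prop := ∀ (V : ℤ → ℤ → ℝ) (m : Kernel ℝ ℝ) (c κ C k0 : ℝ),
  Spec V m c κ C k0 →
  (∀ ε > 0, ∀ A > 0, ∃ η > 0, ∀ᵐ k : ℝ, |k| < η → k ≠ 0 →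
    m k {τ | 1 - τ ≤ A * |k| ∧ ε * |k| ≤ abs ((1 - τ) - c * abs k)} ≤ ENNReal.ofReal ε) ∧
  (∀ ε > 0, ∃ η > 0, ∀ᵐ k : ℝ, |k| < η → k ≠ 0 →
    |(m k {τ | abs ((1 - τ) - c * abs k) < ε * |k|}).toReal - κ| ≤ ε) ∧
  (∀ ε > 0, ∃ A > 0, ∃ η > 0, ∃ η' > 0, ∀ᵐ k : ℝ, |k| < η' → k ≠ 0 →
    m k {τ | A * |k| < 1 - τ ∧ 1 - τ < η} ≤ ENNReal.ofReal ε)

/-- (T) scaling limit of integrals against `m`. -/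
def TStatement : Prop := ∀ (V : ℤ → ℤ → ℝ) (m : Kernel ℝ ℝ) (c κ C k0 : ℝ),
  Spec V m c κ C k0 → ∀ L : ℕ → ℝ, (∀ n, 1 ≤ L n) → Tendsto L atTop atTop →
  ∀ᵐ q : ℝ, q ≠ 0 → ∀ (φ : ℕ → ℝ → ℂ) (ψ : ℝ → ℂ) (B : ℝ), (∀ n, Measurable (φ n)) →
  (∀ n τ, 0 ≤ τ → τ < 1 → ‖φ n τ‖ ≤ B / (L n * (1 - τ))) → ContinuousOn ψ (Ioi 0) →
  (∀ A > 1, TendstoUniformlyOn (fun n E => φ n (1 - E / L n)) ψ atTop (Icc (1 / A) A)) →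
  Tendsto (fun n => ∫ τ, φ n τ ∂(m (q / L n))) atTop (𝓝 ((κ : ℂ) * ψ (c * |q|)))

/-- (KB) bounds of the kernels. -/
def KBStatement : Prop := ∀ (V : ℤ → ℤ → ℝ) (m : Kernel ℝ ℝ) (c κ C k0 : ℝ),
  Spec V m c κ C k0 → ∃ C' > 0,
  (∀ᵐ k : ℝ, |k| < k0 → k ≠ 0 → ∀ θ : ℝ, |θ| ≤ π →
    Integrable (fun τ => 1 / den τ θ) (m k) ∧ Psi m k θ ≤ C' / (k ^ 2 + θ ^ 2) ∧
    ∀ K : ℕ, ‖Om m K k θ‖ ≤ K * C' / Real.sqrt (k ^ 2 + θ ^ 2))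

/-- (KL) limits of the kernels. -/
def KLStatement : Prop := ∀ (V : ℤ → ℤ → ℝ) (m : Kernel ℝ ℝ) (c κ C k0 : ℝ),
  Spec V m c κ C k0 → ∀ L : ℕ → ℝ, (∀ n, 1 ≤ L n) → Tendsto L atTop atTop → ∀ K : ℕ,
  ∀ᵐ q : ℝ, q ≠ 0 → ∀ w : ℝ, w ≠ 0 →
    Tendsto (fun n => (L n : ℂ)⁻¹ * Om m K (q / L n) (w / L n)) atTop
      (𝓝 ((κ : ℂ) * K / ((c * |q| : ℝ) - Complex.I * (w : ℝ)))) ∧
    Tendsto (fun n => ((L n) ^ 2)⁻¹ * Psi m (q / L n) (w / L n)) atTop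
      (𝓝 (κ / (c ^ 2 * q ^ 2 + w ^ 2)))

/-- `T_K(z)`: covariance of `E_0 h_K(x) - h_0(x)`. -/
noncomputable def TK (V : ℤ → ℤ → ℝ) (K : ℕ) (z : ℤ) : ℝ := V K z - V (2 * K) z / 2 - V 0 z / 2

/-- (P6) the conditional mean of the increment is negligible (helper342). -/
def P6Statement : Prop := ∀ (V : ℤ → ℤ → ℝ) (m : Kernel ℝ ℝ) (c κ C k0 : ℝ),
  Spec V m c κ C k0 → ∀ ε > 0, ∃ K0 : ℕ, ∀ K ≥ K0, ∃ l0 : ℕ, ∀ l ≥ l0,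
    (1 / (l : ℝ)) * ∑ x ∈ Finset.range l, ∑ y ∈ Finset.range l, TK V K ((x : ℤ) - y) ≤ ε * K

end Vale.Agent.P153.TwoPt
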