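import Mathlib

/-!
# P153, block (D)(III)(a): the linear response from two-point functions

Owner: helper376.  Rows: one row here is one step of the positive transfer operator.
`V j z` = variance of the height difference `h_j(z) - h_0(0)`.
-/

open MeasureTheory ProbabilityTheory Filter Topology Set
open scoped ENNReal Real

namespace Vale.Agent.P153.TwoPt

/-- `|1 - τ e^{iθ}|^2 = (1-τ)^2 + τ (2 - 2 cos θ)`. -/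
noncomputable def den (τ θ : ℝ) : ℝ := (1 - τ) ^ 2 + τ * (2 - 2 * Real.cos θ)

/-- Row spectral data: `m k` is the measure `(1-τ^2) ν_k(dτ)` of row momentum `k`. -/
structure Spec (V : ℤ → ℤ → ℝ) (m : Kernel ℝ ℝ) (c κ C k0 : ℝ) : Prop where
  sfin : IsSFiniteKernel m
  c_pos : 0 < c
  κ_nonneg : 0 ≤ κ
  C_pos : 0 < C
  k0_pos : 0 < k0
  k0_le : k0 ≤ 1
  supp : ∀ᵐ k : ℝ, ∀ᵐ τ ∂(m k), 0 ≤ τ ∧ τ < 1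
  mass : ∀ᵐ k : ℝ, |k| < k0 → m k univ ≤ ENNReal.ofReal C
  inv : ∀ᵐ k : ℝ, |k| < k0 → k ≠ 0 →
    ∫⁻ τ, ENNReal.ofReal (1 / (1 - τ) ^ 2) ∂(m k) ≤ ENNReal.ofReal (C / k ^ 2)
  fin : ∫⁻ k in Icc (-π) π, ENNReal.ofReal (1 - Real.cos k) *
    ∫⁻ τ, ENNReal.ofReal (1 / (1 - τ ^ 2)) ∂(m k) ≠ ⊤
  rep : ∀ j z : ℤ, V j z = (1 / π) * ∫ k in Icc (-π) π, ∫ τ,
    (1 - Real.cos (k * z) * τ ^ j.natAbs) / (1 - τ ^ 2) ∂(m k)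
  lim : ∀ ε > 0, ∃ η > 0, ∀ᵐ k : ℝ, |k| < η → k ≠ 0 → ∀ θ : ℝ, |θ| < η →
    |(c ^ 2 * k ^ 2 + θ ^ 2) * (∫ τ, 1 / den τ θ ∂(m k)) - κ| ≤ ε

/-- `a n j x` (row `j`, site `x`) is a discretisation of `f` at scale `L n`. -/
structure Disc (f : ℝ × ℝ → ℝ) (L : ℕ → ℝ) (a : ℕ → ℤ → ℤ → ℝ) (M : ℝ) : Prop where
  M_pos : 0 < M
  L_pos : ∀ n, 1 ≤ L n
  L_top : Tendsto L atTop atTop
  f_cont : Continuous f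
  f_supp : HasCompactSupport f
  supp : ∀ n, ∀ j x : ℤ, (M * L n < |(j : ℝ)| ∨ M * L n < |(x : ℝ)|) → a n j x = 0
  sum_zero : ∀ n, ∑ᶠ p : ℤ × ℤ, a n p.1 p.2 = 0
  close : ∀ ε > 0, ∀ᶠ n in atTop, ∀ j x : ℤ, |L n ^ 2 * a n j x - f (j / L n, x / L n)| ≤ ε
  diff1 : ∀ n, ∀ j x : ℤ, |a n (j + 1) x - 2 * a n j x + a n (j - 1) x| ≤ M / L n ^ 4
  diff2 : ∀ n, ∀ j x : ℤ, |a n j (x + 1) - 2 * a n j x + a n j (x - 1)| ≤ M / L n ^ 4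

/-- The Fourier transform of a test function on the plane, `(t, x) ↦ (ω, q)`. -/
noncomputable def FT (f : ℝ × ℝ → ℝ) (w q : ℝ) : ℂ :=
  ∫ z : ℝ × ℝ, (f z : ℂ) * Complex.exp (Complex.I * ((w * z.1 + q * z.2 : ℝ) : ℂ))

/-- The limiting variance (`κ` times) `(2π)^{-2} ∫∫ |f^|² / (c² q² + ω²)`. -/
noncomputable def sig (c κ : ℝ) (f : ℝ × ℝ → ℝ) : ℝ :=
  κ / (4 * π ^ 2) * ∫ p : ℝ × ℝ, ‖FT f p.1 p.2‖ ^ 2 / (c ^ 2 * p.2 ^ 2 + p.1 ^ 2)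

/-- The limiting covariance of `X` and `X'`: `κ (2π)^{-2} Re ∫∫ g^ conj(f^) / (c|q| - iω)`. -/
noncomputable def cov (c κ : ℝ) (g f : ℝ × ℝ → ℝ) : ℝ :=
  κ / (4 * π ^ 2) * (∫ p : ℝ × ℝ, FT g p.1 p.2 * (starRingEnd ℂ) (FT f p.1 p.2) /
    ((c * |p.2| : ℝ) - Complex.I * (p.1 : ℝ))).re

/-- `C_K(z) = (V_{2K}(z) - V_0(z))/2`, the covariance of the innovations over `K` rows. -/
noncomputable def CK (V : ℤ → ℤ → ℝ) (K : ℕ) (z : ℤ) : ℝ := (V (2 * K) z - V 0 z) / 2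

/-- Variance of `X = ∑ a_j(x) h_j(x)` (for `∑ a = 0`). -/
noncomputable def varX (V : ℤ → ℤ → ℝ) (a : ℤ → ℤ → ℝ) : ℝ :=
  -(1 / 2) * ∑ᶠ p : ℤ × ℤ, ∑ᶠ q : ℤ × ℤ, a p.1 p.2 * a q.1 q.2 * V (p.1 - q.1) (p.2 - q.2)

/-- Covariance of `X` with `X' = ∑_i ∑_x g_i(x) r^i_x`, `g_i(x) = L⁻¹ g(iK/L, x/L)`,
`r^i_x = h_{(i+1)K}(x) - E[h_{(i+1)K}(x)|row iK]`. -/
noncomputable def covXX (V : ℤ → ℤ → ℝ) (a : ℤ → ℤ → ℝ) (K : ℕ) (L : ℝ) (g : ℝ × ℝ → ℝ) : ℝ :=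
  ∑ᶠ i : ℤ, ∑ᶠ x : ℤ, L⁻¹ * g (i * K / L, x / L) * ∑ᶠ j : ℤ, ∑ᶠ y : ℤ,
    (if i * K < j then a j y * ((V (j - i * K + K) (y - x) - V (j - i * K - K) (y - x)) / 2) else 0)

/-- Variance of `X'`. -/
noncomputable def varX' (V : ℤ → ℤ → ℝ) (K : ℕ) (L : ℝ) (g : ℝ × ℝ → ℝ) : ℝ :=
  ∑ᶠ i : ℤ, ∑ᶠ x : ℤ, ∑ᶠ y : ℤ,
    (L⁻¹ * g (i * K / L, x / L)) * (L⁻¹ * g (i * K / L, y / L)) * CK V K (x - y)

/-- (P1) the variance of `X`. -/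
def P1Statement : Prop := ∀ (V : ℤ → ℤ → ℝ) (m : Kernel ℝ ℝ) (c κ C k0 : ℝ),
  Spec V m c κ C k0 → ∀ (f : ℝ × ℝ → ℝ) (L : ℕ → ℝ) (a : ℕ → ℤ → ℤ → ℝ) (M : ℝ),
  Disc f L a M → Tendsto (fun n => varX V (a n)) atTop (𝓝 (sig c κ f))

/-- (P2) the covariance of `X` and `X'`. -/
def P2Statement : Prop := ∀ (V : ℤ → ℤ → ℝ) (m : Kernel ℝ ℝ) (c κ C k0 : ℝ),
  Spec V m c κ C k0 → ∀ (f : ℝ × ℝ → ℝ) (L : ℕ → ℝ) (a : ℕ → ℤ → ℤ → ℝ) (M : ℝ),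
  Disc f L a M → ∀ g : ℝ × ℝ → ℝ, Continuous g → HasCompactSupport g → ∀ K : ℕ, 0 < K →
  Tendsto (fun n => covXX V (a n) K (L n) g) atTop (𝓝 (cov c κ g f))

/-- (P3) summability of the covariances of the innovations and the variance of `X'`. -/
def P3Statement : Prop := ∀ (V : ℤ → ℤ → ℝ) (m : Kernel ℝ ℝ) (c κ C k0 : ℝ),
  Spec V m c κ C k0 → ∀ K : ℕ, 0 < K → (∀ z, 0 ≤ CK V K z) → Summable (CK V K)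

def P3bStatement : Prop := ∀ (V : ℤ → ℤ → ℝ) (K : ℕ), 0 < K → (∀ z, 0 ≤ CK V K z) →
  Summable (CK V K) → ∀ L : ℕ → ℝ, (∀ n, 1 ≤ L n) → Tendsto L atTop atTop →
  ∀ g : ℝ × ℝ → ℝ, Continuous g → HasCompactSupport g →
  Tendsto (fun n => varX' V K (L n) g) atTop
    (𝓝 ((∑' z, CK V K z) / K * ∫ z : ℝ × ℝ, g z ^ 2))

/-- (P4) the variance per row of the innovations tends to `κ`. -/
def P4Statement : Prop := ∀ (V : ℤ → ℤ → ℝ) (m : Kernel ℝ ℝ) (c κ C k0 : ℝ),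
  Spec V m c κ C k0 → (∀ K : ℕ, 0 < K → ∀ z, 0 ≤ CK V K z) →
  Tendsto (fun K : ℕ => (∑' z, CK V K z) / K) atTop (𝓝 κ)

/-- (P5) the innovations are complete. -/
def P5Statement : Prop := ∀ (c κ : ℝ), 0 < c → 0 ≤ κ → ∀ f : ℝ × ℝ → ℝ, ContDiff ℝ 2 f →
  HasCompactSupport f → ∫ z, f z = 0 → ∀ ε > 0, ∃ g : ℝ × ℝ → ℝ, Continuous g ∧
    HasCompactSupport g ∧ sig c κ f - 2 * cov c κ g f + κ * ∫ z : ℝ × ℝ, g z ^ 2 ≤ ε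

end Vale.Agent.P153.TwoPt
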