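import Vale.Agent.P153.TwoPt.Defs2

/-!
# P153, block (D): concentration of `m k` (ConcStatement)

Owner: helper442.
-/

open MeasureTheory ProbabilityTheory Filter Topology Set
open scoped ENNReal Real

namespace Vale.Agent.P153.TwoPt

namespace Cn

/-! ### pointwise facts -/

lemma den_pos {τ : ℝ} (h0 : 0 ≤ τ) (h1 : τ < 1) (θ : ℝ) : 0 < den τ θ := by
  unfold den
  have := Real.cos_le_one θ
  have h2 : 0 < (1 - τ) ^ 2 := by have : 0 < 1 - τ := by linarith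
                                  positivity
  nlinarith

lemma sq_le_den {τ : ℝ} (h0 : 0 ≤ τ) (θ : ℝ) : (1 - τ) ^ 2 ≤ den τ θ := by
  unfold den
  have := Real.cos_le_one θ
  nlinarith

lemma den_le {τ : ℝ} (h0 : 0 ≤ τ) (h1 : τ < 1) (θ : ℝ) : den τ θ ≤ (1 - τ) ^ 2 + θ ^ 2 := by
  unfold den
  have := Real.one_sub_sq_div_two_le_cos (x := θ)
  nlinarith [sq_nonneg θ]

lemma den_measurable (θ : ℝ) : Measurable fun τ => 1 / den τ θ := by
  unfold den; fun_prop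

/-- `z = ((1-τ)/k)²`. -/
noncomputable def zz (k τ : ℝ) : ℝ := ((1 - τ) / k) ^ 2

lemma zz_nonneg (k τ : ℝ) : 0 ≤ zz k τ := sq_nonneg _

lemma zz_measurable (k : ℝ) : Measurable (zz k) := by
  unfold zz; fun_prop

lemma pt_aux {u s q : ℝ} (hu0 : 0 < u) (hu1 : u ≤ 1) (hs0 : 0 < s) (hs1 : s ≤ 1)
    (hq1 : q ≤ s ^ 2) (hq2 : s ^ 2 - s ^ 4 * (5 / 48) ≤ q) :
    (u ^ 2 + s ^ 2) / 5 ≤ u ^ 2 + (1 - u) * q ∧ 0 ≤ s ^ 2 - (1 - u) * q ∧
      s ^ 2 - (1 - u) * q ≤ s ^ 4 * (5 / 48) + u * s ^ 2 := by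
  have hs2 : s ^ 2 ≤ 1 := by nlinarith
  have hs4 : s ^ 4 ≤ s ^ 2 := by nlinarith [sq_nonneg s]
  have hq3 : s ^ 2 / 2 ≤ q := by nlinarith [sq_nonneg s]
  have hq0 : 0 ≤ q := by nlinarith [sq_nonneg s]
  refine ⟨?_, ?_, ?_⟩
  · rcases le_or_gt u (1 / 2) with h | h
    · nlinarith
    · nlinarith
  · nlinarith
  · nlinarith

lemma pt_aux2 {u s r K2 : ℝ} (hu0 : 0 < u) (hs0 : 0 < s) (hr : 0 ≤ r) (hK : 0 ≤ K2)
    (h : u * s ^ 2 * K2 = u * s ^ 3 * r) :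
    K2 * (s ^ 4 * (5 / 48) + u * s ^ 2) ≤ (K2 + 3 * r) * ((u ^ 2 + s ^ 2) ^ 2 / 5) := by
  have e1 : s ^ 4 ≤ (u ^ 2 + s ^ 2) ^ 2 := by
    have : s ^ 2 ≤ u ^ 2 + s ^ 2 := by nlinarith [sq_nonneg u]
    calc s ^ 4 = (s ^ 2) ^ 2 := by ring
      _ ≤ _ := by gcongr
  have e2 : 2 * u * s ^ 3 ≤ (u ^ 2 + s ^ 2) ^ 2 := by
    have h1 : 2 * u * s ≤ u ^ 2 + s ^ 2 := by nlinarith [sq_nonneg (u - s)]
    have h2 : s ^ 2 ≤ u ^ 2 + s ^ 2 := by nlinarith [sq_nonneg u]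
    calc 2 * u * s ^ 3 = (2 * u * s) * s ^ 2 := by ring
      _ ≤ (u ^ 2 + s ^ 2) * (u ^ 2 + s ^ 2) := by gcongr
      _ = _ := by ring
  set Y := (u ^ 2 + s ^ 2) ^ 2 with hY
  have hY0 : 0 ≤ Y := by positivity
  have e3 : K2 * (s ^ 4 * (5 / 48)) ≤ K2 * (Y * (5 / 48)) := by gcongr
  have e4 : u * s ^ 3 * r ≤ Y / 2 * r := by
    have : u * s ^ 3 ≤ Y / 2 := by linarith
    gcongr
  have e5 : 0 ≤ K2 * Y := by positivity
  have e6 : 0 ≤ r * Y := by positivity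
  linarith [e3, e4, h, e5, e6]

lemma pt_close {b k τ : ℝ} (hb : 0 < b) (hk : k ≠ 0) (hbk : b * |k| ≤ 1) (h0 : 0 ≤ τ)
    (h1 : τ < 1) :
    |k ^ 2 * (1 / den τ (b * k)) - 1 / (zz k τ + b ^ 2)| ≤ k ^ 2 + 3 / b * |k| := by
  set u := 1 - τ with hu
  have hu0 : 0 < u := by linarith
  have hu1 : u ≤ 1 := by linarith
  set s := b * |k| with hs
  have hk0 : 0 < |k| := abs_pos.mpr hk
  have hs0 : 0 < s := by positivity
  have hs2 : s ^ 2 = b ^ 2 * k ^ 2 := by rw [hs, mul_pow, sq_abs]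
  have hcos : Real.cos (b * k) = Real.cos s := by
    rw [hs, ← Real.cos_abs (b * k), abs_mul, abs_of_pos hb]
  set q := 2 - 2 * Real.cos (b * k) with hq
  have hq1 : q ≤ s ^ 2 := by
    rw [hq, hcos]; linarith [Real.one_sub_sq_div_two_le_cos (x := s)]
  have hq2 : s ^ 2 - s ^ 4 * (5 / 48) ≤ q := by
    rw [hq, hcos]
    have := Real.cos_bound (x := s) (by rw [abs_of_pos hs0]; exact hbk)
    rw [abs_of_pos hs0] at this
    have := (abs_le.mp this).2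
    linarith
  obtain ⟨hd5, hnum0, hnum1⟩ := pt_aux hu0 hu1 hs0 hbk hq1 hq2
  have hden : den τ (b * k) = u ^ 2 + (1 - u) * q := by
    rw [hq, hu]; unfold den; ring
  have hX : zz k τ + b ^ 2 = (u ^ 2 + s ^ 2) / k ^ 2 := by
    unfold zz; rw [hs2]; field_simp
    rfl
  have hk2 : 0 < k ^ 2 := by positivity
  have hus : 0 < u ^ 2 + s ^ 2 := by positivity
  have hdp : 0 < u ^ 2 + (1 - u) * q := lt_of_lt_of_le (by positivity) hd5
  rw [hden, hX, one_div_div]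
  have hdiff : k ^ 2 * (1 / (u ^ 2 + (1 - u) * q)) - k ^ 2 / (u ^ 2 + s ^ 2) =
      k ^ 2 * (s ^ 2 - (1 - u) * q) / ((u ^ 2 + (1 - u) * q) * (u ^ 2 + s ^ 2)) := by
    field_simp; ring
  rw [hdiff, abs_of_nonneg (by positivity), div_le_iff₀ (by positivity)]
  have e3 : (u ^ 2 + s ^ 2) ^ 2 / 5 ≤ (u ^ 2 + (1 - u) * q) * (u ^ 2 + s ^ 2) := by
    calc (u ^ 2 + s ^ 2) ^ 2 / 5 = (u ^ 2 + s ^ 2) / 5 * (u ^ 2 + s ^ 2) := by ring
      _ ≤ _ := by gcongr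
  have h5 : u * s ^ 2 * k ^ 2 = u * s ^ 3 * (|k| / b) := by
    rw [hs, ← sq_abs k]; field_simp
  have e7 : 0 ≤ |k| / b := by positivity
  calc k ^ 2 * (s ^ 2 - (1 - u) * q) ≤ k ^ 2 * (s ^ 4 * (5 / 48) + u * s ^ 2) := by gcongr
    _ ≤ (k ^ 2 + 3 * (|k| / b)) * ((u ^ 2 + s ^ 2) ^ 2 / 5) :=
        pt_aux2 hu0 hs0 e7 hk2.le h5
    _ ≤ (k ^ 2 + 3 * (|k| / b)) * ((u ^ 2 + (1 - u) * q) * (u ^ 2 + s ^ 2)) := by gcongr
    _ = _ := by ring

/-! ### good momenta -/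

/-- the properties of `m k` valid for almost all small `k`. -/
structure Good (m : Kernel ℝ ℝ) (C k : ℝ) : Prop where
  supp : ∀ᵐ τ ∂(m k), 0 ≤ τ ∧ τ < 1
  mass : m k univ ≤ ENNReal.ofReal C
  inv : ∫⁻ τ, ENNReal.ofReal (1 / (1 - τ) ^ 2) ∂(m k) ≤ ENNReal.ofReal (C / k ^ 2)

lemma ae_good {V : ℤ → ℤ → ℝ} {m : Kernel ℝ ℝ} {c κ C k0 : ℝ} (hS : Spec V m c κ C k0) :
    ∀ᵐ k : ℝ, |k| < k0 → k ≠ 0 → Good m C k := by
  filter_upwards [hS.supp, hS.mass, hS.inv] with k h1 h2 h3 h4 h5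
  exact ⟨h1, h2 h4, h3 h4 h5⟩

namespace Good

variable {m : Kernel ℝ ℝ} {C k : ℝ}

lemma fin (h : Good m C k) : IsFiniteMeasure (m k) :=
  ⟨h.mass.trans_lt ENNReal.ofReal_lt_top⟩

lemma real_le (h : Good m C k) (hC : 0 ≤ C) : (m k).real univ ≤ C :=
  ENNReal.toReal_le_of_le_ofReal hC h.mass

lemma integrable_inv (h : Good m C k) : Integrable (fun τ => 1 / (1 - τ) ^ 2) (m k) := by
  refine ⟨(by fun_prop : Measurable fun τ : ℝ => 1 / (1 - τ) ^ 2).aestronglyMeasurable, ?_⟩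
  rw [hasFiniteIntegral_iff_ofReal (Eventually.of_forall fun τ => by positivity)]
  exact h.inv.trans_lt ENNReal.ofReal_lt_top

lemma integrable_den (h : Good m C k) (θ : ℝ) : Integrable (fun τ => 1 / den τ θ) (m k) := by
  refine h.integrable_inv.mono' (den_measurable θ).aestronglyMeasurable ?_
  filter_upwards [h.supp] with τ hτ
  have h1 := den_pos hτ.1 hτ.2 θ
  have h2 := sq_le_den hτ.1 θ
  have h3 : 0 < (1 - τ) ^ 2 := by have : 0 < 1 - τ := by linarith [hτ.2]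
                                  positivity
  rw [Real.norm_eq_abs, abs_of_pos (by positivity)]
  exact one_div_le_one_div_of_le h3 h2

lemma integrable_bdd (h : Good m C k) {f : ℝ → ℝ} (hf : Measurable f) (B : ℝ)
    (hB : ∀ τ, 0 ≤ τ → τ < 1 → |f τ| ≤ B) : Integrable f (m k) := by
  have := h.fin
  refine Integrable.mono' (integrable_const B) hf.aestronglyMeasurable ?_
  filter_upwards [h.supp] with τ hτ
  exact hB τ hτ.1 hτ.2

lemma integrable_zz (h : Good m C k) {b : ℝ} (hb : 0 < b) :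
    Integrable (fun τ => 1 / (zz k τ + b)) (m k) := by
  have hm := zz_measurable k
  refine h.integrable_bdd (by fun_prop) (1 / b) fun τ _ _ => ?_
  have := zz_nonneg k τ
  rw [abs_of_pos (by positivity)]
  exact one_div_le_one_div_of_le hb (by linarith)

/-- Markov type inequality. -/
lemma mul_real_le (h : Good m C k) {S : Set ℝ} (hSm : MeasurableSet S) {f : ℝ → ℝ}
    (hf : Integrable f (m k)) (hf0 : ∀ τ, 0 ≤ τ → τ < 1 → 0 ≤ f τ) {w : ℝ}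
    (hw : ∀ τ ∈ S, 0 ≤ τ → τ < 1 → w ≤ f τ) : w * (m k).real S ≤ ∫ τ, f τ ∂(m k) := by
  have := h.fin
  calc w * (m k).real S = ∫ _τ in S, w ∂(m k) := by
        rw [setIntegral_const, smul_eq_mul, mul_comm]
    _ ≤ ∫ τ in S, f τ ∂(m k) := by
        refine setIntegral_mono_on_ae (integrableOn_const (measure_ne_top _ _))
          hf.integrableOn hSm ?_
        filter_upwards [h.supp] with τ hτ hS
        exact hw τ hS hτ.1 hτ.2
    _ ≤ ∫ τ, f τ ∂(m k) := by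
        refine setIntegral_le_integral hf ?_
        filter_upwards [h.supp] with τ hτ
        exact hf0 τ hτ.1 hτ.2

lemma J_close (h : Good m C k) (hC : 0 ≤ C) {b : ℝ} (hb : 0 < b) (hk : k ≠ 0)
    (hbk : b * |k| ≤ 1) :
    |k ^ 2 * (∫ τ, 1 / den τ (b * k) ∂(m k)) - ∫ τ, 1 / (zz k τ + b ^ 2) ∂(m k)| ≤
      (k ^ 2 + 3 / b * |k|) * C := by
  have := h.fin
  rw [← integral_const_mul, ← integral_sub ((h.integrable_den _).const_mul _)
    (h.integrable_zz (by positivity)), ← Real.norm_eq_abs]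
  refine (norm_integral_le_of_norm_le_const (C := k ^ 2 + 3 / b * |k|) ?_).trans ?_
  · filter_upwards [h.supp] with τ hτ
    exact pt_close hb hk hbk hτ.1 hτ.2
  · have := h.real_le hC
    have h2 : 0 ≤ k ^ 2 + 3 / b * |k| := by positivity
    gcongr

end Good

lemma lim_J {V : ℤ → ℤ → ℝ} {m : Kernel ℝ ℝ} {c κ C k0 : ℝ} (hS : Spec V m c κ C k0)
    {b : ℝ} (hb : 0 < b) {ε : ℝ} (hε : 0 < ε) : ∃ η > 0, ∀ᵐ k : ℝ, |k| < η → k ≠ 0 →
      |(∫ τ, 1 / (zz k τ + b ^ 2) ∂(m k)) - κ / (c ^ 2 + b ^ 2)| ≤ ε := by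
  have hc := hS.c_pos
  have hC := hS.C_pos
  have hd : 0 < c ^ 2 + b ^ 2 := by positivity
  obtain ⟨η1, hη1, h1⟩ := hS.lim (ε / 2 * (c ^ 2 + b ^ 2)) (by positivity)
  have hD : 0 < (1 + 3 / b) * C := by positivity
  refine ⟨min (min k0 η1) (min (min (1 / b) (η1 / b)) (min 1 (ε / 2 / ((1 + 3 / b) * C)))),
    lt_min (lt_min hS.k0_pos hη1) (lt_min (lt_min (by positivity) (by positivity))
      (lt_min one_pos (by positivity))), ?_⟩
  filter_upwards [ae_good hS, h1] with k hg h2 hk hk0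
  simp only [lt_min_iff] at hk
  obtain ⟨⟨hka, hkb⟩, ⟨hkc, hkd⟩, hke, hkf⟩ := hk
  have hG := hg hka hk0
  rw [lt_div_iff₀ hb, mul_comm] at hkc hkd
  rw [lt_div_iff₀ hD] at hkf
  have h3 := hG.J_close hC.le hb hk0 hkc.le
  have h4 := h2 hkb hk0 (b * k) (by rw [abs_mul, abs_of_pos hb]; exact hkd)
  set P := ∫ τ, 1 / den τ (b * k) ∂(m k)
  set J := ∫ τ, 1 / (zz k τ + b ^ 2) ∂(m k)
  have h5 : |k ^ 2 * P - κ / (c ^ 2 + b ^ 2)| ≤ ε / 2 := by
    have h6 : (c ^ 2 * k ^ 2 + (b * k) ^ 2) * P - κ =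
        (k ^ 2 * P - κ / (c ^ 2 + b ^ 2)) * (c ^ 2 + b ^ 2) := by
      field_simp
    rw [h6, abs_mul, abs_of_pos hd] at h4
    exact le_of_mul_le_mul_right h4 hd
  have h7 : (k ^ 2 + 3 / b * |k|) * C ≤ ε / 2 := by
    have h8 : k ^ 2 ≤ |k| := by
      rw [← sq_abs]; nlinarith [abs_nonneg k]
    calc (k ^ 2 + 3 / b * |k|) * C ≤ (|k| + 3 / b * |k|) * C := by gcongr
      _ = |k| * ((1 + 3 / b) * C) := by ring
      _ ≤ _ := hkf.le
  have h9 := abs_le.mp h3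
  have h10 := abs_le.mp h5
  rw [abs_le]
  constructor <;> linarith

/-- the test function of the concentration. -/
noncomputable def Wf (c z : ℝ) : ℝ := (z - c ^ 2) ^ 2 / ((z + 1) * (z + 4) * (z + 9))

lemma Wf_eq (c : ℝ) {z : ℝ} (hz : 0 ≤ z) : Wf c z = (1 + c ^ 2) ^ 2 / 24 * (1 / (z + 1 ^ 2)) +
    (-((4 + c ^ 2) ^ 2 / 15)) * (1 / (z + 2 ^ 2)) + (9 + c ^ 2) ^ 2 / 40 * (1 / (z + 3 ^ 2)) := by
  unfold Wf
  have h1 : z + 1 ≠ 0 := by positivity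
  have h2 : z + 4 ≠ 0 := by positivity
  have h3 : z + 9 ≠ 0 := by positivity
  norm_num
  field_simp
  ring

lemma Wf_nonneg (c : ℝ) {z : ℝ} (hz : 0 ≤ z) : 0 ≤ Wf c z := by
  unfold Wf; positivity

lemma Good.integrable_W {m : Kernel ℝ ℝ} {C k : ℝ} (h : Good m C k) (c : ℝ) :
    Integrable (fun τ => Wf c (zz k τ)) (m k) := by
  have : (fun τ => Wf c (zz k τ)) = fun τ => (1 + c ^ 2) ^ 2 / 24 * (1 / (zz k τ + 1 ^ 2)) +
    (-((4 + c ^ 2) ^ 2 / 15)) * (1 / (zz k τ + 2 ^ 2)) +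
      (9 + c ^ 2) ^ 2 / 40 * (1 / (zz k τ + 3 ^ 2)) :=
    funext fun τ => Wf_eq c (zz_nonneg k τ)
  rw [this]
  exact (((h.integrable_zz (by norm_num)).const_mul _).add
    ((h.integrable_zz (by norm_num)).const_mul _)).add
      ((h.integrable_zz (by norm_num)).const_mul _)

lemma Good.integral_W {m : Kernel ℝ ℝ} {C k : ℝ} (h : Good m C k) (c : ℝ) :
    ∫ τ, Wf c (zz k τ) ∂(m k) = (1 + c ^ 2) ^ 2 / 24 * (∫ τ, 1 / (zz k τ + 1 ^ 2) ∂(m k)) +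
    (-((4 + c ^ 2) ^ 2 / 15)) * (∫ τ, 1 / (zz k τ + 2 ^ 2) ∂(m k)) +
      (9 + c ^ 2) ^ 2 / 40 * (∫ τ, 1 / (zz k τ + 3 ^ 2) ∂(m k)) := by
  have : (fun τ => Wf c (zz k τ)) = fun τ => (1 + c ^ 2) ^ 2 / 24 * (1 / (zz k τ + 1 ^ 2)) +
    (-((4 + c ^ 2) ^ 2 / 15)) * (1 / (zz k τ + 2 ^ 2)) +
      (9 + c ^ 2) ^ 2 / 40 * (1 / (zz k τ + 3 ^ 2)) :=
    funext fun τ => Wf_eq c (zz_nonneg k τ)
  have i1 : Integrable (fun τ => 1 / (zz k τ + 1 ^ 2)) (m k) := h.integrable_zz (by norm_num)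
  have i2 : Integrable (fun τ => 1 / (zz k τ + 2 ^ 2)) (m k) := h.integrable_zz (by norm_num)
  have i3 : Integrable (fun τ => 1 / (zz k τ + 3 ^ 2)) (m k) := h.integrable_zz (by norm_num)
  have iA : Integrable (fun τ => (1 + c ^ 2) ^ 2 / 24 * (1 / (zz k τ + 1 ^ 2)) +
      (-((4 + c ^ 2) ^ 2 / 15)) * (1 / (zz k τ + 2 ^ 2))) (m k) :=
    (i1.const_mul _).add (i2.const_mul _)
  rw [this, integral_add iA (i3.const_mul _),
    integral_add (i1.const_mul _) (i2.const_mul _), integral_const_mul, integral_const_mul,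
    integral_const_mul]

lemma lim_W {V : ℤ → ℤ → ℝ} {m : Kernel ℝ ℝ} {c κ C k0 : ℝ} (hS : Spec V m c κ C k0)
    {ε : ℝ} (hε : 0 < ε) : ∃ η > 0, ∀ᵐ k : ℝ, |k| < η → k ≠ 0 →
      ∫ τ, Wf c (zz k τ) ∂(m k) ≤ ε := by
  set A := (1 + c ^ 2) ^ 2 / 24 + (4 + c ^ 2) ^ 2 / 15 + (9 + c ^ 2) ^ 2 / 40 with hA
  have hA0 : 0 < A := by positivity
  have hc := hS.c_pos
  obtain ⟨η1, hη1, h1⟩ := lim_J hS (b := 1) one_pos (ε := ε / A) (by positivity)
  obtain ⟨η2, hη2, h2⟩ := lim_J hS (b := 2) two_pos (ε := ε / A) (by positivity)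
  obtain ⟨η3, hη3, h3⟩ := lim_J hS (b := 3) three_pos (ε := ε / A) (by positivity)
  refine ⟨min k0 (min η1 (min η2 η3)), lt_min hS.k0_pos (lt_min hη1 (lt_min hη2 hη3)), ?_⟩
  filter_upwards [ae_good hS, h1, h2, h3] with k hg g1 g2 g3 hk hk0
  simp only [lt_min_iff] at hk
  have hG := hg hk.1 hk0
  rw [hG.integral_W]
  have f1 := (abs_le.mp (g1 hk.2.1 hk0)).2
  have f2 := (abs_le.mp (g2 hk.2.2.1 hk0)).1
  have f3 := (abs_le.mp (g3 hk.2.2.2 hk0)).2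
  set J1 := ∫ τ, 1 / (zz k τ + 1 ^ 2) ∂(m k)
  set J2 := ∫ τ, 1 / (zz k τ + 2 ^ 2) ∂(m k)
  set J3 := ∫ τ, 1 / (zz k τ + 3 ^ 2) ∂(m k)
  have e1 : J1 ≤ κ / (c ^ 2 + 1 ^ 2) + ε / A := by linarith
  have e2 : κ / (c ^ 2 + 2 ^ 2) - ε / A ≤ J2 := by linarith
  have e3 : J3 ≤ κ / (c ^ 2 + 3 ^ 2) + ε / A := by linarith
  have hz : (1 + c ^ 2) ^ 2 / 24 * (κ / (c ^ 2 + 1 ^ 2)) +
      (-((4 + c ^ 2) ^ 2 / 15)) * (κ / (c ^ 2 + 2 ^ 2)) +
      (9 + c ^ 2) ^ 2 / 40 * (κ / (c ^ 2 + 3 ^ 2)) = 0 := by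
    norm_num
    have h1 : c ^ 2 + 1 ≠ 0 := by positivity
    have h2 : c ^ 2 + 4 ≠ 0 := by positivity
    have h3 : c ^ 2 + 9 ≠ 0 := by positivity
    field_simp
    ring
  have m1 := mul_le_mul_of_nonneg_left e1 (by positivity : 0 ≤ (1 + c ^ 2) ^ 2 / 24)
  have m2 := mul_le_mul_of_nonneg_left e2 (by positivity : 0 ≤ (4 + c ^ 2) ^ 2 / 15)
  have m3 := mul_le_mul_of_nonneg_left e3 (by positivity : 0 ≤ (9 + c ^ 2) ^ 2 / 40)
  have hfin : A * (ε / A) = ε := by field_simp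
  rw [hA] at hfin
  nlinarith

/-! ### the three parts -/

lemma zz_eq {k τ : ℝ} : zz k τ = ((1 - τ) / |k|) ^ 2 := by
  unfold zz
  rw [div_pow, div_pow, sq_abs]

lemma W_low {c y A δ : ℝ} (hc : 0 < c) (hδ : 0 < δ) (hy : 0 ≤ y) (hyA : y ≤ A)
    (h : δ ≤ |y - c|) : (δ * c) ^ 2 / ((A ^ 2 + 1) * (A ^ 2 + 4) * (A ^ 2 + 9)) ≤
      Wf c (y ^ 2) := by
  unfold Wf
  have hA : 0 ≤ A := hy.trans hyA
  have h1 : y ^ 2 ≤ A ^ 2 := by gcongr
  have h2 : (δ * c) ^ 2 ≤ (y ^ 2 - c ^ 2) ^ 2 := by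
    have h3 : δ ^ 2 ≤ (y - c) ^ 2 := by
      rw [← sq_abs (y - c)]; gcongr
    have h4 : c ^ 2 ≤ (y + c) ^ 2 := by
      have : c ≤ y + c := by linarith
      gcongr
    calc (δ * c) ^ 2 = δ ^ 2 * c ^ 2 := by ring
      _ ≤ (y - c) ^ 2 * (y + c) ^ 2 := by gcongr
      _ = _ := by ring
  gcongr

lemma measurableSet_ring (A δ c k : ℝ) :
    MeasurableSet {τ : ℝ | 1 - τ ≤ A * |k| ∧ δ * |k| ≤ abs ((1 - τ) - c * abs k)} := by
  have h1 : MeasurableSet {τ : ℝ | 1 - τ ≤ A * |k|} :=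
    measurableSet_le (by fun_prop) (by fun_prop)
  have h2 : MeasurableSet {τ : ℝ | δ * |k| ≤ abs ((1 - τ) - c * abs k)} :=
    measurableSet_le (by fun_prop) (by fun_prop)
  exact h1.inter h2

lemma measurableSet_near (δ c k : ℝ) :
    MeasurableSet {τ : ℝ | abs ((1 - τ) - c * abs k) < δ * |k|} :=
  measurableSet_lt (by fun_prop) (by fun_prop)

lemma measurableSet_mid (A η k : ℝ) :
    MeasurableSet {τ : ℝ | A * |k| < 1 - τ ∧ 1 - τ < η} := by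
  have h1 : MeasurableSet {τ : ℝ | A * |k| < 1 - τ} :=
    measurableSet_lt (by fun_prop) (by fun_prop)
  have h2 : MeasurableSet {τ : ℝ | 1 - τ < η} :=
    measurableSet_lt (by fun_prop) (by fun_prop)
  exact h1.inter h2

lemma abs_sub_div {c k τ : ℝ} (hk : k ≠ 0) :
    abs ((1 - τ) / abs k - c) = abs ((1 - τ) - c * abs k) / abs k := by
  have hk0 : 0 < |k| := abs_pos.mpr hk
  have : (1 - τ) / |k| - c = ((1 - τ) - c * |k|) / |k| := by
    field_simp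
  rw [this, abs_div, abs_abs]

lemma conc_a {V : ℤ → ℤ → ℝ} {m : Kernel ℝ ℝ} {c κ C k0 : ℝ} (hS : Spec V m c κ C k0)
    {A δ ε : ℝ} (hA : 0 < A) (hδ : 0 < δ) (hε : 0 < ε) : ∃ η > 0, ∀ᵐ k : ℝ, |k| < η → k ≠ 0 →
      (m k).real {τ | 1 - τ ≤ A * |k| ∧ δ * |k| ≤ abs ((1 - τ) - c * abs k)} ≤ ε := by
  have hc := hS.c_pos
  set w := (δ * c) ^ 2 / ((A ^ 2 + 1) * (A ^ 2 + 4) * (A ^ 2 + 9)) with hw
  have hw0 : 0 < w := by positivity
  obtain ⟨η, hη, h1⟩ := lim_W hS (ε := w * ε) (by positivity)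
  refine ⟨min k0 η, lt_min hS.k0_pos hη, ?_⟩
  filter_upwards [ae_good hS, h1] with k hg h2 hk hk0
  rw [lt_min_iff] at hk
  have hG := hg hk.1 hk0
  have hkp : 0 < |k| := abs_pos.mpr hk0
  have h3 := hG.mul_real_le (measurableSet_ring A δ c k) (hG.integrable_W c)
    (fun τ _ _ => Wf_nonneg c (zz_nonneg k τ)) (w := w) (by
      intro τ hτ h0 h1
      rw [zz_eq]
      refine W_low hc hδ (by have : 0 ≤ 1 - τ := by linarith
                             positivity) ?_ ?_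
      · rw [div_le_iff₀ hkp]; exact hτ.1
      · rw [abs_sub_div hk0, le_div_iff₀ hkp]; exact hτ.2)
  have h4 := h2 hk.2 hk0
  exact le_of_mul_le_mul_left (h3.trans h4) hw0

lemma far_bound {c y δ : ℝ} (hc : 0 < c) (hδ : 0 < δ) (hy : 0 ≤ y) (h : δ ≤ |y - c|) :
    1 / (y ^ 2 + 1) ≤ (1 + 9 / c ^ 2) * (2 + (2 * c ^ 2 + 4) / δ ^ 2) * Wf c (y ^ 2) := by
  unfold Wf
  have hsq : δ ^ 2 ≤ (y - c) ^ 2 := by
    rw [← sq_abs (y - c)]; gcongr
  have hd0 : 0 < (y - c) ^ 2 := lt_of_lt_of_le (by positivity) hsq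
  have h1 : y ^ 2 + 9 ≤ (1 + 9 / c ^ 2) * (y + c) ^ 2 := by
    have e1 : y ^ 2 + c ^ 2 ≤ (y + c) ^ 2 := by nlinarith
    calc y ^ 2 + 9 ≤ (1 + 9 / c ^ 2) * (y ^ 2 + c ^ 2) := by
          have : (1 + 9 / c ^ 2) * (y ^ 2 + c ^ 2) = y ^ 2 + 9 + c ^ 2 + 9 / c ^ 2 * y ^ 2 := by
            field_simp; ring
          rw [this]
          have : 0 ≤ 9 / c ^ 2 * y ^ 2 := by positivity
          nlinarith [sq_nonneg c]
      _ ≤ _ := by gcongr
  have h2 : y ^ 2 + 4 ≤ (2 + (2 * c ^ 2 + 4) / δ ^ 2) * (y - c) ^ 2 := by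
    have e1 : y ^ 2 ≤ 2 * (y - c) ^ 2 + 2 * c ^ 2 := by nlinarith [sq_nonneg (y - 2 * c)]
    have e2 : (2 * c ^ 2 + 4) ≤ (2 * c ^ 2 + 4) / δ ^ 2 * (y - c) ^ 2 := by
      rw [div_mul_eq_mul_div, le_div_iff₀ (by positivity)]
      gcongr
    linarith
  rw [mul_div_assoc', div_le_div_iff₀ (by positivity) (by positivity), one_mul]
  calc (y ^ 2 + 1) * (y ^ 2 + 4) * (y ^ 2 + 9)
      = (y ^ 2 + 4) * (y ^ 2 + 9) * (y ^ 2 + 1) := by ring
    _ ≤ ((2 + (2 * c ^ 2 + 4) / δ ^ 2) * (y - c) ^ 2) * ((1 + 9 / c ^ 2) * (y + c) ^ 2) *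
        (y ^ 2 + 1) := by gcongr
    _ = _ := by ring

lemma near_bound {c y δ : ℝ} (hc : 0 < c) (hy : 0 ≤ y) (h : |y - c| < δ) :
    |1 / (y ^ 2 + 1) - 1 / (c ^ 2 + 1)| ≤ δ := by
  have h1 : 1 / (y ^ 2 + 1) - 1 / (c ^ 2 + 1) =
      -((y - c) * ((y + c) / ((y ^ 2 + 1) * (c ^ 2 + 1)))) := by
    field_simp; ring
  have h2 : (y + c) / ((y ^ 2 + 1) * (c ^ 2 + 1)) ≤ 1 := by
    rw [div_le_one (by positivity)]
    nlinarith [sq_nonneg (y - 1), sq_nonneg (c - 1), mul_nonneg (sq_nonneg y) (sq_nonneg c)]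
  have h3 : 0 ≤ (y + c) / ((y ^ 2 + 1) * (c ^ 2 + 1)) := by positivity
  rw [h1, abs_neg, abs_mul, abs_of_nonneg h3]
  nlinarith [abs_nonneg (y - c)]

lemma conc_b0 {V : ℤ → ℤ → ℝ} {m : Kernel ℝ ℝ} {c κ C k0 : ℝ} (hS : Spec V m c κ C k0)
    {δ ε : ℝ} (hδ : 0 < δ) (hε : 0 < ε) (hδε : (c ^ 2 + 1) * (δ * C) ≤ ε / 3) :
    ∃ η > 0, ∀ᵐ k : ℝ, |k| < η → k ≠ 0 →
      |(m k).real {τ | abs ((1 - τ) - c * abs k) < δ * |k|} - κ| ≤ ε := by
  have hc := hS.c_pos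
  have hC := hS.C_pos
  set D := (1 + 9 / c ^ 2) * (2 + (2 * c ^ 2 + 4) / δ ^ 2) with hD
  have hD0 : 0 < D := by positivity
  obtain ⟨η1, hη1, h1⟩ := lim_W hS (ε := ε / (3 * (c ^ 2 + 1) * D)) (by positivity)
  obtain ⟨η2, hη2, h2⟩ := lim_J hS (b := 1) one_pos (ε := ε / (3 * (c ^ 2 + 1))) (by positivity)
  refine ⟨min k0 (min η1 η2), lt_min hS.k0_pos (lt_min hη1 hη2), ?_⟩
  filter_upwards [ae_good hS, h1, h2] with k hg g1 g2 hk hk0
  simp only [lt_min_iff] at hk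
  have hG := hg hk.1 hk0
  have hfin := hG.fin
  have hkp : 0 < |k| := abs_pos.mpr hk0
  have f1 := g1 hk.2.1 hk0
  have f2 := g2 hk.2.2 hk0
  set S := {τ : ℝ | abs ((1 - τ) - c * abs k) < δ * |k|} with hSdef
  have hSm : MeasurableSet S := measurableSet_near δ c k
  have iJ : Integrable (fun τ => 1 / (zz k τ + 1 ^ 2)) (m k) := hG.integrable_zz (by norm_num)
  have iS : Integrable (S.indicator fun _ => 1 / (c ^ 2 + 1)) (m k) :=
    (integrable_const _).indicator hSm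
  have key : |(∫ τ, 1 / (zz k τ + 1 ^ 2) ∂(m k)) - 1 / (c ^ 2 + 1) * (m k).real S| ≤
      δ * C + D * ∫ τ, Wf c (zz k τ) ∂(m k) := by
    have e1 : 1 / (c ^ 2 + 1) * (m k).real S =
        ∫ τ, S.indicator (fun _ => 1 / (c ^ 2 + 1)) τ ∂(m k) := by
      rw [integral_indicator_const _ hSm, smul_eq_mul, mul_comm]
    rw [e1, ← integral_sub iJ iS, ← Real.norm_eq_abs]
    have e2 : ‖∫ τ, (1 / (zz k τ + 1 ^ 2) - S.indicator (fun _ => 1 / (c ^ 2 + 1)) τ) ∂(m k)‖ ≤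
        ∫ τ, (δ + D * Wf c (zz k τ)) ∂(m k) := by
      refine norm_integral_le_of_norm_le ((integrable_const _).add
        ((hG.integrable_W c).const_mul _)) ?_
      filter_upwards [hG.supp] with τ hτ
      have hy : 0 ≤ (1 - τ) / |k| := by
        have : 0 ≤ 1 - τ := by linarith [hτ.2]
        positivity
      rw [Real.norm_eq_abs]
      have hW0 := Wf_nonneg c (zz_nonneg k τ)
      by_cases hτS : τ ∈ S
      · rw [indicator_of_mem hτS, zz_eq, one_pow]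
        rw [zz_eq] at hW0
        have h6 : abs ((1 - τ) / abs k - c) < δ := by
          rw [abs_sub_div hk0, div_lt_iff₀ hkp]; exact hτS
        have := near_bound hc hy h6
        nlinarith
      · rw [indicator_of_notMem hτS, sub_zero, abs_of_nonneg (by
          have := zz_nonneg k τ
          positivity), one_pow, zz_eq]
        have h6 : δ ≤ abs ((1 - τ) / abs k - c) := by
          rw [abs_sub_div hk0, le_div_iff₀ hkp]
          exact not_lt.mp hτS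
        have := far_bound hc hδ hy h6
        linarith
    refine e2.trans ?_
    rw [integral_add (integrable_const _) ((hG.integrable_W c).const_mul _), integral_const_mul,
      integral_const, smul_eq_mul]
    have := hG.real_le hC.le
    nlinarith
  have f3 : D * ∫ τ, Wf c (zz k τ) ∂(m k) ≤ ε / (3 * (c ^ 2 + 1)) := by
    calc D * ∫ τ, Wf c (zz k τ) ∂(m k) ≤ D * (ε / (3 * (c ^ 2 + 1) * D)) := by gcongr
      _ = _ := by field_simp
  set J := ∫ τ, 1 / (zz k τ + 1 ^ 2) ∂(m k)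
  set μS := (m k).real S
  have h5 : μS - κ = (c ^ 2 + 1) * ((J - κ / (c ^ 2 + 1 ^ 2)) - (J - 1 / (c ^ 2 + 1) * μS)) := by
    rw [one_pow]
    field_simp; ring
  have h6 : |(J - κ / (c ^ 2 + 1 ^ 2)) - (J - 1 / (c ^ 2 + 1) * μS)| ≤
      ε / (3 * (c ^ 2 + 1)) + (δ * C + ε / (3 * (c ^ 2 + 1))) := by
    refine (abs_sub _ _).trans ?_
    linarith
  rw [h5, abs_mul, abs_of_pos (by positivity)]
  calc (c ^ 2 + 1) * |(J - κ / (c ^ 2 + 1 ^ 2)) - (J - 1 / (c ^ 2 + 1) * μS)|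
      ≤ (c ^ 2 + 1) * (ε / (3 * (c ^ 2 + 1)) + (δ * C + ε / (3 * (c ^ 2 + 1)))) := by gcongr
    _ = ε / 3 + (c ^ 2 + 1) * (δ * C) + ε / 3 := by field_simp; ring
    _ ≤ ε := by linarith

lemma conc_b {V : ℤ → ℤ → ℝ} {m : Kernel ℝ ℝ} {c κ C k0 : ℝ} (hS : Spec V m c κ C k0)
    {δ ε : ℝ} (hδ : 0 < δ) (hε : 0 < ε) : ∃ η > 0, ∀ᵐ k : ℝ, |k| < η → k ≠ 0 →
      |(m k).real {τ | abs ((1 - τ) - c * abs k) < δ * |k|} - κ| ≤ ε := by
  have hc := hS.c_pos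
  have hC := hS.C_pos
  obtain ⟨δ', hδ', hδδ', hδε⟩ : ∃ δ' > 0, δ' ≤ δ ∧ (c ^ 2 + 1) * (δ' * C) ≤ ε / 2 / 3 := by
    refine ⟨min δ (ε / 6 / ((c ^ 2 + 1) * C)), lt_min hδ (by positivity), min_le_left _ _, ?_⟩
    have h1 : min δ (ε / 6 / ((c ^ 2 + 1) * C)) ≤ ε / 6 / ((c ^ 2 + 1) * C) := min_le_right _ _
    rw [le_div_iff₀ (by positivity)] at h1
    linarith
  obtain ⟨η1, hη1, h1⟩ := conc_b0 hS hδ' (half_pos hε) hδε
  obtain ⟨η2, hη2, h2⟩ := conc_a hS (A := c + δ) (by positivity) hδ' (half_pos hε)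
  refine ⟨min k0 (min η1 η2), lt_min hS.k0_pos (lt_min hη1 hη2), ?_⟩
  filter_upwards [ae_good hS, h1, h2] with k hg g1 g2 hk hk0
  simp only [lt_min_iff] at hk
  have hG := hg hk.1 hk0
  have hfin := hG.fin
  have hkp : 0 < |k| := abs_pos.mpr hk0
  have f1 := abs_le.mp (g1 hk.2.1 hk0)
  have f2 := g2 hk.2.2 hk0
  have e1 : (m k).real {τ | abs ((1 - τ) - c * abs k) < δ' * |k|} ≤
      (m k).real {τ | abs ((1 - τ) - c * abs k) < δ * |k|} := by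
    refine measureReal_mono ?_ (measure_ne_top _ _)
    intro τ hτ
    have hτ' : abs ((1 - τ) - c * abs k) < δ' * |k| := hτ
    show abs ((1 - τ) - c * abs k) < δ * |k|
    refine hτ'.trans_le ?_
    gcongr
  have e2 : (m k).real {τ | abs ((1 - τ) - c * abs k) < δ * |k|} ≤
      (m k).real {τ | abs ((1 - τ) - c * abs k) < δ' * |k|} +
      (m k).real {τ | 1 - τ ≤ (c + δ) * |k| ∧ δ' * |k| ≤ abs ((1 - τ) - c * abs k)} := by
    refine le_trans (measureReal_mono ?_ (measure_ne_top _ _)) (measureReal_union_le _ _)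
    intro τ hτ
    have hτ' : abs ((1 - τ) - c * abs k) < δ * |k| := hτ
    by_cases h : abs ((1 - τ) - c * abs k) < δ' * |k|
    · exact Or.inl h
    · refine Or.inr ⟨?_, not_lt.mp h⟩
      have := (abs_lt.mp hτ').2
      linarith
  rw [abs_le]
  constructor <;> linarith

lemma conc_c {V : ℤ → ℤ → ℝ} {m : Kernel ℝ ℝ} {c κ C k0 : ℝ} (hS : Spec V m c κ C k0)
    {ε : ℝ} (hε : 0 < ε) : ∃ η > 0, ∃ η' > 0, ∀ᵐ k : ℝ, |k| < η' → k ≠ 0 →
      (m k).real {τ | (c + 1) * |k| < 1 - τ ∧ 1 - τ < η} ≤ ε := by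
  have hc := hS.c_pos
  have hC := hS.C_pos
  have hκ := hS.κ_nonneg
  obtain ⟨η1, hη1, h1⟩ := hS.lim (ε / 16) (by positivity)
  obtain ⟨η2, hη2, h2⟩ := conc_b hS one_pos (ε := ε / 16) (by positivity)
  set θ := η1 / 2 with hθ
  have hθ0 : 0 < θ := by positivity
  set ρ := min 1 (ε / (16 * (κ + 1))) with hρ
  have hρ0 : 0 < ρ := lt_min one_pos (by positivity)
  have hρ1 : ρ ≤ 1 := min_le_left _ _
  have hρκ : ρ * κ ≤ ε / 16 := by
    calc ρ * κ ≤ ε / (16 * (κ + 1)) * (κ + 1) := by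
          gcongr
          · exact min_le_right _ _
          · linarith
      _ = ε / 16 := by field_simp
  have hr0 : 0 < Real.sqrt ρ * θ / (c + 1) := by positivity
  refine ⟨θ, hθ0, min k0 (min (min η1 η2) (Real.sqrt ρ * θ / (c + 1))),
    lt_min hS.k0_pos (lt_min (lt_min hη1 hη2) hr0), ?_⟩
  filter_upwards [ae_good hS, h1, h2] with k hg g1 g2 hk hk0
  simp only [lt_min_iff] at hk
  obtain ⟨hka, ⟨hkb, hkc⟩, hkd⟩ := hk
  have hG := hg hka hk0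
  have hfin := hG.fin
  have hkp : 0 < |k| := abs_pos.mpr hk0
  have f1 := (abs_le.mp (g1 hkb hk0 θ (by rw [abs_of_pos hθ0, hθ]; linarith))).2
  have f2 := (abs_le.mp (g2 hkc hk0)).1
  rw [lt_div_iff₀ (by positivity)] at hkd
  have hk2 : (c + 1) ^ 2 * k ^ 2 ≤ ρ * θ ^ 2 := by
    have : (|k| * (c + 1)) ^ 2 ≤ (Real.sqrt ρ * θ) ^ 2 := by gcongr
    rw [mul_pow, mul_pow, sq_abs, Real.sq_sqrt hρ0.le] at this
    linarith
  set S1 := {τ : ℝ | abs ((1 - τ) - c * abs k) < 1 * |k|} with hS1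
  set S2 := {τ : ℝ | (c + 1) * |k| < 1 - τ ∧ 1 - τ < θ} with hS2
  have hS1m : MeasurableSet S1 := measurableSet_near 1 c k
  have hS2m : MeasurableSet S2 := measurableSet_mid _ _ _
  have i1 : Integrable (S1.indicator fun _ => (1 - ρ)) (m k) :=
    (integrable_const _).indicator hS1m
  have i2 : Integrable (S2.indicator fun _ => (1 / 2 : ℝ)) (m k) :=
    (integrable_const _).indicator hS2m
  have key : ∫ τ, (S1.indicator (fun _ => (1 - ρ)) τ + S2.indicator (fun _ => (1 / 2 : ℝ)) τ)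
      ∂(m k) ≤ ∫ τ, (c ^ 2 * k ^ 2 + θ ^ 2) * (1 / den τ θ) ∂(m k) := by
    refine integral_mono_ae (i1.add i2) ((hG.integrable_den θ).const_mul _) ?_
    filter_upwards [hG.supp] with τ hτ
    have hd0 := den_pos hτ.1 hτ.2 θ
    have hd1 := den_le hτ.1 hτ.2 θ
    have hu : 0 < 1 - τ := by linarith [hτ.2]
    have hck : 0 ≤ c ^ 2 * k ^ 2 := by positivity
    show S1.indicator (fun _ => (1 - ρ)) τ + S2.indicator (fun _ => (1 / 2 : ℝ)) τ ≤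
      (c ^ 2 * k ^ 2 + θ ^ 2) * (1 / den τ θ)
    by_cases h1 : τ ∈ S1
    · have h1' : abs ((1 - τ) - c * abs k) < 1 * |k| := h1
      have h2 : τ ∉ S2 := by
        intro h2
        have h3 := (abs_lt.mp h1').2
        have h4 := h2.1
        linarith
      rw [indicator_of_mem h1, indicator_of_notMem h2, add_zero, mul_one_div,
        le_div_iff₀ hd0]
      have h3 := (abs_lt.mp h1').2
      have h5 : (1 - τ) ^ 2 ≤ ρ * θ ^ 2 := by
        have : 1 - τ ≤ (c + 1) * |k| := by linarith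
        calc (1 - τ) ^ 2 ≤ ((c + 1) * |k|) ^ 2 := by gcongr
          _ = (c + 1) ^ 2 * k ^ 2 := by rw [mul_pow, sq_abs]
          _ ≤ _ := hk2
      calc (1 - ρ) * den τ θ ≤ (1 - ρ) * ((1 - τ) ^ 2 + θ ^ 2) := by
            have : 0 ≤ 1 - ρ := by linarith
            gcongr
        _ ≤ (1 - ρ) * (ρ * θ ^ 2 + θ ^ 2) := by
            have : 0 ≤ 1 - ρ := by linarith
            gcongr
        _ = θ ^ 2 - ρ ^ 2 * θ ^ 2 := by ring
        _ ≤ c ^ 2 * k ^ 2 + θ ^ 2 := by nlinarith [sq_nonneg (ρ * θ)]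
    · rw [indicator_of_notMem h1, zero_add]
      by_cases h2 : τ ∈ S2
      · rw [indicator_of_mem h2, mul_one_div, le_div_iff₀ hd0]
        have h3 := h2.2
        have : (1 - τ) ^ 2 ≤ θ ^ 2 := by gcongr
        linarith
      · rw [indicator_of_notMem h2]
        positivity
  rw [integral_add i1 i2, integral_indicator_const _ hS1m, integral_indicator_const _ hS2m,
    integral_const_mul, smul_eq_mul, smul_eq_mul] at key
  have h6 : (κ - ε / 16) * (1 - ρ) ≤ (m k).real S1 * (1 - ρ) := by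
    have : 0 ≤ 1 - ρ := by linarith
    refine mul_le_mul_of_nonneg_right ?_ this
    linarith
  nlinarith

end Cn

open Cn in
theorem conc : ConcStatement := by
  intro V m c κ C k0 hS
  have hconv : ∀ {k ε : ℝ} {S : Set ℝ}, Good m C k → (m k).real S ≤ ε →
      m k S ≤ ENNReal.ofReal ε := by
    intro k ε S hG h
    have := hG.fin
    rw [← ofReal_measureReal (μ := m k) (s := S)]
    exact ENNReal.ofReal_le_ofReal h
  refine ⟨?_, ?_, ?_⟩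
  · intro ε hε A hA
    obtain ⟨η, hη, h⟩ := conc_a hS hA hε hε
    refine ⟨min k0 η, lt_min hS.k0_pos hη, ?_⟩
    filter_upwards [ae_good hS, h] with k hg g hk hk0
    rw [lt_min_iff] at hk
    exact hconv (hg hk.1 hk0) (g hk.2 hk0)
  · intro ε hε
    exact conc_b hS hε hε
  · intro ε hε
    obtain ⟨η, hη, η', hη', h⟩ := conc_c hS hε
    refine ⟨c + 1, by linarith [hS.c_pos], η, hη, min k0 η', lt_min hS.k0_pos hη', ?_⟩
    filter_upwards [ae_good hS, h] with k hg g hk hk0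
    rw [lt_min_iff] at hk
    exact hconv (hg hk.1 hk0) (g hk.2 hk0)

end Vale.Agent.P153.TwoPt
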