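import Mathlib

/-!
# P153, two-point part: Riemann sums of continuous functions of compact support in the plane
-/

open MeasureTheory Filter Topology Set
open scoped ENNReal Real

namespace Vale.Agent.P153.TwoPt

variable {E : Type*} [NormedAddCommGroup E] [NormedSpace ℝ E] [CompleteSpace E]

/-- Integral of a step function with cells of size `α × β`. -/
theorem integral_step (α β : ℝ) (hα : 0 < α) (hβ : 0 < β) (s : Finset (ℤ × ℤ))
    (g : ℤ × ℤ → E) (hg : ∀ p, p ∉ s → g p = 0) :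
    ∫ z : ℝ × ℝ, g (⌊z.1 / α⌋, ⌊z.2 / β⌋) = (α * β) • ∑ p ∈ s, g p := by
  have key : ∀ z : ℝ × ℝ, g (⌊z.1 / α⌋, ⌊z.2 / β⌋) =
      ∑ p ∈ s, (Ico (p.1 * α) ((p.1 + 1) * α) ×ˢ Ico (p.2 * β) ((p.2 + 1) * β)).indicator
        (fun _ => g p) z := by
    intro z
    have hmem : ∀ p : ℤ × ℤ, z ∈ (Ico (p.1 * α) ((p.1 + 1) * α) ×ˢ
        Ico (p.2 * β) ((p.2 + 1) * β) : Set (ℝ × ℝ)) ↔ (⌊z.1 / α⌋, ⌊z.2 / β⌋) = p := by
      intro p
      rw [Prod.ext_iff]
      simp only [mem_prod, mem_Ico]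
      rw [Int.floor_eq_iff, Int.floor_eq_iff, le_div_iff₀ hα, div_lt_iff₀ hα, le_div_iff₀ hβ,
        div_lt_iff₀ hβ]
    by_cases hs : (⌊z.1 / α⌋, ⌊z.2 / β⌋) ∈ s
    · rw [Finset.sum_eq_single_of_mem _ hs]
      · rw [indicator_of_mem ((hmem _).2 rfl)]
      · intro p _ hp
        exact indicator_of_notMem (fun h => hp ((hmem p).1 h).symm) _
    · rw [hg _ hs, Finset.sum_eq_zero]
      intro p hp
      exact indicator_of_notMem (fun h => hs ((hmem p).1 h ▸ hp)) _
  have hcell : ∀ p : ℤ × ℤ, volume (Ico ((p.1 : ℝ) * α) ((p.1 + 1) * α) ×ˢ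
      Ico ((p.2 : ℝ) * β) ((p.2 + 1) * β) : Set (ℝ × ℝ)) = ENNReal.ofReal (α * β) := by
    intro p
    rw [Measure.volume_eq_prod, Measure.prod_prod, Real.volume_Ico, Real.volume_Ico,
      ← ENNReal.ofReal_mul (by nlinarith)]
    congr 1
    ring
  simp_rw [key]
  rw [integral_finsetSum]
  · rw [Finset.smul_sum]
    refine Finset.sum_congr rfl fun p _ => ?_
    rw [integral_indicator_const _ (measurableSet_Ico.prod measurableSet_Ico), measureReal_def,
      hcell, ENNReal.toReal_ofReal (by positivity)]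
  · intro p _
    refine (integrable_indicator_iff (measurableSet_Ico.prod measurableSet_Ico)).2 ?_
    refine integrableOn_const ?_ (by simp)
    rw [hcell]
    exact ENNReal.ofReal_ne_top

/-- Riemann sums in the plane. -/
theorem riemann2 (F : ℝ × ℝ → E) (hF : Continuous F) (hc : HasCompactSupport F)
    (α β : ℕ → ℝ) (hα : ∀ n, 0 < α n) (hβ : ∀ n, 0 < β n) (hα0 : Tendsto α atTop (𝓝 0))
    (hβ0 : Tendsto β atTop (𝓝 0)) (s : ℕ → Finset (ℤ × ℤ))
    (hs : ∀ n, ∀ p : ℤ × ℤ, p ∉ s n → F (p.1 * α n, p.2 * β n) = 0) :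
    Tendsto (fun n => (α n * β n) • ∑ p ∈ s n, F (p.1 * α n, p.2 * β n)) atTop
      (𝓝 (∫ z, F z)) := by
  have h1 : ∀ n, (α n * β n) • ∑ p ∈ s n, F (p.1 * α n, p.2 * β n) =
      ∫ z : ℝ × ℝ, F (⌊z.1 / α n⌋ * α n, ⌊z.2 / β n⌋ * β n) := by
    intro n
    rw [← integral_step (α n) (β n) (hα n) (hβ n) (s n)
      (fun p : ℤ × ℤ => F (p.1 * α n, p.2 * β n)) (hs n)]
  simp_rw [h1]
  obtain ⟨C, hC⟩ := hc.exists_bound_of_continuous hF
  obtain ⟨R, hR⟩ := hc.isCompact.isBounded.subset_closedBall (0 : ℝ × ℝ)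
  have hsup : ∀ z : ℝ × ℝ, R < ‖z‖ → F z = 0 := by
    intro z hz
    by_contra h
    have := hR (subset_tsupport _ (Function.mem_support.2 h))
    rw [mem_closedBall_zero_iff] at this
    linarith
  have hfl : ∀ (a x : ℝ), 0 < a → |⌊x / a⌋ * a - x| ≤ a := by
    intro a x ha
    have h2 := Int.floor_le (x / a)
    have h3 := Int.lt_floor_add_one (x / a)
    rw [le_div_iff₀ ha] at h2
    rw [div_lt_iff₀ ha] at h3
    rw [abs_le]
    constructor <;> nlinarith
  have hα1 : ∀ᶠ n in atTop, α n < 1 := hα0.eventually (gt_mem_nhds one_pos)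
  have hβ1 : ∀ᶠ n in atTop, β n < 1 := hβ0.eventually (gt_mem_nhds one_pos)
  refine tendsto_integral_filter_of_dominated_convergence
    ((Metric.closedBall (0 : ℝ × ℝ) (R + 1)).indicator (fun _ => C)) ?_ ?_ ?_ ?_
  · refine Eventually.of_forall fun n => ?_
    refine StronglyMeasurable.aestronglyMeasurable ?_
    have hm : Measurable fun z : ℝ × ℝ => ((⌊z.1 / α n⌋, ⌊z.2 / β n⌋) : ℤ × ℤ) := by
      fun_prop
    have hm2 : StronglyMeasurable fun p : ℤ × ℤ => F (p.1 * α n, p.2 * β n) :=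
      StronglyMeasurable.of_discrete
    exact hm2.comp_measurable hm
  · filter_upwards [hα1, hβ1] with n hn1 hn2
    refine Eventually.of_forall fun z => ?_
    by_cases hz : z ∈ Metric.closedBall (0 : ℝ × ℝ) (R + 1)
    · rw [indicator_of_mem hz]
      exact hC _
    · rw [indicator_of_notMem hz]
      rw [mem_closedBall_zero_iff, not_le] at hz
      have h4 : R < ‖((⌊z.1 / α n⌋ * α n, ⌊z.2 / β n⌋ * β n) : ℝ × ℝ)‖ := by
        have h5 : ‖((⌊z.1 / α n⌋ * α n, ⌊z.2 / β n⌋ * β n) : ℝ × ℝ) - z‖ ≤ 1 := by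
          rw [Prod.norm_def]
          refine max_le ?_ ?_
          · exact (hfl _ _ (hα n)).trans hn1.le
          · exact (hfl _ _ (hβ n)).trans hn2.le
        have h6 := norm_sub_norm_le z ((⌊z.1 / α n⌋ * α n, ⌊z.2 / β n⌋ * β n) : ℝ × ℝ)
        rw [norm_sub_rev] at h6
        linarith
      rw [hsup _ h4, norm_zero]
  · exact (integrable_indicator_iff measurableSet_closedBall).2
      (integrableOn_const (measure_closedBall_lt_top.ne) (by simp))
  · refine Eventually.of_forall fun z => ?_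
    refine (hF.tendsto z).comp ?_
    refine Tendsto.prodMk_nhds ?_ ?_
    · refine tendsto_iff_norm_sub_tendsto_zero.2 ?_
      refine squeeze_zero (fun n => norm_nonneg _) (fun n => hfl _ _ (hα n)) hα0
    · refine tendsto_iff_norm_sub_tendsto_zero.2 ?_
      refine squeeze_zero (fun n => norm_nonneg _) (fun n => hfl _ _ (hβ n)) hβ0

end Vale.Agent.P153.TwoPt
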