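import Vale.Agent.P153.TwoPt.Defs
import Vale.Agent.P153.TwoPt.Riemann

/-!
# P153, two-point part: the discrete Fourier transform of the weights
-/

open MeasureTheory ProbabilityTheory Filter Topology Set
open scoped ENNReal Real

namespace Vale.Agent.P153.TwoPt

/-- the character `e^{i(θ j + k x)}`. -/
noncomputable def chr (θ k : ℝ) (p : ℤ × ℤ) : ℂ :=
  Complex.exp (Complex.I * ((θ * p.1 + k * p.2 : ℝ) : ℂ))

theorem norm_chr (θ k : ℝ) (p : ℤ × ℤ) : ‖chr θ k p‖ = 1 := by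
  unfold chr
  rw [mul_comm, Complex.norm_exp_ofReal_mul_I]

/-- discrete Fourier transform. -/
noncomputable def hat (a : ℤ → ℤ → ℝ) (θ k : ℝ) : ℂ := ∑' p : ℤ × ℤ, (a p.1 p.2 : ℂ) * chr θ k p

/-- `a` vanishes outside the finite set `s`. -/
def Sup (a : ℤ → ℤ → ℝ) (s : Finset (ℤ × ℤ)) : Prop := ∀ p : ℤ × ℤ, p ∉ s → a p.1 p.2 = 0

theorem hat_eq {a : ℤ → ℤ → ℝ} {s : Finset (ℤ × ℤ)} (hs : Sup a s) (θ k : ℝ) :
    hat a θ k = ∑ p ∈ s, (a p.1 p.2 : ℂ) * chr θ k p :=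
  tsum_eq_sum fun p hp => by rw [hs p hp]; simp

theorem summable_hat {a : ℤ → ℤ → ℝ} {s : Finset (ℤ × ℤ)} (hs : Sup a s) (u : ℤ × ℤ → ℂ) :
    Summable fun p : ℤ × ℤ => (a p.1 p.2 : ℂ) * u p :=
  summable_of_ne_finset_zero (s := s) fun p hp => by rw [hs p hp]; simp

theorem Sup.shift1 {a : ℤ → ℤ → ℝ} {s : Finset (ℤ × ℤ)} (hs : Sup a s) (c : ℤ) :
    Sup (fun j x => a (j + c) x) (s.image fun p => (p.1 - c, p.2)) := by
  intro p hp
  refine hs (p.1 + c, p.2) fun h => hp ?_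
  exact Finset.mem_image.2 ⟨_, h, by simp⟩

theorem Sup.shift2 {a : ℤ → ℤ → ℝ} {s : Finset (ℤ × ℤ)} (hs : Sup a s) (c : ℤ) :
    Sup (fun j x => a j (x + c)) (s.image fun p => (p.1, p.2 - c)) := by
  intro p hp
  refine hs (p.1, p.2 + c) fun h => hp ?_
  exact Finset.mem_image.2 ⟨_, h, by simp⟩

theorem hat_shift1 (a : ℤ → ℤ → ℝ) (c : ℤ) (θ k : ℝ) :
    hat (fun j x => a (j + c) x) θ k = Complex.exp (-(Complex.I * ((θ * c : ℝ) : ℂ))) * hat a θ k := by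
  unfold hat
  rw [← tsum_mul_left, ← Equiv.tsum_eq (Equiv.addRight ((c, 0) : ℤ × ℤ))
    (fun p : ℤ × ℤ => Complex.exp (-(Complex.I * ((θ * c : ℝ) : ℂ))) * ((a p.1 p.2 : ℂ) * chr θ k p))]
  refine tsum_congr fun p => ?_
  simp only [Equiv.coe_addRight, Prod.fst_add, Prod.snd_add, add_zero]
  have : chr θ k p = Complex.exp (-(Complex.I * ((θ * c : ℝ) : ℂ))) * chr θ k (p + (c, 0)) := by
    unfold chr
    rw [← Complex.exp_add]
    congr 1
    push_cast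
    simp
    ring
  rw [this]
  ring

theorem hat_shift2 (a : ℤ → ℤ → ℝ) (c : ℤ) (θ k : ℝ) :
    hat (fun j x => a j (x + c)) θ k = Complex.exp (-(Complex.I * ((k * c : ℝ) : ℂ))) * hat a θ k := by
  unfold hat
  rw [← tsum_mul_left, ← Equiv.tsum_eq (Equiv.addRight ((0, c) : ℤ × ℤ))
    (fun p : ℤ × ℤ => Complex.exp (-(Complex.I * ((k * c : ℝ) : ℂ))) * ((a p.1 p.2 : ℂ) * chr θ k p))]
  refine tsum_congr fun p => ?_
  simp only [Equiv.coe_addRight, Prod.fst_add, Prod.snd_add, add_zero]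
  have : chr θ k p = Complex.exp (-(Complex.I * ((k * c : ℝ) : ℂ))) * chr θ k (p + (0, c)) := by
    unfold chr
    rw [← Complex.exp_add]
    congr 1
    push_cast
    simp
    ring
  rw [this]
  ring

theorem exp_add_exp (t : ℝ) :
    Complex.exp (-(Complex.I * ((t * (1 : ℤ) : ℝ) : ℂ))) +
      Complex.exp (-(Complex.I * ((t * (-1 : ℤ) : ℝ) : ℂ))) = ((2 * Real.cos t : ℝ) : ℂ) := by
  push_cast
  rw [Complex.cos]
  rw [show -(Complex.I * ((t : ℂ) * 1)) = -(t : ℂ) * Complex.I by ring,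
    show -(Complex.I * ((t : ℂ) * -1)) = (t : ℂ) * Complex.I by ring]
  ring

theorem hat_diff1 {a : ℤ → ℤ → ℝ} {s : Finset (ℤ × ℤ)} (hs : Sup a s) (θ k : ℝ) :
    hat (fun j x => a (j + 1) x - 2 * a j x + a (j - 1) x) θ k =
      -((2 - 2 * Real.cos θ : ℝ) : ℂ) * hat a θ k := by
  have h1 := hat_shift1 a 1 θ k
  have h2 := hat_shift1 a (-1) θ k
  have h3 : hat (fun j x => a (j + 1) x - 2 * a j x + a (j - 1) x) θ k =
      hat (fun j x => a (j + 1) x) θ k - 2 * hat a θ k + hat (fun j x => a (j + (-1)) x) θ k := by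
    unfold hat
    rw [← tsum_mul_left, ← Summable.tsum_sub (summable_hat (hs.shift1 1) _)
      ((summable_hat hs _).mul_left 2), ← Summable.tsum_add
      ((summable_hat (hs.shift1 1) _).sub ((summable_hat hs _).mul_left 2))
      (summable_hat (hs.shift1 (-1)) _)]
    refine tsum_congr fun p => ?_
    push_cast
    rw [← sub_eq_add_neg]
    ring
  rw [h3, h1, h2]
  have h4 := exp_add_exp θ
  have h5 : (-((2 - 2 * Real.cos θ : ℝ) : ℂ)) = ((2 * Real.cos θ : ℝ) : ℂ) - 2 := by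
    push_cast
    ring
  rw [h5, ← h4]
  ring

theorem hat_diff2 {a : ℤ → ℤ → ℝ} {s : Finset (ℤ × ℤ)} (hs : Sup a s) (θ k : ℝ) :
    hat (fun j x => a j (x + 1) - 2 * a j x + a j (x - 1)) θ k =
      -((2 - 2 * Real.cos k : ℝ) : ℂ) * hat a θ k := by
  have h1 := hat_shift2 a 1 θ k
  have h2 := hat_shift2 a (-1) θ k
  have h3 : hat (fun j x => a j (x + 1) - 2 * a j x + a j (x - 1)) θ k =
      hat (fun j x => a j (x + 1)) θ k - 2 * hat a θ k + hat (fun j x => a j (x + (-1))) θ k := by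
    unfold hat
    rw [← tsum_mul_left, ← Summable.tsum_sub (summable_hat (hs.shift2 1) _)
      ((summable_hat hs _).mul_left 2), ← Summable.tsum_add
      ((summable_hat (hs.shift2 1) _).sub ((summable_hat hs _).mul_left 2))
      (summable_hat (hs.shift2 (-1)) _)]
    refine tsum_congr fun p => ?_
    push_cast
    rw [← sub_eq_add_neg]
    ring
  rw [h3, h1, h2]
  have h4 := exp_add_exp k
  have h5 : (-((2 - 2 * Real.cos k : ℝ) : ℂ)) = ((2 * Real.cos k : ℝ) : ℂ) - 2 := by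
    push_cast
    ring
  rw [h5, ← h4]
  ring

theorem norm_hat_le {a : ℤ → ℤ → ℝ} {s : Finset (ℤ × ℤ)} (hs : Sup a s) {B : ℝ}
    (hB : ∀ j x, |a j x| ≤ B) (θ k : ℝ) : ‖hat a θ k‖ ≤ s.card * B := by
  rw [hat_eq hs]
  refine (norm_sum_le _ _).trans ?_
  rw [← nsmul_eq_mul]
  refine Finset.sum_le_card_nsmul _ _ _ fun p _ => ?_
  rw [norm_mul, norm_chr, mul_one, Complex.norm_real, Real.norm_eq_abs]
  exact hB _ _

theorem norm_exp_sub_one (x : ℝ) : ‖Complex.exp (Complex.I * (x : ℂ)) - 1‖ ≤ |x| := by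
  have h := Real.norm_exp_I_mul_ofReal_sub_one_le (x := x)
  simpa [Real.norm_eq_abs] using h

theorem norm_hat_le' {a : ℤ → ℤ → ℝ} {s : Finset (ℤ × ℤ)} (hs : Sup a s) {B N : ℝ}
    (hB : ∀ j x, |a j x| ≤ B) (h0 : ∑ p ∈ s, a p.1 p.2 = 0)
    (hN : ∀ p ∈ s, |(p.1 : ℝ)| ≤ N ∧ |(p.2 : ℝ)| ≤ N) (θ k : ℝ) :
    ‖hat a θ k‖ ≤ s.card * B * N * (|θ| + |k|) := by
  have h1 : hat a θ k = ∑ p ∈ s, (a p.1 p.2 : ℂ) * (chr θ k p - 1) := by
    rw [hat_eq hs]
    simp_rw [mul_sub, mul_one]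
    rw [Finset.sum_sub_distrib]
    have : ∑ p ∈ s, (a p.1 p.2 : ℂ) = 0 := by
      rw [← Complex.ofReal_sum, h0, Complex.ofReal_zero]
    rw [this, sub_zero]
  have hB0 : 0 ≤ B := (abs_nonneg _).trans (hB 0 0)
  rw [h1]
  refine (norm_sum_le _ _).trans ?_
  have h2 : ∀ p ∈ s, ‖(a p.1 p.2 : ℂ) * (chr θ k p - 1)‖ ≤ B * N * (|θ| + |k|) := by
    intro p hp
    rw [norm_mul, Complex.norm_real, Real.norm_eq_abs, mul_assoc]
    refine mul_le_mul (hB _ _) ?_ (norm_nonneg _) hB0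
    unfold chr
    refine (norm_exp_sub_one _).trans ?_
    refine (abs_add_le _ _).trans ?_
    rw [abs_mul, abs_mul]
    have h3 := hN p hp
    nlinarith [abs_nonneg θ, abs_nonneg k, h3.1, h3.2]
  refine (Finset.sum_le_card_nsmul _ _ _ h2).trans ?_
  rw [nsmul_eq_mul]
  exact le_of_eq (by ring)

theorem two_sub_cos_ge (x : ℝ) (hx : |x| ≤ π) : 4 / π ^ 2 * x ^ 2 ≤ 2 - 2 * Real.cos x := by
  have h := Real.cos_le_one_sub_mul_cos_sq hx
  have h4 : 4 / π ^ 2 * x ^ 2 = 2 * (2 / π ^ 2 * x ^ 2) := by ring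
  rw [h4]
  linarith

end Vale.Agent.P153.TwoPt
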