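import Vale.Agent.P153.TwoPt.Defs

/-!
# P153, two-point part: Fourier coefficients of the Poisson kernel
-/

open MeasureTheory ProbabilityTheory Filter Topology Set
open scoped ENNReal Real

namespace Vale.Agent.P153.TwoPt

theorem integral_exp_int (n : ℤ) :
    ∫ θ in Icc (-π) π, Complex.exp (Complex.I * ((θ * n : ℝ) : ℂ)) =
      if n = 0 then ((2 * π : ℝ) : ℂ) else 0 := by
  have hpi := Real.pi_pos
  rw [integral_Icc_eq_integral_Ioc, ← intervalIntegral.integral_of_le (by linarith)]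
  split_ifs with h
  · subst h
    simp
    ring
  · have h2 : ∀ θ : ℝ, Complex.exp (Complex.I * ((θ * n : ℝ) : ℂ)) =
        Complex.exp ((Complex.I * n) * θ) := by
      intro θ
      congr 1
      push_cast
      ring
    simp_rw [h2]
    have hn : (Complex.I * (n : ℂ)) ≠ 0 := mul_ne_zero Complex.I_ne_zero (by exact_mod_cast h)
    rw [integral_exp_mul_complex hn]
    have h3 : Complex.exp (Complex.I * n * (π : ℝ)) = Complex.exp (Complex.I * n * ((-π : ℝ) : ℂ)) := by
      have : Complex.I * (n : ℂ) * (π : ℝ) = Complex.I * n * ((-π : ℝ) : ℂ) +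
          n * (2 * π * Complex.I) := by
        push_cast
        ring
      rw [this, Complex.exp_add, Complex.exp_int_mul_two_pi_mul_I, mul_one]
    rw [h3, sub_self, zero_div]

theorem den_pos {τ : ℝ} (h0 : 0 ≤ τ) (h1 : τ < 1) (θ : ℝ) : 0 < den τ θ := by
  unfold den
  have := Real.cos_le_one θ
  have h3 : 0 < (1 - τ) ^ 2 := by
    have : 0 < 1 - τ := by linarith
    positivity
  nlinarith

theorem den_eq_norm (τ θ : ℝ) :
    den τ θ = ‖1 - (τ : ℂ) * Complex.exp (Complex.I * (θ : ℂ))‖ ^ 2 := by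
  rw [← Complex.normSq_eq_norm_sq]
  rw [show Complex.I * (θ : ℂ) = θ * Complex.I by ring, Complex.exp_mul_I,
    ← Complex.ofReal_cos, ← Complex.ofReal_sin, Complex.normSq_apply]
  simp only [Complex.sub_re, Complex.one_re, Complex.mul_re, Complex.ofReal_re, Complex.add_re,
    Complex.I_re, mul_zero, Complex.ofReal_im, Complex.I_im, mul_one, sub_self, add_zero,
    Complex.sub_im, Complex.one_im, Complex.mul_im, Complex.add_im, zero_mul, zero_add, zero_sub]
  unfold den
  linear_combination (-τ ^ 2) * Real.sin_sq_add_cos_sq θ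

theorem den_factor (τ θ : ℝ) : (den τ θ : ℂ) = (1 - (τ : ℂ) * Complex.exp (Complex.I * (θ : ℂ))) *
    (1 - (τ : ℂ) * Complex.exp (-(Complex.I * (θ : ℂ)))) := by
  have h : (starRingEnd ℂ) (1 - (τ : ℂ) * Complex.exp (Complex.I * (θ : ℂ))) =
      1 - (τ : ℂ) * Complex.exp (-(Complex.I * (θ : ℂ))) := by
    rw [map_sub, map_one, map_mul, Complex.conj_ofReal, ← Complex.exp_conj, map_mul,
      Complex.conj_I, Complex.conj_ofReal]
    congr 3
    ring
  rw [← h, Complex.mul_conj, Complex.normSq_eq_norm_sq, ← den_eq_norm]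

theorem hasSum_poisson {τ : ℝ} (h0 : 0 ≤ τ) (h1 : τ < 1) (θ : ℝ) :
    HasSum (fun m : ℤ => ((τ ^ m.natAbs : ℝ) : ℂ) * Complex.exp (Complex.I * ((θ * m : ℝ) : ℂ)))
      (((1 - τ ^ 2 : ℝ) : ℂ) / (den τ θ : ℂ)) := by
  set z : ℂ := (τ : ℂ) * Complex.exp (Complex.I * (θ : ℂ)) with hz
  set z' : ℂ := (τ : ℂ) * Complex.exp (-(Complex.I * (θ : ℂ))) with hz'
  have hnz : ‖z‖ < 1 := by
    rw [hz, norm_mul, Complex.norm_real, mul_comm Complex.I, Complex.norm_exp_ofReal_mul_I, mul_one,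
      Real.norm_of_nonneg h0]
    exact h1
  have hnz' : ‖z'‖ < 1 := by
    rw [hz', norm_mul, Complex.norm_real,
      show -(Complex.I * (θ : ℂ)) = ((-θ : ℝ) : ℂ) * Complex.I by push_cast; ring,
      Complex.norm_exp_ofReal_mul_I, mul_one, Real.norm_of_nonneg h0]
    exact h1
  have hg := hasSum_geometric_of_norm_lt_one hnz
  have hg' := (hasSum_geometric_of_norm_lt_one hnz').mul_left z'
  have hzz : z * z' = ((τ ^ 2 : ℝ) : ℂ) := by
    rw [hz, hz']
    rw [show (τ : ℂ) * Complex.exp (Complex.I * θ) * (τ * Complex.exp (-(Complex.I * θ))) =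
      τ * τ * (Complex.exp (Complex.I * θ) * Complex.exp (-(Complex.I * θ))) by ring,
      ← Complex.exp_add, add_neg_cancel, Complex.exp_zero]
    push_cast
    ring
  have hne : (1 - z) ≠ 0 := by
    intro h
    have : z = 1 := by linear_combination -h
    rw [this, norm_one] at hnz
    exact lt_irrefl _ hnz
  have hne' : (1 - z') ≠ 0 := by
    intro h
    have : z' = 1 := by linear_combination -h
    rw [this, norm_one] at hnz'
    exact lt_irrefl _ hnz'
  have hsum : ((1 - τ ^ 2 : ℝ) : ℂ) / (den τ θ : ℂ) = (1 - z)⁻¹ + z' * (1 - z')⁻¹ := by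
    rw [den_factor, ← hz, ← hz']
    field_simp
    rw [Complex.ofReal_sub, ← hzz]
    push_cast
    ring
  rw [hsum]
  refine HasSum.of_nat_of_neg_add_one ?_ ?_
  · have hfun : (fun n : ℕ => z ^ n) = fun n : ℕ => ((τ ^ (n : ℤ).natAbs : ℝ) : ℂ) *
        Complex.exp (Complex.I * ((θ * ((n : ℤ) : ℝ) : ℝ) : ℂ)) := by
      funext n
      rw [hz, mul_pow, ← Complex.exp_nat_mul, Int.natAbs_natCast]
      push_cast
      congr 2
      ring
    rw [← hfun]
    exact hg
  · have hfun : (fun n : ℕ => z' * z' ^ n) = fun n : ℕ =>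
        ((τ ^ (-((n : ℤ) + 1)).natAbs : ℝ) : ℂ) *
        Complex.exp (Complex.I * ((θ * ((-((n : ℤ) + 1) : ℤ) : ℝ) : ℝ) : ℂ)) := by
      funext n
      rw [hz', ← pow_succ', mul_pow, ← Complex.exp_nat_mul]
      have h5 : (-((n : ℤ) + 1)).natAbs = n + 1 := by omega
      rw [h5]
      push_cast
      congr 2
      ring
    rw [← hfun]
    exact hg'

/-- Fourier coefficients of `1/den`. -/
theorem poisson {τ : ℝ} (h0 : 0 ≤ τ) (h1 : τ < 1) (n : ℤ) :
    ∫ θ in Icc (-π) π, Complex.exp (Complex.I * ((θ * n : ℝ) : ℂ)) / (den τ θ : ℂ) =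
      ((2 * π * (τ ^ n.natAbs / (1 - τ ^ 2)) : ℝ) : ℂ) := by
  have hpi := Real.pi_pos
  have h12 : 0 < 1 - τ ^ 2 := by nlinarith
  set F : ℤ → ℝ → ℂ := fun m θ => ((τ ^ m.natAbs : ℝ) : ℂ) *
    Complex.exp (Complex.I * ((θ * ((m + n : ℤ) : ℝ) : ℝ) : ℂ)) with hF
  have hnF : ∀ m θ, ‖F m θ‖ = τ ^ m.natAbs := by
    intro m θ
    rw [hF]
    simp only
    rw [norm_mul, mul_comm Complex.I, Complex.norm_exp_ofReal_mul_I, mul_one, Complex.norm_real,
      Real.norm_of_nonneg (by positivity)]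
  have hcont : ∀ m, Continuous (F m) := by
    intro m
    rw [hF]
    fun_prop
  have hsumτ : Summable fun m : ℤ => τ ^ m.natAbs := by
    refine Summable.of_nat_of_neg ?_ ?_
    · simpa using summable_geometric_of_lt_one h0 h1
    · simpa using summable_geometric_of_lt_one h0 h1
  have hint : ∀ m, Integrable (F m) (volume.restrict (Icc (-π) π)) := fun m =>
    (hcont m).continuousOn.integrableOn_compact isCompact_Icc
  have hI := hasSum_integral_of_summable_integral_norm hint (by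
    simp_rw [hnF]
    simp only [integral_const, smul_eq_mul]
    exact hsumτ.mul_left _)
  have htsum : ∀ θ : ℝ, ∑' m, F m θ =
      ((1 - τ ^ 2 : ℝ) : ℂ) * (Complex.exp (Complex.I * ((θ * n : ℝ) : ℂ)) / (den τ θ : ℂ)) := by
    intro θ
    have h2 := (hasSum_poisson h0 h1 θ).mul_right (Complex.exp (Complex.I * ((θ * n : ℝ) : ℂ)))
    rw [show ((1 - τ ^ 2 : ℝ) : ℂ) * (Complex.exp (Complex.I * ((θ * n : ℝ) : ℂ)) / (den τ θ : ℂ)) =
      ((1 - τ ^ 2 : ℝ) : ℂ) / (den τ θ : ℂ) * Complex.exp (Complex.I * ((θ * n : ℝ) : ℂ)) by ring,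
      ← h2.tsum_eq]
    refine tsum_congr fun m => ?_
    rw [hF]
    simp only
    rw [mul_assoc, ← Complex.exp_add]
    congr 2
    push_cast
    ring
  have hterm : ∀ m, ∫ θ in Icc (-π) π, F m θ = if m = -n then ((2 * π * τ ^ n.natAbs : ℝ) : ℂ) else 0 := by
    intro m
    rw [hF]
    simp only
    rw [integral_const_mul, integral_exp_int]
    by_cases h : m = -n
    · subst h
      simp
      ring
    · rw [if_neg (by omega), if_neg h, mul_zero]
  have h3 : ∫ θ in Icc (-π) π, ((1 - τ ^ 2 : ℝ) : ℂ) *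
      (Complex.exp (Complex.I * ((θ * n : ℝ) : ℂ)) / (den τ θ : ℂ)) =
      ((2 * π * τ ^ n.natAbs : ℝ) : ℂ) := by
    rw [← setIntegral_congr_fun measurableSet_Icc (fun θ _ => htsum θ), ← hI.tsum_eq]
    rw [tsum_congr hterm, tsum_ite_eq]
  rw [integral_const_mul] at h3
  have h4 : ((1 - τ ^ 2 : ℝ) : ℂ) ≠ 0 := by exact_mod_cast h12.ne'
  have h5 := eq_div_of_mul_eq h4 ((mul_comm _ _).trans h3)
  rw [h5]
  push_cast
  ring

end Vale.Agent.P153.TwoPt
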