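import Vale.Agent.P153.TwoPt.Defs2
import Vale.Agent.P153.TwoPt.Poisson
import Vale.Agent.P153.TwoPt.Hat

/-!
# P153, TwoPt: kernel bounds (KB), scaling limits (T) and kernel limits (KL)
-/

open MeasureTheory ProbabilityTheory Filter Topology Set
open scoped ENNReal Real

namespace Vale.Agent.P153.TwoPt

namespace Kern

lemma sq_le_den {τ : ℝ} (h0 : 0 ≤ τ) (θ : ℝ) : (1 - τ) ^ 2 ≤ den τ θ := by
  unfold den
  have := Real.cos_le_one θ
  nlinarith

lemma theta_le_den {τ θ : ℝ} (h0 : 0 ≤ τ) (hθ : |θ| ≤ π) :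
    θ ^ 2 / (4 * π ^ 2) ≤ den τ θ := by
  have hpi := Real.pi_pos
  have h2 := two_sub_cos_ge θ hθ
  have hsq : θ ^ 2 ≤ π ^ 2 := sq_le_sq.2 (by rwa [abs_of_pos hpi])
  have e1 : 4 / π ^ 2 * θ ^ 2 = 16 * (θ ^ 2 / (4 * π ^ 2)) := by
    field_simp
    ring
  have h3 : θ ^ 2 / (4 * π ^ 2) ≤ 1 / 4 := by
    rw [div_le_iff₀ (by positivity)]
    linarith
  have h4 : 0 ≤ θ ^ 2 / (4 * π ^ 2) := by positivity
  rw [e1] at h2
  unfold den
  rcases le_total (1 / 2) τ with h | h
  · nlinarith [sq_nonneg (1 - τ)]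
  · have h5 : 1 / 4 ≤ (1 - τ) ^ 2 := by nlinarith
    nlinarith

lemma continuous_den (θ : ℝ) : Continuous fun τ => den τ θ := by
  unfold den
  fun_prop

/-- The properties of one measure `m k`. -/
structure Good (μ : Measure ℝ) (C k : ℝ) : Prop where
  C_pos : 0 < C
  k_ne : k ≠ 0
  supp : ∀ᵐ τ ∂μ, 0 ≤ τ ∧ τ < 1
  mass : μ univ ≤ ENNReal.ofReal C
  inv : ∫⁻ τ, ENNReal.ofReal (1 / (1 - τ) ^ 2) ∂μ ≤ ENNReal.ofReal (C / k ^ 2)

namespace Good

variable {μ : Measure ℝ} {C k : ℝ}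

lemma fin (h : Good μ C k) : IsFiniteMeasure μ := ⟨h.mass.trans_lt ENNReal.ofReal_lt_top⟩

lemma real_le (h : Good μ C k) : μ.real univ ≤ C :=
  ENNReal.toReal_le_of_le_ofReal h.C_pos.le h.mass

lemma int2 (h : Good μ C k) : Integrable (fun τ : ℝ => 1 / (1 - τ) ^ 2) μ := by
  refine (lintegral_ofReal_ne_top_iff_integrable ?_ ?_).1
    (h.inv.trans_lt ENNReal.ofReal_lt_top).ne
  · have : Measurable fun τ : ℝ => 1 / (1 - τ) ^ 2 := by fun_prop
    exact this.aestronglyMeasurable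
  · exact Eventually.of_forall fun τ => by positivity

lemma int2_le (h : Good μ C k) : ∫ τ, 1 / (1 - τ) ^ 2 ∂μ ≤ C / k ^ 2 := by
  rw [integral_eq_lintegral_of_nonneg_ae (Eventually.of_forall fun τ => by positivity)
    h.int2.aestronglyMeasurable]
  have := h.C_pos
  exact ENNReal.toReal_le_of_le_ofReal (by positivity) h.inv

lemma int_den (h : Good μ C k) (θ : ℝ) : Integrable (fun τ => 1 / den τ θ) μ := by
  refine h.int2.mono' ?_ ?_
  · have : Measurable fun τ => 1 / den τ θ := by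
      have := (continuous_den θ).measurable
      fun_prop
    exact this.aestronglyMeasurable
  · filter_upwards [h.supp] with τ hτ
    have h1 := den_pos hτ.1 hτ.2 θ
    rw [Real.norm_of_nonneg (by positivity)]
    have h3 : 0 < (1 - τ) ^ 2 := by
      have : 0 < 1 - τ := by linarith [hτ.2]
      positivity
    exact one_div_le_one_div_of_le h3 (sq_le_den hτ.1 θ)

lemma den_le (h : Good μ C k) {θ : ℝ} (hθ : |θ| ≤ π) :
    ∫ τ, 1 / den τ θ ∂μ ≤ (C * (1 + 4 * π ^ 2)) / (k ^ 2 + θ ^ 2) := by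
  have hpi := Real.pi_pos
  have hk2 : 0 < k ^ 2 := by
    have := h.k_ne
    positivity
  have hs : 0 < k ^ 2 + θ ^ 2 := by positivity
  have := h.fin
  rw [le_div_iff₀ hs, ← integral_mul_const]
  have h1 : ∫ τ, 1 / den τ θ * (k ^ 2 + θ ^ 2) ∂μ ≤
      ∫ τ, (k ^ 2 * (1 / (1 - τ) ^ 2) + 4 * π ^ 2) ∂μ := by
    refine integral_mono_ae ((h.int_den θ).mul_const _)
      ((h.int2.const_mul _).add (integrable_const _)) ?_
    filter_upwards [h.supp] with τ hτ
    have h2 := den_pos hτ.1 hτ.2 θ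
    have h3 : 0 < (1 - τ) ^ 2 := by
      have : 0 < 1 - τ := by linarith [hτ.2]
      positivity
    have h4 := one_div_le_one_div_of_le h3 (sq_le_den hτ.1 θ)
    have h5 := theta_le_den (θ := θ) hτ.1 hθ
    have h6 : 1 / den τ θ * θ ^ 2 ≤ 4 * π ^ 2 := by
      rw [div_le_iff₀ (by positivity)] at h5
      rw [one_div, inv_mul_le_iff₀ h2]
      linarith
    have h7 : 1 / den τ θ * k ^ 2 ≤ k ^ 2 * (1 / (1 - τ) ^ 2) := by
      rw [mul_comm]
      exact mul_le_mul_of_nonneg_left h4 hk2.le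
    rw [mul_add]
    linarith
  refine h1.trans ?_
  rw [integral_add (h.int2.const_mul _) (integrable_const _), integral_const_mul, integral_const,
    smul_eq_mul]
  have h8 : k ^ 2 * ∫ τ, 1 / (1 - τ) ^ 2 ∂μ ≤ C := by
    have := mul_le_mul_of_nonneg_left h.int2_le hk2.le
    rwa [mul_div_cancel₀ _ hk2.ne'] at this
  have h9 := mul_le_mul_of_nonneg_right h.real_le (by positivity : 0 ≤ 4 * π ^ 2)
  linarith

end Good

lemma norm_one_sub_pow {z : ℂ} (hz : ‖z‖ ≤ 1) (K : ℕ) : ‖1 - z ^ K‖ ≤ K * ‖1 - z‖ := by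
  induction K with
  | zero => simp
  | succ n ih =>
    have e : 1 - z ^ (n + 1) = (1 - z) + z * (1 - z ^ n) := by ring
    rw [e]
    refine (norm_add_le _ _).trans ?_
    rw [norm_mul]
    have : ‖z‖ * ‖1 - z ^ n‖ ≤ 1 * (n * ‖1 - z‖) :=
      mul_le_mul hz ih (norm_nonneg _) zero_le_one
    push_cast
    linarith

lemma norm_neg_exp (τ θ : ℝ) :
    ‖1 - (τ : ℂ) * Complex.exp (-(Complex.I * (θ : ℂ)))‖ ^ 2 = den τ θ := by
  have h := den_eq_norm τ (-θ)
  have e : den τ (-θ) = den τ θ := by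
    unfold den
    rw [Real.cos_neg]
  rw [e] at h
  rw [h]
  congr 4
  push_cast
  ring_nf

lemma norm_z {τ : ℝ} (h0 : 0 ≤ τ) (θ : ℝ) :
    ‖(τ : ℂ) * Complex.exp (-(Complex.I * (θ : ℂ)))‖ = τ := by
  rw [norm_mul, Complex.norm_real, Real.norm_of_nonneg h0,
    show -(Complex.I * (θ : ℂ)) = ((-θ : ℝ) : ℂ) * Complex.I by push_cast; ring,
    Complex.norm_exp_ofReal_mul_I, mul_one]

/-- integrand of the causal kernel -/
noncomputable def omf (K : ℕ) (θ τ : ℝ) : ℂ :=
  (1 - ((τ : ℂ) * Complex.exp (-(Complex.I * (θ : ℂ)))) ^ K) / (den τ θ : ℂ)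

lemma measurable_omf (K : ℕ) (θ : ℝ) : Measurable (omf K θ) := by
  unfold omf
  have h1 := (continuous_den θ).measurable
  have h2 : Continuous fun τ : ℝ =>
      1 - ((τ : ℂ) * Complex.exp (-(Complex.I * (θ : ℂ)))) ^ K := by fun_prop
  exact h2.measurable.div (Complex.measurable_ofReal.comp h1)

lemma norm_omf {τ : ℝ} (h0 : 0 ≤ τ) (h1 : τ < 1) (θ : ℝ) (K : ℕ) :
    ‖omf K θ τ‖ ≤ K / Real.sqrt (den τ θ) := by
  have hd := den_pos h0 h1 θ
  have h2 := norm_one_sub_pow (z := (τ : ℂ) * Complex.exp (-(Complex.I * (θ : ℂ))))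
    (by rw [norm_z h0]; exact h1.le) K
  have h3 : ‖1 - (τ : ℂ) * Complex.exp (-(Complex.I * (θ : ℂ)))‖ = Real.sqrt (den τ θ) := by
    rw [← norm_neg_exp, Real.sqrt_sq (norm_nonneg _)]
  unfold omf
  rw [norm_div, Complex.norm_real, Real.norm_of_nonneg hd.le]
  rw [h3] at h2
  rw [div_le_div_iff₀ hd (Real.sqrt_pos.2 hd)]
  calc ‖1 - ((τ : ℂ) * Complex.exp (-(Complex.I * (θ : ℂ)))) ^ K‖ * Real.sqrt (den τ θ)
      ≤ (K * Real.sqrt (den τ θ)) * Real.sqrt (den τ θ) :=
        mul_le_mul_of_nonneg_right h2 (Real.sqrt_nonneg _)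
    _ = K * den τ θ := by rw [mul_assoc, Real.mul_self_sqrt hd.le]

lemma Good.om_le {μ : Measure ℝ} {C k : ℝ} (h : Good μ C k) {θ : ℝ} (hθ : |θ| ≤ π) (K : ℕ) :
    ‖∫ τ, omf K θ τ ∂μ‖ ≤ K * (C * (1 + 4 * π ^ 2)) / Real.sqrt (k ^ 2 + θ ^ 2) := by
  have hk2 : 0 < k ^ 2 := by
    have := h.k_ne
    positivity
  have hs : 0 < k ^ 2 + θ ^ 2 := by positivity
  set s := Real.sqrt (k ^ 2 + θ ^ 2) with hsdef
  have hs0 : 0 < s := Real.sqrt_pos.2 hs
  have hss : s ^ 2 = k ^ 2 + θ ^ 2 := Real.sq_sqrt hs.le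
  have := h.fin
  have hC := h.C_pos
  have h1 : ‖∫ τ, omf K θ τ ∂μ‖ ≤ ∫ τ, (K : ℝ) * (s / 2 * (1 / den τ θ) + 1 / (2 * s)) ∂μ := by
    refine (norm_integral_le_integral_norm _).trans ?_
    refine integral_mono_of_nonneg (Eventually.of_forall fun τ => norm_nonneg _)
      ((((h.int_den θ).const_mul _).add (integrable_const _)).const_mul _) ?_
    filter_upwards [h.supp] with τ hτ
    have hd := den_pos hτ.1 hτ.2 θ
    refine (norm_omf hτ.1 hτ.2 θ K).trans ?_
    rw [div_eq_mul_inv]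
    refine mul_le_mul_of_nonneg_left ?_ (Nat.cast_nonneg _)
    set r := Real.sqrt (den τ θ) with hr
    have hr0 : 0 < r := Real.sqrt_pos.2 hd
    have hrr : den τ θ = r ^ 2 := (Real.sq_sqrt hd.le).symm
    rw [hrr]
    have e : s / 2 * (1 / r ^ 2) + 1 / (2 * s) - r⁻¹ = (s - r) ^ 2 / (2 * s * r ^ 2) := by
      field_simp
      ring
    have : 0 ≤ (s - r) ^ 2 / (2 * s * r ^ 2) := by positivity
    linarith
  refine h1.trans ?_
  rw [integral_const_mul, integral_add ((h.int_den θ).const_mul _) (integrable_const _),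
    integral_const_mul, integral_const, smul_eq_mul, mul_div_assoc]
  refine mul_le_mul_of_nonneg_left ?_ (Nat.cast_nonneg _)
  have h2 := h.den_le hθ
  rw [← hss] at h2
  have h3 := mul_le_mul_of_nonneg_left h2 (by positivity : 0 ≤ s / 2)
  have h4 := mul_le_mul_of_nonneg_right h.real_le (by positivity : 0 ≤ 1 / (2 * s))
  have e : s / 2 * (C * (1 + 4 * π ^ 2) / s ^ 2) + C * (1 / (2 * s)) ≤
      C * (1 + 4 * π ^ 2) / s := by
    have e2 : C * (1 + 4 * π ^ 2) / s - (s / 2 * (C * (1 + 4 * π ^ 2) / s ^ 2) +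
      C * (1 / (2 * s))) = C * (4 * π ^ 2) / (2 * s) := by
      field_simp
      ring
    have : 0 ≤ C * (4 * π ^ 2) / (2 * s) := by positivity
    linarith
  linarith

lemma good_of_spec {V : ℤ → ℤ → ℝ} {m : Kernel ℝ ℝ} {c κ C k0 : ℝ} (hS : Spec V m c κ C k0) :
    ∀ᵐ k : ℝ, |k| < k0 → k ≠ 0 → Good (m k) C k := by
  filter_upwards [hS.supp, hS.mass, hS.inv] with k h1 h2 h3 hk hk0
  exact ⟨hS.C_pos, hk0, h1, h2 hk, h3 hk hk0⟩

end Kern

open Kern in
theorem kb : KBStatement := by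
  intro V m c κ C k0 hS
  have hpi := Real.pi_pos
  have hC := hS.C_pos
  refine ⟨C * (1 + 4 * π ^ 2), by positivity, ?_⟩
  filter_upwards [good_of_spec hS] with k hk h1 h2 θ hθ
  have hg := hk h1 h2
  exact ⟨hg.int_den θ, hg.den_le hθ, fun K => hg.om_le hθ K⟩

namespace Kern

/-- The window around `c |k|`. -/
def Win (c ε k : ℝ) : Set ℝ := {τ | abs ((1 - τ) - c * abs k) < ε * |k|}

/-- The bad set. -/
def Bad (c ε A k : ℝ) : Set ℝ := {τ | 1 - τ ≤ A * |k| ∧ ε * |k| ≤ abs ((1 - τ) - c * abs k)}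

lemma measurableSet_Win (c ε k : ℝ) : MeasurableSet (Win c ε k) := by
  exact (isOpen_lt (by fun_prop : Continuous fun τ : ℝ => abs ((1 - τ) - c * abs k))
    (continuous_const (y := ε * |k|))).measurableSet

lemma measurableSet_Bad (c ε A k : ℝ) : MeasurableSet (Bad c ε A k) := by
  exact (isClosed_le (by fun_prop : Continuous fun τ : ℝ => 1 - τ)
    (continuous_const (y := A * |k|))).measurableSet.inter
    (isClosed_le (continuous_const (y := ε * |k|))
      (by fun_prop : Continuous fun τ : ℝ => abs ((1 - τ) - c * abs k))).measurableSet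

lemma Good.int1 {μ : Measure ℝ} {C k : ℝ} (h : Good μ C k) {φ : ℝ → ℂ} (hm : Measurable φ)
    {B L : ℝ} (hL : 0 < L) (hB : 0 ≤ B)
    (hφ : ∀ τ, 0 ≤ τ → τ < 1 → ‖φ τ‖ ≤ B / (L * (1 - τ))) : Integrable φ μ := by
  have := h.fin
  refine (((integrable_const (1 : ℝ)).add h.int2).const_mul (B / L)).mono'
    hm.aestronglyMeasurable ?_
  filter_upwards [h.supp] with τ hτ
  refine (hφ τ hτ.1 hτ.2).trans ?_
  have h1 : 0 < 1 - τ := by linarith [hτ.2]
  have e : B / (L * (1 - τ)) = B / L * (1 / (1 - τ)) := by field_simp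
  rw [e]
  refine mul_le_mul_of_nonneg_left ?_ (by positivity)
  simp only [Pi.add_apply]
  have e2 : 1 + 1 / (1 - τ) ^ 2 - 1 / (1 - τ) = (1 / (1 - τ) - 1 / 2) ^ 2 + 3 / 4 := by
    field_simp
    ring
  have : 0 ≤ (1 / (1 - τ) - 1 / 2) ^ 2 + 3 / 4 := by positivity
  linarith

lemma est {μ : Measure ℝ} {C k : ℝ} (hg : Good μ C k) {c L B ε ε' A δ ρ κ : ℝ} {φ : ℝ → ℂ}
    {ψ0 : ℂ} (hm : Measurable φ) (hφ : ∀ τ, 0 ≤ τ → τ < 1 → ‖φ τ‖ ≤ B / (L * (1 - τ)))
    (hB : 0 ≤ B) (hL : 0 < L) (hδ : 0 < δ) (hA : 0 < A) (hρ : 0 ≤ ρ) (hε' : 0 ≤ ε')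
    (hW : ∀ τ ∈ Win c ε k, ‖φ τ - ψ0‖ ≤ ρ)
    (hbad : μ (Bad c ε A k) ≤ ENNReal.ofReal ε')
    (hmass : |(μ (Win c ε k)).toReal - κ| ≤ ε') :
    ‖∫ τ, φ τ ∂μ - κ * ψ0‖ ≤ ρ * C + B / δ * ε' + B * δ * C / (L * k) ^ 2 +
      B * C / (A * (L * |k|)) + ε' * ‖ψ0‖ := by
  have := hg.fin
  have hk := hg.k_ne
  have hk' : 0 < |k| := abs_pos.2 hk
  have hC := hg.C_pos
  set W := Win c ε k with hWdef
  set D := Bad c ε A k with hDdef
  have hWm : MeasurableSet W := measurableSet_Win c ε k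
  have hDm : MeasurableSet D := measurableSet_Bad c ε A k
  have hφi : Integrable φ μ := hg.int1 hm hL hB hφ
  have hWi : Integrable (W.indicator fun _ => ψ0) μ := (integrable_const ψ0).indicator hWm
  have hDi : Integrable (D.indicator fun _ => (1 : ℝ)) μ := (integrable_const (1 : ℝ)).indicator hDm
  have e1 : ∫ τ, φ τ ∂μ - κ * ψ0 =
      ∫ τ, (φ τ - W.indicator (fun _ => ψ0) τ) ∂μ + (((μ W).toReal - κ : ℝ) : ℂ) * ψ0 := by
    rw [integral_sub hφi hWi, integral_indicator hWm, setIntegral_const]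
    simp only [Measure.real]
    push_cast
    rw [Complex.real_smul]
    ring
  have i1 : Integrable (fun τ => ρ + B / δ * D.indicator (fun _ => (1 : ℝ)) τ) μ :=
    (integrable_const _).add (hDi.const_mul _)
  have i2 : Integrable (fun τ : ℝ => B * δ / L ^ 2 * (1 / (1 - τ) ^ 2) + B / (A * (L * |k|))) μ :=
    (hg.int2.const_mul _).add (integrable_const _)
  have h2 : ‖∫ τ, (φ τ - W.indicator (fun _ => ψ0) τ) ∂μ‖ ≤
      ∫ τ, ((ρ + B / δ * D.indicator (fun _ => (1 : ℝ)) τ) +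
        (B * δ / L ^ 2 * (1 / (1 - τ) ^ 2) + B / (A * (L * |k|)))) ∂μ := by
    refine (norm_integral_le_integral_norm _).trans ?_
    refine integral_mono_of_nonneg (Eventually.of_forall fun τ => norm_nonneg _)
      (i1.add i2) ?_
    filter_upwards [hg.supp] with τ hτ
    have h1 : 0 < 1 - τ := by linarith [hτ.2]
    have t1 : 0 ≤ B / δ * D.indicator (fun _ => (1 : ℝ)) τ :=
      mul_nonneg (by positivity) (indicator_nonneg (fun _ _ => zero_le_one) _)
    have t2 : 0 ≤ B * δ / L ^ 2 * (1 / (1 - τ) ^ 2) := by positivity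
    have t3 : 0 ≤ B / (A * (L * |k|)) := by positivity
    by_cases hτW : τ ∈ W
    · rw [indicator_of_mem hτW]
      have := hW τ hτW
      linarith
    · rw [indicator_of_notMem hτW, sub_zero]
      have hb := hφ τ hτ.1 hτ.2
      rcases lt_or_ge (L * (1 - τ)) δ with hE | hE
      · have : B / (L * (1 - τ)) ≤ B * δ / L ^ 2 * (1 / (1 - τ) ^ 2) := by
          have e : B * δ / L ^ 2 * (1 / (1 - τ) ^ 2) = B / (L * (1 - τ)) * (δ / (L * (1 - τ))) := by
            field_simp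
          rw [e]
          refine le_mul_of_one_le_right (by positivity) ?_
          rw [one_le_div (by positivity)]
          exact hE.le
        linarith
      · rcases le_or_gt (1 - τ) (A * |k|) with hE2 | hE2
        · have hD : τ ∈ D := ⟨hE2, not_lt.1 hτW⟩
          rw [indicator_of_mem hD, mul_one]
          have : B / (L * (1 - τ)) ≤ B / δ := div_le_div_of_nonneg_left hB hδ hE
          linarith
        · have : B / (L * (1 - τ)) ≤ B / (A * (L * |k|)) := by
            refine div_le_div_of_nonneg_left hB (by positivity) ?_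
            have := mul_le_mul_of_nonneg_left hE2.le hL.le
            linarith
          linarith
  rw [integral_add i1 i2, integral_add (integrable_const _) (hDi.const_mul _),
    integral_add (hg.int2.const_mul _) (integrable_const _), integral_const, integral_const,
    integral_const_mul, integral_const_mul, integral_indicator hDm, setIntegral_const,
    smul_eq_mul, smul_eq_mul, smul_eq_mul, mul_one] at h2
  have h3 : μ.real univ * ρ ≤ C * ρ := mul_le_mul_of_nonneg_right hg.real_le hρ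
  have h4 : B / δ * μ.real D ≤ B / δ * ε' :=
    mul_le_mul_of_nonneg_left (ENNReal.toReal_le_of_le_ofReal hε' hbad) (by positivity)
  have h5 : B * δ / L ^ 2 * ∫ τ, 1 / (1 - τ) ^ 2 ∂μ ≤ B * δ / L ^ 2 * (C / k ^ 2) :=
    mul_le_mul_of_nonneg_left hg.int2_le (by positivity)
  have h6 : μ.real univ * (B / (A * (L * |k|))) ≤ C * (B / (A * (L * |k|))) :=
    mul_le_mul_of_nonneg_right hg.real_le (by positivity)
  have h7 : ‖(((μ W).toReal - κ : ℝ) : ℂ) * ψ0‖ ≤ ε' * ‖ψ0‖ := by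
    rw [norm_mul, Complex.norm_real, Real.norm_eq_abs]
    exact mul_le_mul_of_nonneg_right hmass (norm_nonneg _)
  rw [e1]
  refine (norm_add_le _ _).trans ?_
  have e5 : B * δ / L ^ 2 * (C / k ^ 2) = B * δ * C / (L * k) ^ 2 := by
    field_simp
  have e6 : C * (B / (A * (L * |k|))) = B * C / (A * (L * |k|)) := by ring
  rw [e5] at h5
  rw [e6] at h6
  linarith

lemma ae_scale {P : ℝ → Prop} (h : ∀ᵐ k, P k) {a : ℝ} (ha : a ≠ 0) : ∀ᵐ q, P (q / a) := by
  rw [ae_iff] at h ⊢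
  have e : {q : ℝ | ¬ P (q / a)} = (fun q => a⁻¹ * q) ⁻¹' {k | ¬ P k} := by
    ext q
    simp only [mem_ofPred_eq, mem_preimage]
    rw [div_eq_inv_mul]
  rw [e, Real.volume_preimage_mul_left (inv_ne_zero ha), h, mul_zero]

end Kern

open Kern in
/-- (T) from (CONC). -/
theorem t_of_conc (hconc : ConcStatement) : TStatement := by
  intro V m c κ C k0 hS L hL1 hL
  have hLp : ∀ n, 0 < L n := fun n => lt_of_lt_of_le one_pos (hL1 n)
  obtain ⟨h1, h2, -⟩ := hconc V m c κ C k0 hS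
  have hjp : ∀ j : ℕ, (0 : ℝ) < 1 / ((j : ℝ) + 1) := fun j => by positivity
  choose η hη hb using fun j : ℕ => h1 (1 / ((j : ℝ) + 1)) (hjp j) ((j : ℝ) + 1) (by positivity)
  choose η' hη' hb' using fun j : ℕ => h2 (1 / ((j : ℝ) + 1)) (hjp j)
  have hgood : ∀ᵐ q : ℝ, ∀ n, |q / L n| < k0 → q / L n ≠ 0 → Good (m (q / L n)) C (q / L n) :=
    ae_all_iff.2 fun n => ae_scale (good_of_spec hS) (hLp n).ne'
  have hB1 : ∀ᵐ q : ℝ, ∀ n, ∀ j : ℕ, |q / L n| < η j → q / L n ≠ 0 →
      m (q / L n) (Bad c (1 / ((j : ℝ) + 1)) ((j : ℝ) + 1) (q / L n)) ≤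
        ENNReal.ofReal (1 / ((j : ℝ) + 1)) :=
    ae_all_iff.2 fun n => ae_all_iff.2 fun j => ae_scale (hb j) (hLp n).ne'
  have hB2 : ∀ᵐ q : ℝ, ∀ n, ∀ j : ℕ, |q / L n| < η' j → q / L n ≠ 0 →
      |(m (q / L n) (Win c (1 / ((j : ℝ) + 1)) (q / L n))).toReal - κ| ≤ 1 / ((j : ℝ) + 1) :=
    ae_all_iff.2 fun n => ae_all_iff.2 fun j => ae_scale (hb' j) (hLp n).ne'
  filter_upwards [hgood, hB1, hB2] with q hq1 hq2 hq3 hq φ ψ B hφm hφ hψ hunif
  have hq' : 0 < |q| := abs_pos.2 hq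
  have hC := hS.C_pos
  have hc := hS.c_pos
  have hB : 0 ≤ B := by
    have h := (norm_nonneg _).trans (hφ 0 0 le_rfl zero_lt_one)
    rw [sub_zero, mul_one] at h
    by_contra hneg
    exact absurd h (not_le.2 (div_neg_of_neg_of_pos (not_le.1 hneg) (hLp 0)))
  set E0 : ℝ := c * |q| with hE0
  have hE0p : 0 < E0 := by positivity
  rw [Metric.tendsto_nhds]
  intro ρ0 hρ0
  -- the parameters
  set ρ : ℝ := ρ0 / (8 * (C + 1)) with hρ
  have hρp : 0 < ρ := by positivity
  set δ : ℝ := ρ0 * q ^ 2 / (8 * (B * C + 1)) with hδ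
  have hBC : 0 ≤ B * C := by positivity
  have hδp : 0 < δ := by positivity
  set A' : ℝ := max (2 / E0) (2 * E0) + 1 with hA'
  have hA'1 : 1 < A' := by
    have : 0 < max (2 / E0) (2 * E0) := lt_max_of_lt_right (by positivity)
    linarith
  have hA'i : ∀ E, |E - E0| < E0 / 2 → E ∈ Icc (1 / A') A' := by
    intro E hE
    rw [abs_lt] at hE
    have h3 : 2 / E0 < A' := by
      have := le_max_left (2 / E0) (2 * E0)
      linarith
    have h4 : 2 * E0 < A' := by
      have := le_max_right (2 / E0) (2 * E0)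
      linarith
    constructor
    · have h5 : E0 / 2 < E := by linarith
      have h6 : 1 / A' ≤ E0 / 2 := by
        rw [div_lt_iff₀ hE0p] at h3
        rw [div_le_iff₀ (by linarith)]
        linarith
      linarith
    · linarith
  -- continuity of ψ at E0
  have hcont : ContinuousAt ψ E0 := hψ.continuousAt (Ioi_mem_nhds hE0p)
  obtain ⟨r, hr, hψr⟩ := Metric.continuousAt_iff.1 hcont (ρ / 2) (by positivity)
  have hj0 : Tendsto (fun j : ℕ => 1 / ((j : ℝ) + 1)) atTop (𝓝 0) :=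
    tendsto_one_div_add_atTop_nhds_zero_nat
  have j1 : ∀ᶠ j : ℕ in atTop, B / δ * (1 / ((j : ℝ) + 1)) < ρ0 / 8 := by
    have := hj0.const_mul (B / δ)
    rw [mul_zero] at this
    exact this.eventually_lt_const (by positivity)
  have j2 : ∀ᶠ j : ℕ in atTop, B * C / |q| * (1 / ((j : ℝ) + 1)) < ρ0 / 8 := by
    have := hj0.const_mul (B * C / |q|)
    rw [mul_zero] at this
    exact this.eventually_lt_const (by positivity)
  have j3 : ∀ᶠ j : ℕ in atTop, ‖ψ E0‖ * (1 / ((j : ℝ) + 1)) < ρ0 / 8 := by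
    have := hj0.const_mul ‖ψ E0‖
    rw [mul_zero] at this
    exact this.eventually_lt_const (by positivity)
  have j4 : ∀ᶠ j : ℕ in atTop, |q| * (1 / ((j : ℝ) + 1)) < min r (E0 / 2) := by
    have := hj0.const_mul |q|
    rw [mul_zero] at this
    exact this.eventually_lt_const (by positivity)
  obtain ⟨j, hj1, hj2, hj3, hj4⟩ := (j1.and (j2.and (j3.and j4))).exists
  have hq0 : Tendsto (fun n => |q / L n|) atTop (𝓝 0) := by
    have := (hL.const_div_atTop q).abs
    rwa [abs_zero] at this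
  have hu := Metric.tendstoUniformlyOn_iff.1 (hunif A' hA'1) (ρ / 2) (by positivity)
  filter_upwards [hq0.eventually_lt_const hS.k0_pos, hq0.eventually_lt_const (hη j),
    hq0.eventually_lt_const (hη' j), hu] with n n1 n2 n3 n4
  have hne : q / L n ≠ 0 := div_ne_zero hq (hLp n).ne'
  have hLk : L n * |q / L n| = |q| := by
    rw [abs_div, abs_of_pos (hLp n)]
    have := (hLp n).ne'
    field_simp
  have hLk2 : L n * (q / L n) = q := by
    have := (hLp n).ne'
    field_simp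
  have hest := est (c := c) (A := (j : ℝ) + 1) (hq1 n n1 hne) (ψ0 := ψ E0) (hφm n) (hφ n) hB (hLp n)
    hδp (by positivity) hρp.le (hjp j).le (fun τ hτ => by
      have hτ1 : abs ((1 - τ) - c * |q / L n|) < 1 / ((j : ℝ) + 1) * |q / L n| := hτ
      have hτ2 : |L n * (1 - τ) - E0| < 1 / ((j : ℝ) + 1) * |q| := by
        have e : L n * (1 - τ) - E0 = L n * ((1 - τ) - c * |q / L n|) := by
          rw [hE0, ← hLk]
          ring
        rw [e, abs_mul, abs_of_pos (hLp n)]
        calc L n * abs ((1 - τ) - c * |q / L n|) < L n * (1 / ((j : ℝ) + 1) * |q / L n|) :=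
              mul_lt_mul_of_pos_left hτ1 (hLp n)
          _ = 1 / ((j : ℝ) + 1) * (L n * |q / L n|) := by ring
          _ = _ := by rw [hLk]
      have hτ3 : |L n * (1 - τ) - E0| < min r (E0 / 2) := by
        rw [mul_comm (1 / ((j : ℝ) + 1)) |q|] at hτ2
        exact hτ2.trans hj4
      have h5 := n4 (L n * (1 - τ)) (hA'i _ (hτ3.trans_le (min_le_right _ _)))
      have h6 := hψr (x := L n * (1 - τ)) (by
        rw [Real.dist_eq]
        exact hτ3.trans_le (min_le_left _ _))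
      have e7 : 1 - L n * (1 - τ) / L n = τ := by
        have := (hLp n).ne'
        field_simp
        ring
      rw [e7] at h5
      rw [← dist_eq_norm]
      have h8 := dist_triangle (φ n τ) (ψ (L n * (1 - τ))) (ψ E0)
      rw [dist_comm (φ n τ) (ψ (L n * (1 - τ)))] at h8
      linarith)
    (hq2 n j n2 hne) (hq3 n j n3 hne)
  rw [hLk, hLk2] at hest
  rw [dist_eq_norm]
  refine lt_of_le_of_lt hest ?_
  have k1 : ρ * C < ρ0 / 8 := by
    have e : ρ * C = ρ0 / 8 * (C / (C + 1)) := by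
      rw [hρ]
      field_simp
    rw [e]
    have : C / (C + 1) < 1 := (div_lt_one (by positivity)).2 (by linarith)
    nlinarith
  have k2 : B * δ * C / q ^ 2 < ρ0 / 8 := by
    have e : B * δ * C / q ^ 2 = ρ0 / 8 * (B * C / (B * C + 1)) := by
      rw [hδ]
      field_simp
    rw [e]
    have : B * C / (B * C + 1) < 1 := (div_lt_one (by positivity)).2 (by linarith)
    nlinarith
  have k3 : B * C / (((j : ℝ) + 1) * |q|) = B * C / |q| * (1 / ((j : ℝ) + 1)) := by
    field_simp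
  rw [k3]
  have k4 : 1 / ((j : ℝ) + 1) * ‖ψ E0‖ = ‖ψ E0‖ * (1 / ((j : ℝ) + 1)) := mul_comm _ _
  rw [k4]
  linarith

namespace Kern

/-- `(1 - e^{iws})/s`. -/
noncomputable def Ds (w : ℝ) : ℝ → ℂ :=
  dslope (fun s : ℝ => 1 - Complex.exp (Complex.I * ((w * s : ℝ) : ℂ))) 0

lemma hasDeriv_f (w : ℝ) : HasDerivAt (fun s : ℝ => 1 - Complex.exp (Complex.I * ((w * s : ℝ) : ℂ)))
    (-(Complex.I * w)) 0 := by
  have h1 : HasDerivAt (fun s : ℝ => Complex.I * ((w * s : ℝ) : ℂ)) (Complex.I * w) 0 := by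
    have h := ((hasDerivAt_id (0 : ℝ)).const_mul w).ofReal_comp
    have h' := h.const_mul Complex.I
    simpa using h'
  have h2 := h1.cexp
  have h3 := h2.const_sub (1 : ℂ)
  simpa using h3

lemma continuous_Ds (w : ℝ) : Continuous (Ds w) := by
  rw [← continuousOn_univ]
  refine (continuousOn_dslope univ_mem).2 ⟨?_, (hasDeriv_f w).differentiableAt⟩
  exact (by fun_prop : Continuous fun s : ℝ =>
    1 - Complex.exp (Complex.I * ((w * s : ℝ) : ℂ))).continuousOn

lemma Ds_zero (w : ℝ) : Ds w 0 = -(Complex.I * w) := by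
  unfold Ds
  rw [dslope_same, (hasDeriv_f w).deriv]

lemma Ds_ne (w : ℝ) {s : ℝ} (hs : s ≠ 0) :
    Ds w s = (1 - Complex.exp (Complex.I * ((w * s : ℝ) : ℂ))) / s := by
  unfold Ds
  rw [dslope_of_ne _ hs, slope_def_module]
  simp [div_eq_inv_mul]

/-- denominator -/
noncomputable def dn (w : ℝ) (p : ℝ × ℝ) : ℂ :=
  Ds w p.1 + p.2 * Complex.exp (Complex.I * ((w * p.1 : ℝ) : ℂ))

/-- numerator -/
noncomputable def nm (K : ℕ) (w : ℝ) (p : ℝ × ℝ) : ℂ :=
  ∑ j ∈ Finset.range K, (((1 - p.2 * p.1 : ℝ) : ℂ) *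
    Complex.exp (-(Complex.I * ((w * p.1 : ℝ) : ℂ)))) ^ j

lemma continuous_dn (w : ℝ) : Continuous (dn w) := by
  unfold dn
  have := (continuous_Ds w).comp (continuous_fst (X := ℝ) (Y := ℝ))
  refine Continuous.add this ?_
  fun_prop

lemma continuous_nm (K : ℕ) (w : ℝ) : Continuous (nm K w) := by
  unfold nm
  fun_prop

lemma dn_eq (w : ℝ) {p : ℝ × ℝ} (h : p.1 ≠ 0) :
    dn w p = (1 - ((1 - p.2 * p.1 : ℝ) : ℂ) * Complex.exp (Complex.I * ((w * p.1 : ℝ) : ℂ))) /
      p.1 := by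
  unfold dn
  rw [Ds_ne w h]
  have : (p.1 : ℂ) ≠ 0 := by exact_mod_cast h
  field_simp
  push_cast
  ring

lemma dn_ne_zero {A w : ℝ} (hA : 0 < A) {p : ℝ × ℝ} (h1 : p.1 ∈ Ico 0 (1 / A))
    (h2 : p.2 ∈ Icc (1 / A) A) : dn w p ≠ 0 := by
  have hp2 : 0 < p.2 := lt_of_lt_of_le (by positivity) h2.1
  rcases eq_or_lt_of_le h1.1 with h | h
  · intro h0
    unfold dn at h0
    rw [← h, Ds_zero] at h0
    have := congrArg Complex.re h0
    simp at this
    linarith
  · rw [dn_eq w h.ne']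
    have hlt : p.2 * p.1 < 1 := by
      calc p.2 * p.1 ≤ A * p.1 := mul_le_mul_of_nonneg_right h2.2 h.le
        _ < A * (1 / A) := mul_lt_mul_of_pos_left h1.2 hA
        _ = 1 := by field_simp
    have hpos : 0 < p.2 * p.1 := by positivity
    have hd := den_pos (τ := 1 - p.2 * p.1) (by linarith) (by linarith) (w * p.1)
    rw [den_eq_norm] at hd
    refine div_ne_zero ?_ (by exact_mod_cast h.ne')
    intro h0
    rw [h0] at hd
    simp at hd

lemma key_eq {K : ℕ} {A w L E : ℝ} (hA : 0 < A) (hL : A < L) (hE : E ∈ Icc (1 / A) A) :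
    ((L : ℂ))⁻¹ * omf K (w / L) (1 - E / L) = nm K w (1 / L, E) / dn w (1 / L, E) := by
  have hL0 : 0 < L := hA.trans hL
  have hE0 : 0 < E := lt_of_lt_of_le (by positivity) hE.1
  have hτ0 : 0 ≤ 1 - E / L := by
    rw [sub_nonneg, div_le_one hL0]
    exact hE.2.trans hL.le
  have hτ1 : 1 - E / L < 1 := by
    have : 0 < E / L := by positivity
    linarith
  have hdp := den_pos hτ0 hτ1 (w / L)
  have hfac := den_factor (1 - E / L) (w / L)
  have hdC : (den (1 - E / L) (w / L) : ℂ) ≠ 0 := by exact_mod_cast hdp.ne'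
  rw [hfac] at hdC
  have h1 := left_ne_zero_of_mul hdC
  have h2 := right_ne_zero_of_mul hdC
  have e1 : (1 - ((1 - E / L : ℝ) : ℂ) * Complex.exp (-(Complex.I * ((w / L : ℝ) : ℂ)))) *
      nm K w (1 / L, E) = 1 - (((1 - E / L : ℝ) : ℂ) *
        Complex.exp (-(Complex.I * ((w / L : ℝ) : ℂ)))) ^ K := by
    rw [← mul_neg_geom_sum]
    unfold nm
    simp only [mul_one_div]
  have e2 : dn w (1 / L, E) = (L : ℂ) * (1 - ((1 - E / L : ℝ) : ℂ) *
      Complex.exp (Complex.I * ((w / L : ℝ) : ℂ))) := by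
    rw [dn_eq w (by simpa using hL0.ne' : ((1 / L, E) : ℝ × ℝ).1 ≠ 0)]
    simp only [mul_one_div]
    push_cast
    rw [div_div_eq_mul_div, div_one]
    ring
  have hLC : (L : ℂ) ≠ 0 := by exact_mod_cast hL0.ne'
  unfold omf
  rw [← e1, hfac, e2]
  generalize (1 - ((1 - E / L : ℝ) : ℂ) * Complex.exp (-(Complex.I * ((w / L : ℝ) : ℂ)))) = a at *
  generalize (1 - ((1 - E / L : ℝ) : ℂ) * Complex.exp (Complex.I * ((w / L : ℝ) : ℂ))) = b at *
  field_simp

end Kern

open Kern in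
theorem kl_of_t (hT : TStatement) : KLStatement := by
  intro V m c κ C k0 hS L hL1 hL K
  have hLp : ∀ n, 0 < L n := fun n => lt_of_lt_of_le one_pos (hL1 n)
  have hc := hS.c_pos
  have hjp : ∀ j : ℕ, (0 : ℝ) < 1 / ((j : ℝ) + 1) := fun j => by positivity
  choose η hη hlim using fun j : ℕ => hS.lim (1 / ((j : ℝ) + 1)) (hjp j)
  have hl : ∀ᵐ q : ℝ, ∀ n, ∀ j : ℕ, |q / L n| < η j → q / L n ≠ 0 → ∀ θ : ℝ, |θ| < η j →
      |(c ^ 2 * (q / L n) ^ 2 + θ ^ 2) * (∫ τ, 1 / den τ θ ∂(m (q / L n))) - κ| ≤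
        1 / ((j : ℝ) + 1) :=
    ae_all_iff.2 fun n => ae_all_iff.2 fun j => ae_scale (hlim j) (hLp n).ne'
  filter_upwards [hT V m c κ C k0 hS L hL1 hL, hl] with q hq hq2 hq0 w hw
  constructor
  · have h := hq hq0 (fun n τ => ((L n : ℝ) : ℂ)⁻¹ * omf K (w / L n) τ)
      (fun E => (K : ℂ) / ((E : ℂ) - Complex.I * (w : ℝ))) K
      (fun n => (measurable_omf K (w / L n)).const_mul _)
      (fun n τ h0 h1 => by
        have h3 := norm_omf h0 h1 (w / L n) K
        have h4 : 0 < 1 - τ := by linarith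
        have h5 : 1 - τ ≤ Real.sqrt (den τ (w / L n)) :=
          Real.le_sqrt_of_sq_le (sq_le_den h0 _)
        rw [norm_mul, norm_inv, Complex.norm_real, Real.norm_of_nonneg (hLp n).le,
          ← div_eq_inv_mul, mul_comm (L n), ← div_div]
        refine div_le_div_of_nonneg_right (h3.trans ?_) (hLp n).le
        exact div_le_div_of_nonneg_left (Nat.cast_nonneg _) h4 h5)
      (by
        intro E hE
        have hne : (E : ℂ) - Complex.I * (w : ℝ) ≠ 0 := by
          intro h0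
          have := congrArg Complex.im h0
          simp at this
          exact hw this
        refine ContinuousAt.continuousWithinAt ?_
        refine ContinuousAt.div continuousAt_const ?_ hne
        fun_prop)
      (by
        intro A hA
        have hA0 : 0 < A := by linarith
        rw [Metric.tendstoUniformlyOn_iff]
        intro ε hε
        obtain ⟨v, hv, hv2⟩ := IsCompact.mem_uniformity_of_prod (isCompact_Icc (a := 1 / A) (b := A))
          (f := fun s E => nm K w (s, E) / dn w (s, E)) (s := Ico 0 (1 / A)) (q := 0)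
          (u := {p : ℂ × ℂ | dist p.1 p.2 < ε})
          (by
            intro p hp
            refine ContinuousAt.continuousWithinAt ?_
            exact (continuous_nm K w).continuousAt.div (continuous_dn w).continuousAt
              (dn_ne_zero hA0 hp.1 hp.2))
          ⟨le_rfl, by positivity⟩ (Metric.dist_mem_uniformity hε)
        have hs : Tendsto (fun n => 1 / L n) atTop (𝓝[Ico 0 (1 / A)] 0) := by
          rw [tendsto_nhdsWithin_iff]
          refine ⟨hL.const_div_atTop 1, ?_⟩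
          filter_upwards [hL.eventually_gt_atTop A] with n hn
          exact ⟨by have := hLp n; positivity, one_div_lt_one_div_of_lt hA0 hn⟩
        filter_upwards [hs hv, hL.eventually_gt_atTop A] with n hn1 hn2 E hE
        have h6 := hv2 (1 / L n) hn1 E hE
        have h7 : nm K w (0, E) / dn w (0, E) = (K : ℂ) / ((E : ℂ) - Complex.I * (w : ℝ)) := by
          unfold nm dn
          simp only [Ds_zero]
          simp
          ring
        simp only [mem_ofPred_eq] at h6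
        rw [h7] at h6
        rw [key_eq hA0 hn2 hE, dist_comm]
        exact h6)
    have e : ∀ n, ∫ τ, ((L n : ℝ) : ℂ)⁻¹ * omf K (w / L n) τ ∂(m (q / L n)) =
        (L n : ℂ)⁻¹ * Om m K (q / L n) (w / L n) := fun n => integral_const_mul _ _
    simp_rw [e] at h
    rwa [mul_div_assoc]
  · have hq0' : Tendsto (fun n => |q / L n|) atTop (𝓝 0) := by
      have := (hL.const_div_atTop q).abs
      rwa [abs_zero] at this
    have hw0' : Tendsto (fun n => |w / L n|) atTop (𝓝 0) := by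
      have := (hL.const_div_atTop w).abs
      rwa [abs_zero] at this
    have hdpos : 0 < c ^ 2 * q ^ 2 + w ^ 2 := by positivity
    have h1 : Tendsto (fun n => (c ^ 2 * (q / L n) ^ 2 + (w / L n) ^ 2) *
        Psi m (q / L n) (w / L n)) atTop (𝓝 κ) := by
      rw [Metric.tendsto_nhds]
      intro ε hε
      obtain ⟨j, hj⟩ := exists_nat_one_div_lt hε
      filter_upwards [hq0'.eventually_lt_const (hη j), hw0'.eventually_lt_const (hη j)]
        with n hn1 hn2
      rw [Real.dist_eq]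
      refine lt_of_le_of_lt ?_ hj
      exact hq2 n j hn1 (div_ne_zero hq0 (hLp n).ne') _ hn2
    have h2 := h1.div_const (c ^ 2 * q ^ 2 + w ^ 2)
    refine h2.congr fun n => ?_
    have := (hLp n).ne'
    field_simp

theorem kl_of_conc (h : ConcStatement) : KLStatement := kl_of_t (t_of_conc h)

end Vale.Agent.P153.TwoPt
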