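import Vale.Agent.P153.TwoPt.Conc

/-!
# P153, block (D): statements (P3) and (P4)

Owner: helper442.
-/

open MeasureTheory ProbabilityTheory Filter Topology Set
open scoped ENNReal Real

namespace Vale.Agent.P153.TwoPt

namespace Cn

/-! ### The Fejer kernel -/

/-- `|∑_{j<N} e^{ijk}|²`. -/
noncomputable def fej (N : ℕ) (k : ℝ) : ℝ :=
  (∑ j ∈ Finset.range N, Real.cos (j * k)) ^ 2 + (∑ j ∈ Finset.range N, Real.sin (j * k)) ^ 2

lemma fej_nonneg (N : ℕ) (k : ℝ) : 0 ≤ fej N k := by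
  unfold fej; positivity

lemma fej_continuous (N : ℕ) : Continuous (fej N) := by
  unfold fej; fun_prop

lemma fej_eq (N : ℕ) (k : ℝ) : fej N k = ∑ i ∈ Finset.range N, ∑ j ∈ Finset.range N,
    Real.cos (k * (((i : ℤ) - (j : ℤ) : ℤ) : ℝ)) := by
  unfold fej
  rw [sq, sq, Finset.sum_mul_sum, Finset.sum_mul_sum, ← Finset.sum_add_distrib]
  refine Finset.sum_congr rfl fun i _ => ?_
  rw [← Finset.sum_add_distrib]
  refine Finset.sum_congr rfl fun j _ => ?_
  rw [← Real.cos_sub]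
  congr 1
  push_cast; ring

lemma fej_mul_le (N : ℕ) (k : ℝ) : fej N k * (1 - Real.cos k) ≤ 2 := by
  set z : ℂ := Complex.exp (k * Complex.I) with hz
  set S : ℂ := ∑ j ∈ Finset.range N, z ^ j with hS
  have h1 : S * (z - 1) = z ^ N - 1 := geom_sum_mul _ _
  have hpow : ∀ j : ℕ, z ^ j = Complex.exp (((j * k : ℝ) : ℂ) * Complex.I) := by
    intro j
    rw [hz, ← Complex.exp_nat_mul]
    congr 1
    push_cast; ring
  have hre : S.re = ∑ j ∈ Finset.range N, Real.cos (j * k) := by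
    rw [hS, Complex.re_sum]
    refine Finset.sum_congr rfl fun j _ => ?_
    rw [hpow, Complex.exp_ofReal_mul_I_re]
  have him : S.im = ∑ j ∈ Finset.range N, Real.sin (j * k) := by
    rw [hS, Complex.im_sum]
    refine Finset.sum_congr rfl fun j _ => ?_
    rw [hpow, Complex.exp_ofReal_mul_I_im]
  have hfej : fej N k = Complex.normSq S := by
    rw [Complex.normSq_apply, hre, him]; unfold fej; ring
  have hz1 : Complex.normSq (z - 1) = 2 * (1 - Real.cos k) := by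
    rw [Complex.normSq_apply, Complex.sub_re, Complex.sub_im, hz, Complex.exp_ofReal_mul_I_re,
      Complex.exp_ofReal_mul_I_im, Complex.one_re, Complex.one_im]
    nlinarith [Real.sin_sq_add_cos_sq k]
  have hzN : Complex.normSq (z ^ N - 1) ≤ 4 := by
    rw [Complex.normSq_apply, Complex.sub_re, Complex.sub_im, hpow, Complex.exp_ofReal_mul_I_re,
      Complex.exp_ofReal_mul_I_im, Complex.one_re, Complex.one_im]
    nlinarith [Real.sin_sq_add_cos_sq (N * k), Real.neg_one_le_cos (N * k)]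
  have h2 : Complex.normSq S * Complex.normSq (z - 1) ≤ 4 := by
    rw [← Complex.normSq_mul, h1]; exact hzN
  rw [hz1] at h2
  rw [hfej]; nlinarith

lemma integral_cos_int (z : ℤ) : ∫ k in Icc (-π) π, Real.cos (k * z) =
    if z = 0 then 2 * π else 0 := by
  rw [integral_Icc_eq_integral_Ioc, ← intervalIntegral.integral_of_le (by linarith [Real.pi_pos])]
  split_ifs with h
  · subst h
    simp
    ring
  · have hz : (z : ℝ) ≠ 0 := by exact_mod_cast h
    rw [intervalIntegral.integral_comp_mul_right (fun x => Real.cos x) hz, integral_cos]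
    have h1 : Real.sin (π * z) = 0 := by rw [mul_comm]; exact Real.sin_int_mul_pi z
    have h2 : Real.sin (-π * z) = 0 := by rw [neg_mul, Real.sin_neg, h1, neg_zero]
    rw [h1, h2]; simp

lemma integral_fej (N : ℕ) : ∫ k in Icc (-π) π, fej N k = N * (2 * π) := by
  simp_rw [fej_eq]
  rw [integral_finsetSum]
  · have : ∀ i ∈ Finset.range N, (∫ k in Icc (-π) π, ∑ j ∈ Finset.range N,
        Real.cos (k * (((i : ℤ) - (j : ℤ) : ℤ) : ℝ))) = 2 * π := by
      intro i hi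
      rw [integral_finsetSum]
      · simp_rw [integral_cos_int, sub_eq_zero]
        rw [Finset.sum_eq_single i]
        · simp
        · intro b _ hb
          rw [if_neg]
          exact_mod_cast hb.symm
        · intro h; exact absurd hi h
      · intro j _
        exact (Continuous.integrableOn_Icc (by fun_prop))
    rw [Finset.sum_congr rfl this]
    simp
  · intro i _
    exact (Continuous.integrableOn_Icc (by fun_prop))

/-! ### Fourier coefficients of a nonnegative function -/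

/-- cosine coefficient. -/
noncomputable def cc (F : ℝ → ℝ) (z : ℤ) : ℝ :=
  1 / (2 * π) * ∫ k in Icc (-π) π, Real.cos (k * z) * F k

lemma integrableOn_cos_mul {F : ℝ → ℝ} (hF : IntegrableOn F (Icc (-π) π)) (z : ℤ) :
    IntegrableOn (fun k => Real.cos (k * z) * F k) (Icc (-π) π) := by
  refine Integrable.bdd_mul (c := 1) hF ?_ ?_
  · exact (by fun_prop : Continuous fun k : ℝ => Real.cos (k * z)).aestronglyMeasurable
  · exact Eventually.of_forall fun k => by rw [Real.norm_eq_abs]; exact Real.abs_cos_le_one _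

lemma integrableOn_fej_mul {F : ℝ → ℝ} (hF : IntegrableOn F (Icc (-π) π)) (N : ℕ) :
    IntegrableOn (fun k => fej N k * F k) (Icc (-π) π) := by
  simp_rw [fej_eq, Finset.sum_mul]
  refine integrable_finsetSum _ fun i _ => integrable_finsetSum _ fun j _ => ?_
  exact integrableOn_cos_mul hF _

lemma sum_cc_eq {F : ℝ → ℝ} (hF : IntegrableOn F (Icc (-π) π)) (N : ℕ) :
    ∑ i ∈ Finset.range N, ∑ j ∈ Finset.range N, cc F ((i : ℤ) - (j : ℤ)) =
      1 / (2 * π) * ∫ k in Icc (-π) π, fej N k * F k := by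
  simp_rw [fej_eq, Finset.sum_mul]
  rw [integral_finsetSum _ (fun i _ => integrable_finsetSum _ fun j _ =>
    integrableOn_cos_mul hF _)]
  rw [Finset.mul_sum]
  refine Finset.sum_congr rfl fun i _ => ?_
  rw [integral_finsetSum _ (fun j _ => integrableOn_cos_mul hF _), Finset.mul_sum]
  rfl

lemma one_sub_cos_pos {η : ℝ} (hη : 0 < η) (hηπ : η ≤ π) : 0 < 1 - Real.cos η := by
  have : Real.cos η < Real.cos 0 := Real.cos_lt_cos_of_nonneg_of_le_pi le_rfl hηπ hη
  rw [Real.cos_zero] at this; linarith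

lemma fej_le {η k : ℝ} (hη : 0 < η) (hk : η ≤ |k|) (hkπ : |k| ≤ π) (N : ℕ) :
    fej N k ≤ 2 / (1 - Real.cos η) := by
  have h1 := one_sub_cos_pos hη (hk.trans hkπ)
  have h2 : Real.cos k ≤ Real.cos η := by
    rw [← Real.cos_abs k]
    exact Real.cos_le_cos_of_nonneg_of_le_pi hη.le hkπ hk
  rw [le_div_iff₀ h1]
  have h3 := fej_mul_le N k
  have h4 := fej_nonneg N k
  nlinarith

/-- Upper bound of the double sum. -/
lemma fej_int_le {F : ℝ → ℝ} (hF : IntegrableOn F (Icc (-π) π))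
    (hF0 : ∀ᵐ k : ℝ, |k| ≤ π → 0 ≤ F k) {η B : ℝ} (hη : 0 < η) (hηπ : η ≤ π) (hB0 : 0 ≤ B)
    (hB : ∀ᵐ k : ℝ, |k| < η → F k ≤ B) (N : ℕ) :
    1 / (2 * π) * ∫ k in Icc (-π) π, fej N k * F k ≤
      N * B + 1 / (2 * π) * (2 / (1 - Real.cos η)) * ∫ k in Icc (-π) π, F k := by
  have hπ := Real.pi_pos
  have hcos := one_sub_cos_pos hη hηπ
  have hc0 : 0 ≤ 2 / (1 - Real.cos η) := by positivity
  have hi : IntegrableOn (fun k => fej N k) (Icc (-π) π) :=
    (fej_continuous N).integrableOn_Icc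
  have h1 : ∫ k in Icc (-π) π, fej N k * F k ≤
      ∫ k in Icc (-π) π, (B * fej N k + 2 / (1 - Real.cos η) * F k) := by
    refine setIntegral_mono_on_ae (integrableOn_fej_mul hF N) ((hi.const_mul _).add
      (hF.const_mul _)) measurableSet_Icc ?_
    filter_upwards [hF0, hB] with k h0 hBk hk
    have hkπ : |k| ≤ π := abs_le.mpr ⟨hk.1, hk.2⟩
    have hf0 := fej_nonneg N k
    have hFk := h0 hkπ
    rcases lt_or_ge |k| η with h | h
    · have := hBk h
      nlinarith [mul_nonneg hc0 hFk, mul_le_mul_of_nonneg_left this hf0]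
    · have := fej_le hη h hkπ N
      nlinarith [mul_nonneg hB0 hf0, mul_le_mul_of_nonneg_right this hFk]
  rw [integral_add (hi.const_mul _) (hF.const_mul _), integral_const_mul, integral_const_mul,
    integral_fej] at h1
  calc 1 / (2 * π) * ∫ k in Icc (-π) π, fej N k * F k
      ≤ 1 / (2 * π) * (B * (N * (2 * π)) + 2 / (1 - Real.cos η) * ∫ k in Icc (-π) π, F k) := by
        gcongr
    _ = _ := by field_simp

lemma le_fej_int {F : ℝ → ℝ} (hF : IntegrableOn F (Icc (-π) π))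
    (hF0 : ∀ᵐ k : ℝ, |k| ≤ π → 0 ≤ F k) {η A : ℝ} (hη : 0 < η) (hηπ : η ≤ π) (hA0 : 0 ≤ A)
    (hA : ∀ᵐ k : ℝ, |k| < η → A ≤ F k) (N : ℕ) :
    N * A - A * (2 / (1 - Real.cos η)) ≤
      1 / (2 * π) * ∫ k in Icc (-π) π, fej N k * F k := by
  have hπ := Real.pi_pos
  have hcos := one_sub_cos_pos hη hηπ
  have hc0 : 0 ≤ 2 / (1 - Real.cos η) := by positivity
  have hi : IntegrableOn (fun k => fej N k) (Icc (-π) π) :=
    (fej_continuous N).integrableOn_Icc
  have hi1 : IntegrableOn (fun _ : ℝ => A * (2 / (1 - Real.cos η))) (Icc (-π) π) :=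
    continuous_const.integrableOn_Icc
  have h1 : ∫ k in Icc (-π) π, (A * fej N k - A * (2 / (1 - Real.cos η))) ≤
      ∫ k in Icc (-π) π, fej N k * F k := by
    refine setIntegral_mono_on_ae ((hi.const_mul _).sub hi1) (integrableOn_fej_mul hF N)
      measurableSet_Icc ?_
    filter_upwards [hF0, hA] with k h0 hAk hk
    have hkπ : |k| ≤ π := abs_le.mpr ⟨hk.1, hk.2⟩
    have hf0 := fej_nonneg N k
    have hFk := h0 hkπ
    rcases lt_or_ge |k| η with h | h
    · have := hAk h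
      nlinarith [mul_nonneg hA0 hc0, mul_le_mul_of_nonneg_left this hf0]
    · have := fej_le hη h hkπ N
      nlinarith [mul_nonneg hf0 hFk, mul_le_mul_of_nonneg_left this hA0]
  rw [integral_sub (hi.const_mul _) hi1, integral_const_mul, integral_fej] at h1
  simp only [integral_const, MeasurableSet.univ, measureReal_restrict_apply, univ_inter,
    Real.volume_real_Icc, smul_eq_mul] at h1
  rw [max_eq_left (by linarith)] at h1
  calc N * A - A * (2 / (1 - Real.cos η))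
      = 1 / (2 * π) * (A * (N * (2 * π)) - (π - -π) * (A * (2 / (1 - Real.cos η)))) := by
        field_simp; ring
    _ ≤ _ := by gcongr

/-- the partial sums of nonnegative Fourier coefficients. -/
lemma sum_le_of_bound {F : ℝ → ℝ} (hF : IntegrableOn F (Icc (-π) π))
    (hF0 : ∀ᵐ k : ℝ, |k| ≤ π → 0 ≤ F k) {η B : ℝ} (hη : 0 < η) (hηπ : η ≤ π) (hB0 : 0 ≤ B)
    (hB : ∀ᵐ k : ℝ, |k| < η → F k ≤ B) (hc : ∀ z, 0 ≤ cc F z) (S : Finset ℤ) :
    ∑ z ∈ S, cc F z ≤ B := by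
  obtain ⟨M, hM⟩ : ∃ M : ℕ, ∀ z ∈ S, |z| ≤ M := by
    obtain ⟨M, hM⟩ := (S.image fun z => z.natAbs).bddAbove
    refine ⟨M, fun z hz => ?_⟩
    have := hM (Finset.mem_coe.mpr (Finset.mem_image_of_mem (fun z : ℤ => z.natAbs) hz))
    rw [Int.abs_eq_natAbs]
    exact_mod_cast this
  set D : ℝ := 1 / (2 * π) * (2 / (1 - Real.cos η)) * ∫ k in Icc (-π) π, F k with hD
  set T : ℝ := ∑ z ∈ S, cc F z with hT
  have hT0 : 0 ≤ T := Finset.sum_nonneg fun z _ => hc z
  have key : ∀ N : ℕ, ((N : ℝ) - 2 * M) * T ≤ N * B + D := by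
    intro N
    rcases le_or_gt (N : ℝ) (2 * M) with h | h
    · have h1 := fej_int_le hF hF0 hη hηπ hB0 hB N
      have h2 : 0 ≤ 1 / (2 * π) * ∫ k in Icc (-π) π, fej N k * F k := by
        rw [← sum_cc_eq hF]
        exact Finset.sum_nonneg fun i _ => Finset.sum_nonneg fun j _ => hc _
      nlinarith
    · have hN : 2 * M < N := by exact_mod_cast h
      refine le_trans ?_ (fej_int_le hF hF0 hη hηπ hB0 hB N)
      rw [← sum_cc_eq hF, Finset.sum_comm]
      have h3 : ∀ j ∈ Finset.Ico M (N - M), T ≤ ∑ i ∈ Finset.range N,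
          cc F ((i : ℤ) - (j : ℤ)) := by
        intro j hj
        rw [Finset.mem_Ico] at hj
        rw [hT]
        have h4 : ∑ z ∈ S, cc F z = ∑ i ∈ S.image (fun z : ℤ => (z + j).toNat),
            cc F ((i : ℤ) - (j : ℤ)) := by
          rw [Finset.sum_image]
          · refine Finset.sum_congr rfl fun z hz => ?_
            have := abs_le.mp (hM z hz)
            rw [Int.toNat_of_nonneg (by omega)]
            congr 1; ring
          · intro z hz z' hz' h
            have h5 := abs_le.mp (hM z hz)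
            have h6 := abs_le.mp (hM z' hz')
            simp only at h
            omega
        rw [h4]
        refine Finset.sum_le_sum_of_subset_of_nonneg ?_ fun i _ _ => hc _
        intro i hi
        rw [Finset.mem_image] at hi
        obtain ⟨z, hz, rfl⟩ := hi
        have := abs_le.mp (hM z hz)
        rw [Finset.mem_range]
        omega
      calc ((N : ℝ) - 2 * M) * T = ∑ j ∈ Finset.Ico M (N - M), T := by
            rw [Finset.sum_const, Nat.card_Ico, nsmul_eq_mul]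
            congr 1
            rw [Nat.cast_sub (by omega), Nat.cast_sub (by omega)]; ring
        _ ≤ ∑ j ∈ Finset.Ico M (N - M), ∑ i ∈ Finset.range N, cc F ((i : ℤ) - (j : ℤ)) :=
            Finset.sum_le_sum h3
        _ ≤ ∑ j ∈ Finset.range N, ∑ i ∈ Finset.range N, cc F ((i : ℤ) - (j : ℤ)) := by
            refine Finset.sum_le_sum_of_subset_of_nonneg ?_ fun j _ _ =>
              Finset.sum_nonneg fun i _ => hc _
            intro j hj
            rw [Finset.mem_Ico] at hj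
            rw [Finset.mem_range]
            omega
  by_contra hlt
  push Not at hlt
  obtain ⟨N, hN⟩ := exists_nat_gt ((D + 2 * M * T) / (T - B))
  rw [div_lt_iff₀ (by linarith)] at hN
  have := key N
  nlinarith

lemma summable_cc {F : ℝ → ℝ} (hF : IntegrableOn F (Icc (-π) π))
    (hF0 : ∀ᵐ k : ℝ, |k| ≤ π → 0 ≤ F k) {η B : ℝ} (hη : 0 < η) (hηπ : η ≤ π) (hB0 : 0 ≤ B)
    (hB : ∀ᵐ k : ℝ, |k| < η → F k ≤ B) (hc : ∀ z, 0 ≤ cc F z) : Summable (cc F) :=
  summable_of_sum_le hc (sum_le_of_bound hF hF0 hη hηπ hB0 hB hc)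

lemma tsum_cc_le {F : ℝ → ℝ} (hF : IntegrableOn F (Icc (-π) π))
    (hF0 : ∀ᵐ k : ℝ, |k| ≤ π → 0 ≤ F k) {η B : ℝ} (hη : 0 < η) (hηπ : η ≤ π) (hB0 : 0 ≤ B)
    (hB : ∀ᵐ k : ℝ, |k| < η → F k ≤ B) (hc : ∀ z, 0 ≤ cc F z) : ∑' z, cc F z ≤ B :=
  Real.tsum_le_of_sum_le hc (sum_le_of_bound hF hF0 hη hηπ hB0 hB hc)

lemma le_tsum_cc {F : ℝ → ℝ} (hF : IntegrableOn F (Icc (-π) π))
    (hF0 : ∀ᵐ k : ℝ, |k| ≤ π → 0 ≤ F k) {η A : ℝ} (hη : 0 < η) (hηπ : η ≤ π) (hA0 : 0 ≤ A)
    (hA : ∀ᵐ k : ℝ, |k| < η → A ≤ F k) (hc : ∀ z, 0 ≤ cc F z) (hs : Summable (cc F)) :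
    A ≤ ∑' z, cc F z := by
  set T := ∑' z, cc F z with hT
  have key : ∀ N : ℕ, N * A - A * (2 / (1 - Real.cos η)) ≤ N * T := by
    intro N
    refine (le_fej_int hF hF0 hη hηπ hA0 hA N).trans ?_
    rw [← sum_cc_eq hF, Finset.sum_comm]
    calc ∑ j ∈ Finset.range N, ∑ i ∈ Finset.range N, cc F ((i : ℤ) - (j : ℤ))
        ≤ ∑ j ∈ Finset.range N, T := by
          refine Finset.sum_le_sum fun j _ => ?_
          have : ∑ i ∈ Finset.range N, cc F ((i : ℤ) - (j : ℤ)) =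
              ∑ z ∈ (Finset.range N).image (fun i : ℕ => (i : ℤ) - (j : ℤ)), cc F z := by
            rw [Finset.sum_image]
            intro a _ b _ h
            simp only at h
            omega
          rw [this]
          exact hs.sum_le_tsum _ fun z _ => hc z
      _ = N * T := by rw [Finset.sum_const, Finset.card_range, nsmul_eq_mul]
  by_contra hlt
  push Not at hlt
  obtain ⟨N, hN⟩ := exists_nat_gt ((A * (2 / (1 - Real.cos η))) / (A - T))
  rw [div_lt_iff₀ (by linarith)] at hN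
  have := key N
  nlinarith

/-! ### the spectral functions -/

/-- `∫ 1/(1-τ²) dm_k`. -/
noncomputable def Ai (m : Kernel ℝ ℝ) (k : ℝ) : ℝ≥0∞ :=
  ∫⁻ τ, ENNReal.ofReal (1 / (1 - τ ^ 2)) ∂(m k)

/-- `∫ (1-τ^{2K})/(1-τ²) dm_k`. -/
noncomputable def Bi (m : Kernel ℝ ℝ) (K : ℕ) (k : ℝ) : ℝ≥0∞ :=
  ∫⁻ τ, ENNReal.ofReal ((1 - τ ^ (2 * K)) / (1 - τ ^ 2)) ∂(m k)

lemma Ai_measurable (m : Kernel ℝ ℝ) : Measurable (Ai m) :=
  Measurable.lintegral_kernel (by fun_prop)

lemma Bi_measurable (m : Kernel ℝ ℝ) (K : ℕ) : Measurable (Bi m K) :=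
  Measurable.lintegral_kernel (by fun_prop)

lemma phi_eq {τ : ℝ} (h0 : 0 ≤ τ) (h1 : τ < 1) (K : ℕ) :
    (1 - τ ^ (2 * K)) / (1 - τ ^ 2) = ∑ i ∈ Finset.range K, (τ ^ 2) ^ i := by
  have h2 : τ ^ 2 < 1 := by nlinarith
  rw [geom_sum_eq h2.ne, pow_mul, ← neg_sub 1 ((τ ^ 2) ^ K), ← neg_sub 1 (τ ^ 2), neg_div_neg_eq]

lemma phi_nonneg {τ : ℝ} (h0 : 0 ≤ τ) (h1 : τ < 1) (K : ℕ) :
    0 ≤ (1 - τ ^ (2 * K)) / (1 - τ ^ 2) := by
  rw [phi_eq h0 h1]
  exact Finset.sum_nonneg fun i _ => by positivity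

lemma phi_le {τ : ℝ} (h0 : 0 ≤ τ) (h1 : τ < 1) (K : ℕ) :
    (1 - τ ^ (2 * K)) / (1 - τ ^ 2) ≤ K := by
  rw [phi_eq h0 h1]
  calc ∑ i ∈ Finset.range K, (τ ^ 2) ^ i ≤ ∑ i ∈ Finset.range K, (1 : ℝ) :=
        Finset.sum_le_sum fun i _ => pow_le_one₀ (by positivity) (by nlinarith)
    _ = K := by simp

lemma phi_le' {τ : ℝ} (h0 : 0 ≤ τ) (h1 : τ < 1) (K : ℕ) :
    (1 - τ ^ (2 * K)) / (1 - τ ^ 2) ≤ 1 / (1 - τ) := by
  have h2 : 0 < 1 - τ := by linarith
  have h3 : 1 - τ ≤ 1 - τ ^ 2 := by nlinarith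
  have h4 : 0 ≤ τ ^ (2 * K) := by positivity
  calc (1 - τ ^ (2 * K)) / (1 - τ ^ 2) ≤ 1 / (1 - τ ^ 2) := by
        have : 0 < 1 - τ ^ 2 := by linarith
        gcongr
        linarith
    _ ≤ 1 / (1 - τ) := one_div_le_one_div_of_le h2 h3

lemma phi_ge {τ : ℝ} (h0 : 0 ≤ τ) (h1 : τ < 1) (K : ℕ) :
    K * (1 - 2 * K * (1 - τ)) ≤ (1 - τ ^ (2 * K)) / (1 - τ ^ 2) := by
  rw [phi_eq h0 h1]
  have hb : 1 - 2 * K * (1 - τ) ≤ τ ^ (2 * K) := by
    have := one_add_mul_le_pow (a := τ - 1) (by linarith) (2 * K)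
    push_cast at this
    have e : 1 + (τ - 1) = τ := by ring
    rw [e] at this
    linarith
  calc K * (1 - 2 * K * (1 - τ)) ≤ K * τ ^ (2 * K) := by gcongr
    _ = ∑ i ∈ Finset.range K, (τ ^ 2) ^ K := by
        rw [Finset.sum_const, Finset.card_range, nsmul_eq_mul, pow_mul]
    _ ≤ ∑ i ∈ Finset.range K, (τ ^ 2) ^ i := by
        refine Finset.sum_le_sum fun i hi => ?_
        exact pow_le_pow_of_le_one (by positivity) (by nlinarith) (Finset.mem_range.mp hi).le

section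

variable {V : ℤ → ℤ → ℝ} {m : Kernel ℝ ℝ} {c κ C k0 : ℝ}

lemma ae_Ai_lt (hS : Spec V m c κ C k0) : ∀ᵐ k : ℝ, |k| ≤ π → k ≠ 0 → Ai m k < ⊤ := by
  have hm : Measurable fun k : ℝ => ENNReal.ofReal (1 - Real.cos k) * Ai m k :=
    (by fun_prop : Measurable fun k : ℝ => ENNReal.ofReal (1 - Real.cos k)).mul (Ai_measurable m)
  have h1 : ∀ᵐ k ∂(volume.restrict (Icc (-π) π)), ENNReal.ofReal (1 - Real.cos k) * Ai m k < ⊤ :=
    ae_lt_top hm hS.fin
  rw [ae_restrict_iff' measurableSet_Icc] at h1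
  filter_upwards [h1] with k hk hkπ hk0
  have h2 := hk ⟨(abs_le.mp hkπ).1, (abs_le.mp hkπ).2⟩
  have h3 : 0 < 1 - Real.cos k := by
    rw [← Real.cos_abs]
    exact one_sub_cos_pos (abs_pos.mpr hk0) hkπ
  by_contra h4
  rw [not_lt, top_le_iff] at h4
  rw [h4, ENNReal.mul_top] at h2
  · exact lt_irrefl _ h2
  · rw [Ne, ENNReal.ofReal_eq_zero, not_le]; exact h3

lemma inner_eq' {k : ℝ} (hsupp : ∀ᵐ τ ∂(m k), 0 ≤ τ ∧ τ < 1) (hA : Ai m k < ⊤) (a : ℝ) (K : ℕ) :
    ∫ τ, (1 - a * τ ^ (2 * K)) / (1 - τ ^ 2) ∂(m k) =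
      (1 - a) * (Ai m k).toReal + a * (Bi m K k).toReal := by
  have hm1 : Measurable fun τ : ℝ => 1 / (1 - τ ^ 2) := by fun_prop
  have hm2 : Measurable fun τ : ℝ => (1 - τ ^ (2 * K)) / (1 - τ ^ 2) := by fun_prop
  have hn1 : 0 ≤ᵐ[m k] fun τ : ℝ => 1 / (1 - τ ^ 2) := by
    filter_upwards [hsupp] with τ hτ
    have : 0 < 1 - τ ^ 2 := by nlinarith [hτ.1, hτ.2]
    simp only [Pi.zero_apply]
    positivity
  have hn2 : 0 ≤ᵐ[m k] fun τ : ℝ => (1 - τ ^ (2 * K)) / (1 - τ ^ 2) := by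
    filter_upwards [hsupp] with τ hτ
    exact phi_nonneg hτ.1 hτ.2 K
  have i1 : Integrable (fun τ : ℝ => 1 / (1 - τ ^ 2)) (m k) :=
    ⟨hm1.aestronglyMeasurable, by rw [hasFiniteIntegral_iff_ofReal hn1]; exact hA⟩
  have i2 : Integrable (fun τ : ℝ => (1 - τ ^ (2 * K)) / (1 - τ ^ 2)) (m k) := by
    refine i1.mono' hm2.aestronglyMeasurable ?_
    filter_upwards [hsupp] with τ hτ
    rw [Real.norm_eq_abs, abs_of_nonneg (phi_nonneg hτ.1 hτ.2 K)]
    have : 0 < 1 - τ ^ 2 := by nlinarith [hτ.1, hτ.2]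
    have h4 : 0 ≤ τ ^ (2 * K) := pow_nonneg hτ.1 _
    gcongr
    linarith
  have e1 : (Ai m k).toReal = ∫ τ, 1 / (1 - τ ^ 2) ∂(m k) :=
    (integral_eq_lintegral_of_nonneg_ae hn1 hm1.aestronglyMeasurable).symm
  have e2 : (Bi m K k).toReal = ∫ τ, (1 - τ ^ (2 * K)) / (1 - τ ^ 2) ∂(m k) :=
    (integral_eq_lintegral_of_nonneg_ae hn2 hm2.aestronglyMeasurable).symm
  rw [e1, e2, ← integral_const_mul, ← integral_const_mul,
    ← integral_add (i1.const_mul _) (i2.const_mul _)]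
  refine integral_congr_ae ?_
  filter_upwards [hsupp] with τ hτ
  have : 1 - τ ^ 2 ≠ 0 := by nlinarith [hτ.1, hτ.2]
  field_simp
  ring

/-- `(1 - cos k) ∫ 1/(1-τ²) dm_k` is integrable. -/
lemma int_g (hS : Spec V m c κ C k0) :
    IntegrableOn (fun k => (1 - Real.cos k) * (Ai m k).toReal) (Icc (-π) π) := by
  have hm : Measurable fun k : ℝ => ENNReal.ofReal (1 - Real.cos k) * Ai m k :=
    (by fun_prop : Measurable fun k : ℝ => ENNReal.ofReal (1 - Real.cos k)).mul (Ai_measurable m)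
  have := integrable_toReal_of_lintegral_ne_top hm.aemeasurable hS.fin
  refine this.congr (Eventually.of_forall fun k => ?_)
  simp only [ENNReal.toReal_mul]
  rw [ENNReal.toReal_ofReal (by linarith [Real.cos_le_one k])]

lemma int_A (hS : Spec V m c κ C k0) (z : ℤ) :
    IntegrableOn (fun k => (1 - Real.cos (k * z)) * (Ai m k).toReal) (Icc (-π) π) := by
  refine Integrable.mono' ((int_g hS).const_mul (π ^ 2 * z ^ 2 / 4)) ?_ ?_
  · exact (by
      have := (Ai_measurable m).ennreal_toReal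
      fun_prop : Measurable fun k : ℝ =>
        (1 - Real.cos (k * z)) * (Ai m k).toReal).aestronglyMeasurable
  · rw [ae_restrict_iff' measurableSet_Icc]
    refine Eventually.of_forall fun k hk => ?_
    have hkπ : |k| ≤ π := abs_le.mpr ⟨hk.1, hk.2⟩
    have h1 : Real.cos k ≤ 1 - 2 / π ^ 2 * k ^ 2 := Real.cos_le_one_sub_mul_cos_sq hkπ
    have h2 := Real.one_sub_sq_div_two_le_cos (x := k * z)
    have h3 : 0 ≤ (Ai m k).toReal := ENNReal.toReal_nonneg
    have h4 : 1 - Real.cos (k * z) ≤ π ^ 2 * z ^ 2 / 4 * (1 - Real.cos k) := by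
      calc 1 - Real.cos (k * z) ≤ (k * z) ^ 2 / 2 := by linarith
        _ = π ^ 2 * z ^ 2 / 4 * (2 / π ^ 2 * k ^ 2) := by
            field_simp [Real.pi_ne_zero]; ring
        _ ≤ π ^ 2 * z ^ 2 / 4 * (1 - Real.cos k) := by gcongr; linarith
    have h5 : 0 ≤ 1 - Real.cos (k * z) := by linarith [Real.cos_le_one (k * z)]
    rw [Real.norm_eq_abs, abs_of_nonneg (by positivity)]
    calc (1 - Real.cos (k * z)) * (Ai m k).toReal
        ≤ π ^ 2 * z ^ 2 / 4 * (1 - Real.cos k) * (Ai m k).toReal := by gcongr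
      _ = _ := by ring

lemma Good.Bi_le {k : ℝ} (hG : Good m C k) (hC : 0 ≤ C) (K : ℕ) : (Bi m K k).toReal ≤ K * C := by
  refine ENNReal.toReal_le_of_le_ofReal (by positivity) ?_
  calc Bi m K k ≤ ∫⁻ _, ENNReal.ofReal K ∂(m k) := by
        refine lintegral_mono_ae ?_
        filter_upwards [hG.supp] with τ hτ
        exact ENNReal.ofReal_le_ofReal (phi_le hτ.1 hτ.2 K)
    _ = ENNReal.ofReal K * m k univ := lintegral_const _
    _ ≤ ENNReal.ofReal K * ENNReal.ofReal C := by gcongr; exact hG.mass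
    _ = ENNReal.ofReal (K * C) := (ENNReal.ofReal_mul (by positivity)).symm

lemma int_B (hS : Spec V m c κ C k0) (K : ℕ) :
    IntegrableOn (fun k => (Bi m K k).toReal) (Icc (-π) π) := by
  have hk0π : k0 ≤ π := hS.k0_le.trans (by linarith [Real.pi_gt_three])
  have hcos := one_sub_cos_pos hS.k0_pos hk0π
  have hi : IntegrableOn (fun _ : ℝ => (K : ℝ) * C) (Icc (-π) π) :=
    continuous_const.integrableOn_Icc
  refine Integrable.mono' (hi.add ((int_g hS).const_mul (1 / (1 - Real.cos k0))))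
    (Bi_measurable m K).ennreal_toReal.aestronglyMeasurable ?_
  rw [ae_restrict_iff' measurableSet_Icc]
  have h0 : ∀ᵐ k : ℝ, k ≠ 0 := by
    rw [ae_iff]; simp
  filter_upwards [ae_good hS, ae_Ai_lt hS, hS.supp, h0] with k hg hA hs hk0 hk
  have hkπ : |k| ≤ π := abs_le.mpr ⟨hk.1, hk.2⟩
  rw [Real.norm_eq_abs, abs_of_nonneg ENNReal.toReal_nonneg]
  have h3 : 0 ≤ (Ai m k).toReal := ENNReal.toReal_nonneg
  have h4 : 0 ≤ 1 - Real.cos k := by linarith [Real.cos_le_one k]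
  show (Bi m K k).toReal ≤ K * C + 1 / (1 - Real.cos k0) * ((1 - Real.cos k) * (Ai m k).toReal)
  rcases lt_or_ge |k| k0 with h | h
  · have := (hg h hk0).Bi_le hS.C_pos.le K
    have : 0 ≤ 1 / (1 - Real.cos k0) * ((1 - Real.cos k) * (Ai m k).toReal) := by positivity
    linarith
  · have h5 : Real.cos k ≤ Real.cos k0 := by
      rw [← Real.cos_abs k]
      exact Real.cos_le_cos_of_nonneg_of_le_pi hS.k0_pos.le hkπ h
    have h6 : (Bi m K k).toReal ≤ (Ai m k).toReal := by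
      refine ENNReal.toReal_mono (hA hkπ hk0).ne ?_
      refine lintegral_mono_ae ?_
      filter_upwards [hs] with τ hτ
      refine ENNReal.ofReal_le_ofReal ?_
      have : 0 < 1 - τ ^ 2 := by nlinarith [hτ.1, hτ.2]
      have h4 : 0 ≤ τ ^ (2 * K) := pow_nonneg hτ.1 _
      gcongr
      linarith
    have h7 : (Ai m k).toReal ≤ 1 / (1 - Real.cos k0) * ((1 - Real.cos k) * (Ai m k).toReal) := by
      rw [one_div_mul_eq_div, le_div_iff₀ hcos, mul_comm]
      gcongr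
    have : 0 ≤ K * C := by have := hS.C_pos; positivity
    linarith

lemma V_eq (hS : Spec V m c κ C k0) (K : ℕ) (z : ℤ) :
    V (2 * K) z = (1 / π) * ∫ k in Icc (-π) π, ((1 - Real.cos (k * z)) * (Ai m k).toReal +
      Real.cos (k * z) * (Bi m K k).toReal) := by
  rw [hS.rep]
  congr 1
  refine setIntegral_congr_ae measurableSet_Icc ?_
  have h0 : ∀ᵐ k : ℝ, k ≠ 0 := by
    rw [ae_iff]; simp
  filter_upwards [ae_Ai_lt hS, hS.supp, h0] with k hA hs hk0 hk
  have hkπ : |k| ≤ π := abs_le.mpr ⟨hk.1, hk.2⟩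
  have : (2 * (K : ℤ)).natAbs = 2 * K := by omega
  rw [this]
  exact inner_eq' hs (hA hkπ hk0) _ K

lemma Bi_zero (k : ℝ) : Bi m 0 k = 0 := by
  unfold Bi; simp

lemma CK_eq (hS : Spec V m c κ C k0) (K : ℕ) (z : ℤ) :
    CK V K z = cc (fun k => (Bi m K k).toReal) z := by
  have h1 := V_eq hS K z
  have h2 := V_eq hS 0 z
  simp only [Nat.cast_zero, mul_zero, Bi_zero, ENNReal.toReal_zero, add_zero] at h2
  rw [integral_add (int_A hS z) (integrableOn_cos_mul (int_B hS K) z)] at h1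
  unfold CK cc
  rw [h1, h2]
  set I1 := ∫ k in Icc (-π) π, (1 - Real.cos (k * z)) * (Ai m k).toReal
  set I2 := ∫ k in Icc (-π) π, Real.cos (k * z) * (Bi m K k).toReal
  have : π ≠ 0 := Real.pi_ne_zero
  field_simp
  ring

end

end Cn

open Cn in
theorem p3 : P3Statement := by
  intro V m c κ C k0 hS K _ hpos
  have hk0π : k0 ≤ π := hS.k0_le.trans (by linarith [Real.pi_gt_three])
  have hcc : CK V K = cc (fun k => (Bi m K k).toReal) := funext (CK_eq hS K)
  rw [hcc]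
  have hKC : 0 ≤ K * C := by have := hS.C_pos; positivity
  refine summable_cc (int_B hS K) (Eventually.of_forall fun k _ => ENNReal.toReal_nonneg)
    hS.k0_pos hk0π hKC ?_ (fun z => by rw [← CK_eq hS K z]; exact hpos z)
  have h0 : ∀ᵐ k : ℝ, k ≠ 0 := by
    rw [ae_iff]; simp
  filter_upwards [ae_good hS, h0] with k hg hk0 hk
  exact (hg hk hk0).Bi_le hS.C_pos.le K

end Vale.Agent.P153.TwoPt
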