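import Vale.Agent.P153.TwoPt.Defs

/-!
# P153, TwoPt: Riemann sums, `Var X' → (∑ C_K) / K * ∫ g²`
-/

open MeasureTheory ProbabilityTheory Filter Topology Set
open scoped ENNReal Real

namespace Vale.Agent.P153.TwoPt

namespace P3b

/-- The grid point below `p`. -/
noncomputable def fl (α β : ℝ) (p : ℝ × ℝ) : ℤ × ℤ := (⌊p.1 * α⌋, ⌊p.2 * β⌋)

lemma measurable_fl (α β : ℝ) : Measurable (fl α β) :=
  (Int.measurable_floor.comp (measurable_fst.mul_const α)).prodMk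
    (Int.measurable_floor.comp (measurable_snd.mul_const β))

lemma vol_fl1 {α : ℝ} (hα : 0 < α) (i : ℤ) :
    volume {s : ℝ | ⌊s * α⌋ = i} = ENNReal.ofReal (α⁻¹) := by
  have h : {s : ℝ | ⌊s * α⌋ = i} = Ico ((i : ℝ) / α) (((i : ℝ) + 1) / α) := by
    ext s
    simp only [mem_ofPred_eq, Int.floor_eq_iff, mem_Ico, div_le_iff₀ hα, lt_div_iff₀ hα]
  rw [h, Real.volume_Ico]
  congr 1
  field_simp
  ring

lemma map_fl_singleton {α β : ℝ} (hα : 0 < α) (hβ : 0 < β) (q : ℤ × ℤ) :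
    (Measure.map (fl α β) volume) {q} = ENNReal.ofReal (α⁻¹ * β⁻¹) := by
  rw [Measure.map_apply (measurable_fl α β) (measurableSet_singleton q)]
  have h : fl α β ⁻¹' {q} = {s : ℝ | ⌊s * α⌋ = q.1} ×ˢ {s : ℝ | ⌊s * β⌋ = q.2} := by
    ext p
    simp only [fl, mem_preimage, mem_singleton_iff, mem_prod, mem_ofPred_eq, Prod.ext_iff]
  rw [h, Measure.volume_eq_prod, Measure.prod_prod, vol_fl1 hα, vol_fl1 hβ,
    ENNReal.ofReal_mul (inv_nonneg.2 hα.le)]

lemma integral_fl {α β : ℝ} (hα : 0 < α) (hβ : 0 < β) (h : ℤ × ℤ → ℝ) (s : Finset (ℤ × ℤ))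
    (hs : ∀ q, q ∉ s → h q = 0) :
    ∫ p : ℝ × ℝ, h (fl α β p) = α⁻¹ * β⁻¹ * ∑' q, h q := by
  have hfin : (Measure.map (fl α β) volume) (s : Set (ℤ × ℤ)) < ⊤ := by
    rw [← sum_measure_singleton (μ := Measure.map (fl α β) volume)]
    refine ENNReal.sum_lt_top.2 fun q _ => ?_
    rw [map_fl_singleton hα hβ]
    exact ENNReal.ofReal_lt_top
  have hint : Integrable h (Measure.map (fl α β) volume) := by
    have h1 : IntegrableOn h (s : Set (ℤ × ℤ)) (Measure.map (fl α β) volume) := by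
      obtain ⟨B, hB⟩ : ∃ B : ℝ, ∀ q ∈ s, ‖h q‖ ≤ B := by
        refine ⟨∑ q ∈ s, ‖h q‖, fun q hq => ?_⟩
        exact Finset.single_le_sum (f := fun q => ‖h q‖) (fun _ _ => norm_nonneg _) hq
      exact Measure.integrableOn_of_bounded hfin.ne
        (measurable_of_countable h).aestronglyMeasurable
        (by
          refine (ae_restrict_iff' s.measurableSet).2 (Eventually.of_forall fun q hq => ?_)
          exact hB q hq)
    refine (integrableOn_iff_integrable_of_support_subset ?_).1 h1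
    intro q hq
    by_contra hq'
    exact hq (hs q hq')
  rw [← integral_map (measurable_fl α β).aemeasurable
    (measurable_of_countable h).aestronglyMeasurable, integral_countable hint]
  simp only [Measure.real, map_fl_singleton hα hβ]
  rw [ENNReal.toReal_ofReal (by positivity)]
  simp only [smul_eq_mul]
  exact tsum_mul_left

lemma floor_tendsto {α : ℕ → ℝ} (hα : Tendsto α atTop atTop) (s : ℝ) :
    Tendsto (fun n => (⌊s * α n⌋ : ℝ) / α n) atTop (𝓝 s) := by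
  have h0 : ∀ᶠ n in atTop, 0 < α n := hα.eventually_gt_atTop 0
  have h1 : Tendsto (fun n => s - 1 / α n) atTop (𝓝 s) := by
    have : Tendsto (fun n => 1 / α n) atTop (𝓝 0) := by
      exact (tendsto_inv_atTop_zero.comp hα).congr fun n => by simp
    simpa using this.const_sub s
  refine tendsto_of_tendsto_of_tendsto_of_le_of_le' h1 tendsto_const_nhds ?_ ?_
  · filter_upwards [h0] with n hn
    rw [le_div_iff₀ hn, sub_mul, one_div, inv_mul_cancel₀ hn.ne']
    exact (Int.sub_one_lt_floor _).le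
  · filter_upwards [h0] with n hn
    rw [div_le_iff₀ hn]
    exact Int.floor_le _

lemma abs_le_of_floor {α s R : ℝ} (hα : 0 < α) (h : |(⌊s * α⌋ : ℝ) / α| ≤ R) :
    |s| ≤ R + α⁻¹ := by
  have h1 : |s - (⌊s * α⌋ : ℝ) / α| ≤ α⁻¹ := by
    have e : s - (⌊s * α⌋ : ℝ) / α = (s * α - ⌊s * α⌋) * α⁻¹ := by field_simp
    rw [e, abs_mul, abs_of_pos (inv_pos.2 hα)]
    refine mul_le_of_le_one_left (inv_pos.2 hα).le ?_
    rw [abs_le]
    have h2 := Int.floor_le (s * α)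
    have h3 := Int.lt_floor_add_one (s * α)
    constructor <;> linarith
  have h2 : |s| ≤ |(⌊s * α⌋ : ℝ) / α| + |s - (⌊s * α⌋ : ℝ) / α| := by
    have := abs_add_le ((⌊s * α⌋ : ℝ) / α) (s - (⌊s * α⌋ : ℝ) / α)
    simpa using this
  linarith

lemma exists_radius {F : ℝ × ℝ → ℝ} (hc : HasCompactSupport F) :
    ∃ R : ℝ, 0 ≤ R ∧ ∀ u : ℝ × ℝ, F u ≠ 0 → |u.1| ≤ R ∧ |u.2| ≤ R := by
  obtain ⟨R, hR⟩ := hc.isCompact.isBounded.subset_closedBall (0 : ℝ × ℝ)
  refine ⟨max R 0, le_max_right _ _, fun u hu => ?_⟩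
  have h1 : u ∈ Metric.closedBall (0 : ℝ × ℝ) R := hR (subset_tsupport _ hu)
  rw [mem_closedBall_zero_iff, Prod.norm_def] at h1
  exact ⟨((le_max_left _ _).trans h1).trans (le_max_left _ _),
    ((le_max_right _ _).trans h1).trans (le_max_left _ _)⟩

lemma riemann {F : ℝ × ℝ → ℝ} (hF : Continuous F) (hc : HasCompactSupport F) {K : ℝ} (hK : 0 < K)
    {L : ℕ → ℝ} (hL1 : ∀ n, 1 ≤ L n) (hL : Tendsto L atTop atTop) :
    Tendsto (fun n => (L n)⁻¹ ^ 2 * ∑' q : ℤ × ℤ, F (q.1 * K / L n, q.2 / L n)) atTop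
      (𝓝 ((∫ z, F z) / K)) := by
  obtain ⟨R, hR0, hR⟩ := exists_radius hc
  obtain ⟨B, hB⟩ := hF.bounded_above_of_compact_support hc
  have hα : Tendsto (fun n => L n / K) atTop atTop := hL.atTop_div_const hK
  have hLp : ∀ n, 0 < L n := fun n => lt_of_lt_of_le one_pos (hL1 n)
  have key : ∀ n, (L n)⁻¹ ^ 2 * ∑' q : ℤ × ℤ, F (q.1 * K / L n, q.2 / L n) =
      (∫ p : ℝ × ℝ, F ((⌊p.1 * (L n / K)⌋ : ℝ) / (L n / K), (⌊p.2 * L n⌋ : ℝ) / L n)) / K := by
    intro n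
    have h := integral_fl (div_pos (hLp n) hK) (hLp n)
      (fun q : ℤ × ℤ => F (q.1 * K / L n, q.2 / L n))
      (Finset.Icc (-⌈R * L n / K⌉) ⌈R * L n / K⌉ ×ˢ Finset.Icc (-⌈R * L n⌉) ⌈R * L n⌉) (by
        intro q hq
        by_contra hne
        obtain ⟨h1, h2⟩ := hR _ hne
        refine hq (Finset.mem_product.2 ⟨?_, ?_⟩)
        · rw [abs_div, abs_of_pos (hLp n), div_le_iff₀ (hLp n), abs_mul, abs_of_pos hK,
            ← le_div_iff₀ hK] at h1
          have h3 := abs_le.1 (h1.trans (Int.le_ceil _))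
          rw [Finset.mem_Icc]
          exact ⟨by exact_mod_cast h3.1, by exact_mod_cast h3.2⟩
        · rw [abs_div, abs_of_pos (hLp n), div_le_iff₀ (hLp n)] at h2
          have h3 := abs_le.1 (h2.trans (Int.le_ceil _))
          rw [Finset.mem_Icc]
          exact ⟨by exact_mod_cast h3.1, by exact_mod_cast h3.2⟩)
    have e : (fun p : ℝ × ℝ => F ((⌊p.1 * (L n / K)⌋ : ℝ) / (L n / K), (⌊p.2 * L n⌋ : ℝ) / L n))
        = fun p => (fun q : ℤ × ℤ => F (q.1 * K / L n, q.2 / L n)) (fl (L n / K) (L n) p) := by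
      funext p
      simp only [fl]
      congr 2
      rw [div_div_eq_mul_div]
    rw [e, h]
    have := (hLp n).ne'
    generalize ∑' q : ℤ × ℤ, F (q.1 * K / L n, q.2 / L n) = T
    field_simp
  simp_rw [key]
  refine Tendsto.div_const ?_ K
  refine tendsto_integral_of_dominated_convergence
    (fun p => (Icc (-(R + K)) (R + K) ×ˢ Icc (-(R + 1)) (R + 1)).indicator (fun _ => B) p)
    (fun n => ?_) ?_ (fun n => Eventually.of_forall fun p => ?_)
    (Eventually.of_forall fun p => ?_)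
  · refine (hF.measurable.comp ?_).aestronglyMeasurable
    exact ((measurable_from_top.comp (Int.measurable_floor.comp
        (measurable_fst.mul_const _))).div_const _).prodMk
      ((measurable_from_top.comp (Int.measurable_floor.comp
        (measurable_snd.mul_const _))).div_const _)
  · refine (integrable_indicator_iff (measurableSet_Icc.prod measurableSet_Icc)).2 ?_
    refine integrableOn_const ?_
    exact (isCompact_Icc.prod isCompact_Icc).measure_lt_top.ne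
  · by_cases h0 : F ((⌊p.1 * (L n / K)⌋ : ℝ) / (L n / K), (⌊p.2 * L n⌋ : ℝ) / L n) = 0
    · rw [h0, norm_zero]
      exact indicator_nonneg (fun _ _ => (norm_nonneg _).trans (hB 0)) _
    · obtain ⟨h1, h2⟩ := hR _ h0
      have h3 := abs_le_of_floor (div_pos (hLp n) hK) h1
      have h4 := abs_le_of_floor (hLp n) h2
      have h5 : (L n / K)⁻¹ ≤ K := by
        rw [inv_div]
        exact div_le_self hK.le (hL1 n)
      have h6 : (L n)⁻¹ ≤ 1 := inv_le_one_of_one_le₀ (hL1 n)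
      rw [indicator_of_mem]
      · exact hB _
      · exact ⟨abs_le.1 (h3.trans (by linarith)), abs_le.1 (h4.trans (by linarith))⟩
  · refine (hF.tendsto p).comp ?_
    rw [nhds_prod_eq]
    exact (floor_tendsto hα p.1).prodMk (floor_tendsto hL p.2)

lemma fs {f : ℤ → ℝ} {S : Finset ℤ} (h : ∀ i, i ∉ S → f i = 0) : ∑ᶠ i, f i = ∑ i ∈ S, f i :=
  finsum_eq_sum_of_support_subset f fun i hi => by
    by_contra h'
    exact hi (h i h')

lemma inner_eq {S : Finset ℤ} {u C : ℤ → ℝ} (hu : ∀ y, y ∉ S → u y = 0) (a : ℝ) (x : ℤ) :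
    ∑ᶠ y, a * u y * C (x - y) = ∑' z, C z * (a * u (x - z)) := by
  have h1 : ∑ᶠ y, a * u y * C (x - y) = ∑ y ∈ S, a * u y * C (x - y) :=
    fs fun y hy => by rw [hu y hy]; ring
  have h2 : ∑' y, a * u y * C (x - y) = ∑ y ∈ S, a * u y * C (x - y) :=
    tsum_eq_sum fun y hy => by rw [hu y hy]; ring
  rw [h1, ← h2, ← (Equiv.subLeft x).tsum_eq (fun y => a * u y * C (x - y))]
  refine tsum_congr fun z => ?_
  simp only [Equiv.subLeft_apply, sub_sub_cancel]
  ring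

lemma summ {S : Finset ℤ} {u : ℤ → ℝ} (C : ℤ → ℝ) (hu : ∀ y, y ∉ S → u y = 0) (a : ℝ) (x : ℤ) :
    Summable fun z => C z * (a * u (x - z)) := by
  refine summable_of_ne_finset_zero (s := S.image (fun y => x - y)) fun z hz => ?_
  have : x - z ∉ S := fun h => hz (Finset.mem_image.2 ⟨x - z, h, by ring⟩)
  rw [hu _ this]
  ring

lemma swap {T : Finset (ℤ × ℤ)} (H : ℤ × ℤ → ℤ → ℝ) (h : ∀ p, Summable (H p)) :
    ∑ p ∈ T, ∑' z, H p z = ∑' z, ∑ p ∈ T, H p z :=
  (Summable.tsum_finsetSum (fun p _ => h p)).symm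

lemma triple {S : Finset ℤ} (G : ℤ → ℤ → ℝ) (C : ℤ → ℝ) (h1 : ∀ i x, i ∉ S → G i x = 0)
    (h2 : ∀ i x, x ∉ S → G i x = 0) :
    ∑ᶠ i, ∑ᶠ x, ∑ᶠ y, G i x * G i y * C (x - y) =
      ∑' z, C z * ∑ p ∈ S ×ˢ S, G p.1 p.2 * G p.1 (p.2 - z) := by
  have e1 : ∀ i x, ∑ᶠ y, G i x * G i y * C (x - y) =
      ∑' z, C z * (G i x * G i (x - z)) := fun i x => inner_eq (h2 i) (G i x) x
  have e2 : ∀ i, ∑ᶠ x, ∑ᶠ y, G i x * G i y * C (x - y) =
      ∑ x ∈ S, ∑' z, C z * (G i x * G i (x - z)) := by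
    intro i
    rw [fs (S := S)]
    · exact Finset.sum_congr rfl fun x _ => e1 i x
    · intro x hx
      rw [e1]
      simp only [h2 i x hx, zero_mul, mul_zero, tsum_zero]
  have e3 : ∑ᶠ i, ∑ᶠ x, ∑ᶠ y, G i x * G i y * C (x - y) =
      ∑ i ∈ S, ∑ x ∈ S, ∑' z, C z * (G i x * G i (x - z)) := by
    rw [fs (S := S)]
    · exact Finset.sum_congr rfl fun i _ => e2 i
    · intro i hi
      rw [e2]
      simp only [h1 i _ hi, mul_zero, tsum_zero, Finset.sum_const_zero]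
  have e4 := swap (T := S ×ˢ S) (fun p z => C z * (G p.1 p.2 * G p.1 (p.2 - z)))
    (fun p => summ C (h2 p.1) (G p.1 p.2) p.2)
  rw [e3, ← Finset.sum_product' S S (fun i x => ∑' z, C z * (G i x * G i (x - z)))]
  refine e4.trans ?_
  exact tsum_congr fun z => (Finset.mul_sum _ _ _).symm

/-- The box of indices. -/
noncomputable def bx (R L : ℝ) : Finset ℤ := Finset.Icc (-⌈R * L⌉) ⌈R * L⌉

lemma card_bx {R L : ℝ} (hR : 0 ≤ R) (hL : 1 ≤ L) : ((bx R L).card : ℝ) ≤ (2 * R + 3) * L := by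
  have h0 : (0 : ℤ) ≤ ⌈R * L⌉ := Int.ceil_nonneg (by positivity)
  have h1 : (((bx R L).card : ℤ) : ℝ) = 2 * (⌈R * L⌉ : ℝ) + 1 := by
    unfold bx
    rw [Int.card_Icc, Int.toNat_of_nonneg (by omega)]
    push_cast
    ring
  have h2 := (Int.ceil_lt_add_one (R * L)).le
  rw [← Int.cast_natCast, h1]
  nlinarith

section

variable {g : ℝ × ℝ → ℝ} {R : ℝ} {K : ℕ} {L : ℝ}

lemma abs_le_of_not_zero (hL : 1 ≤ L) {x : ℤ} (h : |(x : ℝ) / L| ≤ R) : x ∈ bx R L := by
  have hL0 : 0 < L := lt_of_lt_of_le one_pos hL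
  rw [abs_div, abs_of_pos hL0, div_le_iff₀ hL0] at h
  have h3 := abs_le.1 (h.trans (Int.le_ceil _))
  rw [bx, Finset.mem_Icc]
  exact ⟨by exact_mod_cast h3.1, by exact_mod_cast h3.2⟩

lemma zero_of (hR : ∀ u : ℝ × ℝ, g u ≠ 0 → |u.1| ≤ R ∧ |u.2| ≤ R) (hK : 0 < K) (hL : 1 ≤ L)
    {i x : ℤ} (h : i ∉ bx R L ∨ x ∉ bx R L) : g (i * K / L, x / L) = 0 := by
  by_contra h0
  obtain ⟨h1, h2⟩ := hR _ h0
  rcases h with h | h
  · refine h (abs_le_of_not_zero hL (le_trans ?_ h1))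
    have hK1 : (1 : ℝ) ≤ K := by exact_mod_cast hK
    rw [abs_div, abs_div]
    refine div_le_div_of_nonneg_right ?_ (abs_nonneg _)
    rw [abs_mul, abs_of_nonneg (by positivity : (0 : ℝ) ≤ K)]
    exact le_mul_of_one_le_right (abs_nonneg _) hK1
  · exact h (abs_le_of_not_zero hL h2)

/-- The correlation sum. -/
noncomputable def AA (g : ℝ × ℝ → ℝ) (R : ℝ) (K : ℕ) (L : ℝ) (z : ℤ) : ℝ :=
  ∑ p ∈ bx R L ×ˢ bx R L, (L⁻¹ * g (p.1 * K / L, p.2 / L)) *
    (L⁻¹ * g (p.1 * K / L, ((p.2 - z : ℤ) : ℝ) / L))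

lemma varX'_eq (hR : ∀ u : ℝ × ℝ, g u ≠ 0 → |u.1| ≤ R ∧ |u.2| ≤ R) (hK : 0 < K) (hL : 1 ≤ L)
    (V : ℤ → ℤ → ℝ) : varX' V K L g = ∑' z, CK V K z * AA g R K L z :=
  triple (S := bx R L) (fun i x => L⁻¹ * g (i * K / L, x / L)) (CK V K)
    (fun i x hi => by
      show L⁻¹ * g (i * K / L, x / L) = 0
      rw [zero_of hR hK hL (Or.inl hi), mul_zero])
    (fun i x hx => by
      show L⁻¹ * g (i * K / L, x / L) = 0
      rw [zero_of hR hK hL (Or.inr hx), mul_zero])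

end

lemma AA_zero {g : ℝ × ℝ → ℝ} {R : ℝ} {K : ℕ} {L : ℝ}
    (hR : ∀ u : ℝ × ℝ, g u ≠ 0 → |u.1| ≤ R ∧ |u.2| ≤ R) (hK : 0 < K) (hL : 1 ≤ L) :
    AA g R K L 0 = L⁻¹ ^ 2 * ∑' q : ℤ × ℤ, g (q.1 * K / L, q.2 / L) ^ 2 := by
  rw [tsum_eq_sum (s := bx R L ×ˢ bx R L), Finset.mul_sum]
  · refine Finset.sum_congr rfl fun p _ => ?_
    rw [sub_zero]
    ring
  · intro q hq
    rw [Finset.mem_product, not_and_or] at hq
    rw [zero_of hR hK hL hq]
    simp

lemma AA_le {g : ℝ × ℝ → ℝ} {R : ℝ} (hR0 : 0 ≤ R) {L : ℝ} (hL : 1 ≤ L)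
    {B ε : ℝ} (hB : ∀ u, ‖g u‖ ≤ B) (hε : 0 ≤ ε) (u v : ℤ → ℤ → ℝ)
    (hu : ∀ i x, |u i x| ≤ L⁻¹ * B) (hv : ∀ i x, |v i x| ≤ L⁻¹ * ε) :
    |∑ p ∈ bx R L ×ˢ bx R L, u p.1 p.2 * v p.1 p.2| ≤ (2 * R + 3) ^ 2 * (B * ε) := by
  have hL0 : 0 < L := lt_of_lt_of_le one_pos hL
  have hB0 : 0 ≤ B := (norm_nonneg _).trans (hB 0)
  calc |∑ p ∈ bx R L ×ˢ bx R L, u p.1 p.2 * v p.1 p.2|
      ≤ ∑ p ∈ bx R L ×ˢ bx R L, |u p.1 p.2 * v p.1 p.2| := Finset.abs_sum_le_sum_abs _ _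
    _ ≤ ∑ p ∈ bx R L ×ˢ bx R L, (L⁻¹ * B) * (L⁻¹ * ε) := by
        refine Finset.sum_le_sum fun p _ => ?_
        rw [abs_mul]
        exact mul_le_mul (hu _ _) (hv _ _) (abs_nonneg _) (by positivity)
    _ = ((bx R L).card : ℝ) ^ 2 * ((L⁻¹ * B) * (L⁻¹ * ε)) := by
        rw [Finset.sum_const, Finset.card_product, nsmul_eq_mul]
        push_cast
        ring
    _ ≤ ((2 * R + 3) * L) ^ 2 * ((L⁻¹ * B) * (L⁻¹ * ε)) := by
        refine mul_le_mul_of_nonneg_right ?_ (by positivity)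
        exact pow_le_pow_left₀ (Nat.cast_nonneg _) (card_bx hR0 hL) 2
    _ = (2 * R + 3) ^ 2 * (B * ε) := by
        field_simp

end P3b

open P3b in
theorem p3b : P3bStatement := by
  intro V K hK hC0 hC L hL1 hL g hg hgc
  obtain ⟨R, hR0, hR⟩ := exists_radius hgc
  obtain ⟨B, hB⟩ := hg.bounded_above_of_compact_support hgc
  have hB0 : 0 ≤ B := (norm_nonneg _).trans (hB 0)
  have hLp : ∀ n, 0 < L n := fun n => lt_of_lt_of_le one_pos (hL1 n)
  have hGB : ∀ n u, |(L n)⁻¹ * g u| ≤ (L n)⁻¹ * B := by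
    intro n u
    rw [abs_mul, abs_of_pos (inv_pos.2 (hLp n))]
    exact mul_le_mul_of_nonneg_left (hB u) (inv_pos.2 (hLp n)).le
  have hA0 : Tendsto (fun n => AA g R K (L n) 0) atTop (𝓝 ((∫ z, g z ^ 2) / K)) := by
    simp_rw [fun n => AA_zero hR hK (hL1 n)]
    have hgc2 : HasCompactSupport (fun z => g z ^ 2) :=
      hgc.comp_left (g := fun t : ℝ => t ^ 2) (by simp)
    have hK' : (0 : ℝ) < (K : ℝ) := by exact_mod_cast hK
    exact riemann (F := fun z => g z ^ 2) (hg.pow 2) hgc2 hK' hL1 hL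
  have hAz : ∀ z, Tendsto (fun n => AA g R K (L n) z) atTop (𝓝 ((∫ z, g z ^ 2) / K)) := by
    intro z
    have hd : Tendsto (fun n => AA g R K (L n) z - AA g R K (L n) 0) atTop (𝓝 0) := by
      rw [Metric.tendsto_nhds]
      intro ε hε
      have hη : 0 < ε / (2 * ((2 * R + 3) ^ 2 * (B + 1))) := by positivity
      obtain ⟨δ, hδ, hu⟩ := Metric.uniformContinuous_iff.1
        (hgc.uniformContinuous_of_continuous hg) _ hη
      have hz : Tendsto (fun n => |(z : ℝ)| / L n) atTop (𝓝 0) := hL.const_div_atTop _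
      filter_upwards [hz.eventually_lt_const hδ] with n hn
      have e : AA g R K (L n) z - AA g R K (L n) 0 = ∑ p ∈ bx R (L n) ×ˢ bx R (L n),
          ((L n)⁻¹ * g (p.1 * K / L n, p.2 / L n)) *
          ((L n)⁻¹ * (g (p.1 * K / L n, ((p.2 - z : ℤ) : ℝ) / L n) -
            g (p.1 * K / L n, p.2 / L n))) := by
        unfold AA
        rw [← Finset.sum_sub_distrib]
        refine Finset.sum_congr rfl fun p _ => ?_
        rw [sub_zero]
        ring
      rw [dist_zero_right, Real.norm_eq_abs, e]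
      refine lt_of_le_of_lt (AA_le hR0 (hL1 n) hB hη.le
        (fun i x => (L n)⁻¹ * g (i * K / L n, x / L n))
        (fun i x => (L n)⁻¹ * (g (i * K / L n, ((x - z : ℤ) : ℝ) / L n) -
            g (i * K / L n, x / L n))) (fun i x => hGB n _) fun i x => ?_) ?_
      · rw [abs_mul, abs_of_pos (inv_pos.2 (hLp n))]
        refine mul_le_mul_of_nonneg_left ?_ (inv_pos.2 (hLp n)).le
        have := hu (a := ((i * K / L n, ((x - z : ℤ) : ℝ) / L n) : ℝ × ℝ))
          (b := ((i * K / L n, x / L n) : ℝ × ℝ)) (by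
          rw [Prod.dist_eq, dist_self, Real.dist_eq, max_eq_right (abs_nonneg _)]
          have e2 : ((x - z : ℤ) : ℝ) / L n - x / L n = - (z / L n) := by
            push_cast
            ring
          rw [e2, abs_neg, abs_div, abs_of_pos (hLp n)]
          exact hn)
        exact this.le
      · have h1 : (2 * R + 3) ^ 2 * (B * (ε / (2 * ((2 * R + 3) ^ 2 * (B + 1))))) =
            ε / 2 * (B / (B + 1)) := by
          have : (2 * R + 3) ≠ 0 := by positivity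
          field_simp
        rw [h1]
        have h2 : B / (B + 1) ≤ 1 := (div_le_one (by positivity)).2 (by linarith)
        nlinarith
    simpa using hd.add hA0
  have hfin := tendsto_tsum_of_dominated_convergence (𝓕 := atTop)
    (f := fun n z => CK V K z * AA g R K (L n) z)
    (g := fun z => CK V K z * ((∫ z, g z ^ 2) / K))
    (bound := fun z => CK V K z * ((2 * R + 3) ^ 2 * (B * B)))
    (hC.mul_right _) (fun z => (hAz z).const_mul _) (Eventually.of_forall fun n z => by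
      rw [Real.norm_eq_abs, abs_mul, abs_of_nonneg (hC0 z)]
      exact mul_le_mul_of_nonneg_left (AA_le hR0 (hL1 n) hB hB0
        (fun i x => (L n)⁻¹ * g (i * K / L n, x / L n))
        (fun i x => (L n)⁻¹ * g (i * K / L n, ((x - z : ℤ) : ℝ) / L n))
        (fun i x => hGB n _) (fun i x => hGB n _)) (hC0 z))
  rw [tsum_mul_right] at hfin
  have e : (∑' z, CK V K z) / K * ∫ z : ℝ × ℝ, g z ^ 2 =
      (∑' z, CK V K z) * ((∫ z, g z ^ 2) / K) := by ring
  rw [e]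
  refine hfin.congr fun n => ?_
  exact (varX'_eq hR hK (hL1 n) V).symm

end Vale.Agent.P153.TwoPt
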