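import Vale.Agent.P153.TwoPt.P3

/-!
# P153, block (D): statement (P4)

Owner: helper442.
-/

open MeasureTheory ProbabilityTheory Filter Topology Set
open scoped ENNReal Real

namespace Vale.Agent.P153.TwoPt

namespace Cn

variable {V : ℤ → ℤ → ℝ} {m : Kernel ℝ ℝ} {c κ C k0 : ℝ}

lemma Good.Bi_eq {k : ℝ} (hG : Good m C k) (K : ℕ) :
    (Bi m K k).toReal = ∫ τ, (1 - τ ^ (2 * K)) / (1 - τ ^ 2) ∂(m k) := by
  refine (integral_eq_lintegral_of_nonneg_ae ?_ (by
    exact (by fun_prop : Measurable fun τ : ℝ =>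
      (1 - τ ^ (2 * K)) / (1 - τ ^ 2)).aestronglyMeasurable)).symm
  filter_upwards [hG.supp] with τ hτ
  exact phi_nonneg hτ.1 hτ.2 K

lemma Good.integrable_phi {k : ℝ} (hG : Good m C k) (K : ℕ) :
    Integrable (fun τ : ℝ => (1 - τ ^ (2 * K)) / (1 - τ ^ 2)) (m k) :=
  hG.integrable_bdd (by fun_prop) K fun τ h0 h1 => by
    rw [abs_of_nonneg (phi_nonneg h0 h1 K)]; exact phi_le h0 h1 K

lemma upper (hS : Spec V m c κ C k0) {ε : ℝ} (hε : 0 < ε) : ∃ D > 0, ∃ η > 0, ∀ K : ℕ,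
    ∀ᵐ k : ℝ, |k| < η → (Bi m K k).toReal ≤ K * (κ + ε) + D := by
  have hC := hS.C_pos
  have hκ := hS.κ_nonneg
  obtain ⟨η1, hη1, h1⟩ := hS.lim (ε / 8) (by positivity)
  set θ := η1 / 2 with hθ
  have hθ0 : 0 < θ := by positivity
  set ρ := min 1 (ε / (8 * (κ + 1))) with hρ
  have hρ0 : 0 < ρ := lt_min one_pos (by positivity)
  have hρ1 : ρ ≤ 1 := min_le_left _ _
  have hρκ : ρ * κ ≤ ε / 8 := by
    calc ρ * κ ≤ ε / (8 * (κ + 1)) * (κ + 1) := by
          gcongr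
          · exact min_le_right _ _
          · linarith
      _ = ε / 8 := by field_simp
  set δ := ρ * θ with hδ
  have hδ0 : 0 < δ := by positivity
  refine ⟨C / δ, by positivity, min k0 η1, lt_min hS.k0_pos hη1, fun K => ?_⟩
  have h0 : ∀ᵐ k : ℝ, k ≠ 0 := by
    rw [ae_iff]; simp
  filter_upwards [ae_good hS, h1, h0] with k hg g1 hk0 hk
  simp only [lt_min_iff] at hk
  have hG := hg hk.1 hk0
  have hfin := hG.fin
  have f1 := (abs_le.mp (g1 hk.2 hk0 θ (by rw [abs_of_pos hθ0, hθ]; linarith))).2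
  have i1 : Integrable (fun τ => K * (1 + ρ) * ((c ^ 2 * k ^ 2 + θ ^ 2) * (1 / den τ θ))) (m k) :=
    ((hG.integrable_den θ).const_mul _).const_mul _
  have key : ∫ τ, (1 - τ ^ (2 * K)) / (1 - τ ^ 2) ∂(m k) ≤
      ∫ τ, (K * (1 + ρ) * ((c ^ 2 * k ^ 2 + θ ^ 2) * (1 / den τ θ)) + 1 / δ) ∂(m k) := by
    refine integral_mono_ae (hG.integrable_phi K) (i1.add (integrable_const _)) ?_
    filter_upwards [hG.supp] with τ hτ
    have hd0 := den_pos hτ.1 hτ.2 θ
    have hd1 := den_le hτ.1 hτ.2 θ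
    have hu : 0 < 1 - τ := by linarith [hτ.2]
    show (1 - τ ^ (2 * K)) / (1 - τ ^ 2) ≤
      K * (1 + ρ) * ((c ^ 2 * k ^ 2 + θ ^ 2) * (1 / den τ θ)) + 1 / δ
    rcases le_or_gt (1 - τ) δ with h | h
    · have h3 : (1 - τ) ^ 2 ≤ ρ * θ ^ 2 := by
        calc (1 - τ) ^ 2 ≤ δ ^ 2 := by gcongr
          _ = ρ * (ρ * θ ^ 2) := by rw [hδ]; ring
          _ ≤ 1 * (ρ * θ ^ 2) := by gcongr
          _ = ρ * θ ^ 2 := one_mul _
      have h4 : 1 ≤ (1 + ρ) * ((c ^ 2 * k ^ 2 + θ ^ 2) * (1 / den τ θ)) := by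
        rw [mul_one_div, mul_div_assoc', le_div_iff₀ hd0, one_mul]
        calc den τ θ ≤ (1 - τ) ^ 2 + θ ^ 2 := hd1
          _ ≤ ρ * θ ^ 2 + θ ^ 2 := by linarith
          _ = (1 + ρ) * θ ^ 2 := by ring
          _ ≤ (1 + ρ) * (c ^ 2 * k ^ 2 + θ ^ 2) := by
              have : 0 ≤ c ^ 2 * k ^ 2 := by positivity
              gcongr
              linarith
      calc (1 - τ ^ (2 * K)) / (1 - τ ^ 2) ≤ K := phi_le hτ.1 hτ.2 K
        _ = K * 1 := (mul_one _).symm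
        _ ≤ K * ((1 + ρ) * ((c ^ 2 * k ^ 2 + θ ^ 2) * (1 / den τ θ))) := by gcongr
        _ = K * (1 + ρ) * ((c ^ 2 * k ^ 2 + θ ^ 2) * (1 / den τ θ)) := by ring
        _ ≤ _ := by have : 0 ≤ 1 / δ := by positivity
                    linarith
    · have h5 : 1 / (1 - τ) ≤ 1 / δ := one_div_le_one_div_of_le hδ0 h.le
      have h6 := phi_le' hτ.1 hτ.2 K
      have h7 : 0 ≤ K * (1 + ρ) * ((c ^ 2 * k ^ 2 + θ ^ 2) * (1 / den τ θ)) := by positivity
      linarith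
  rw [integral_add i1 (integrable_const _), integral_const_mul, integral_const_mul,
    integral_const, smul_eq_mul, ← hG.Bi_eq K] at key
  have h8 := hG.real_le hC.le
  calc (Bi m K k).toReal ≤ _ := key
    _ ≤ K * (1 + ρ) * (κ + ε / 8) + C * (1 / δ) := by
        gcongr
        linarith
    _ ≤ K * (κ + ε) + C / δ := by
        rw [mul_one_div]
        have h9 : (1 + ρ) * (κ + ε / 8) ≤ κ + ε := by nlinarith
        have h10 : (0 : ℝ) ≤ K := Nat.cast_nonneg K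
        nlinarith

lemma lower (hS : Spec V m c κ C k0) {ε : ℝ} (hε : 0 < ε) (K : ℕ) : ∃ η > 0,
    ∀ᵐ k : ℝ, |k| < η → K * (κ - ε) ≤ (Bi m K k).toReal := by
  have hC := hS.C_pos
  have hc := hS.c_pos
  have hκ := hS.κ_nonneg
  obtain ⟨η1, hη1, h1⟩ := conc_b hS one_pos (ε := ε / 2) (by positivity)
  set ρ := min 1 (ε / (2 * (κ + 1))) with hρ
  have hρ0 : 0 < ρ := lt_min one_pos (by positivity)
  have hρ1 : ρ ≤ 1 := min_le_left _ _
  have hρκ : ρ * κ ≤ ε / 2 := by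
    calc ρ * κ ≤ ε / (2 * (κ + 1)) * (κ + 1) := by
          gcongr
          · exact min_le_right _ _
          · linarith
      _ = ε / 2 := by field_simp
  have hD : 0 < 2 * (K + 1) * (c + 1) := by positivity
  refine ⟨min k0 (min η1 (ρ / (2 * (K + 1) * (c + 1)))), lt_min hS.k0_pos (lt_min hη1
    (by positivity)), ?_⟩
  have h0 : ∀ᵐ k : ℝ, k ≠ 0 := by
    rw [ae_iff]; simp
  filter_upwards [ae_good hS, h1, h0] with k hg g1 hk0 hk
  simp only [lt_min_iff] at hk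
  obtain ⟨hka, hkb, hkc⟩ := hk
  rw [lt_div_iff₀ hD] at hkc
  have hG := hg hka hk0
  have hfin := hG.fin
  have hkp : 0 < |k| := abs_pos.mpr hk0
  have f1 := (abs_le.mp (g1 hkb hk0)).1
  have h3 := hG.mul_real_le (measurableSet_near 1 c k) (hG.integrable_phi K)
    (fun τ h0 h1 => phi_nonneg h0 h1 K) (w := K * (1 - ρ)) (by
      intro τ hτ h0 h1
      have hτ' : abs ((1 - τ) - c * abs k) < 1 * |k| := hτ
      have h4 := (abs_lt.mp hτ').2
      refine le_trans ?_ (phi_ge h0 h1 K)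
      have h5 : 2 * K * (1 - τ) ≤ ρ := by
        have h6 : 1 - τ ≤ (c + 1) * |k| := by linarith
        calc 2 * K * (1 - τ) ≤ 2 * K * ((c + 1) * |k|) := by gcongr
          _ ≤ 2 * (K + 1) * ((c + 1) * |k|) := by gcongr; linarith
          _ = |k| * (2 * (K + 1) * (c + 1)) := by ring
          _ ≤ ρ := hkc.le
      gcongr)
  rw [← hG.Bi_eq K] at h3
  refine le_trans ?_ h3
  have h4 : (1 - ρ) * (κ - ε / 2) ≤ (1 - ρ) *
      (m k).real {τ | abs ((1 - τ) - c * abs k) < 1 * |k|} := by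
    have : 0 ≤ 1 - ρ := by linarith
    gcongr
    linarith
  have h5 : κ - ε ≤ (1 - ρ) * (κ - ε / 2) := by nlinarith
  calc K * (κ - ε) ≤ K * ((1 - ρ) * (m k).real {τ | abs ((1 - τ) - c * abs k) < 1 * |k|}) := by
        gcongr
        exact h5.trans h4
    _ = _ := by ring

end Cn

open Cn in
theorem p4 : P4Statement := by
  intro V m c κ C k0 hS hpos
  have hκ := hS.κ_nonneg
  have hcc : ∀ K, CK V K = cc (fun k => (Bi m K k).toReal) := fun K => funext (CK_eq hS K)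
  have hF0 : ∀ K : ℕ, ∀ᵐ k : ℝ, |k| ≤ π → 0 ≤ (Bi m K k).toReal :=
    fun K => Eventually.of_forall fun k _ => ENNReal.toReal_nonneg
  have hpi : (1 : ℝ) ≤ π := by linarith [Real.pi_gt_three]
  rw [Metric.tendsto_atTop]
  intro ε hε
  obtain ⟨D, hD, η, hη, hup⟩ := upper hS (ε := ε / 4) (by positivity)
  obtain ⟨N, hN⟩ := exists_nat_gt (D / (ε / 4))
  refine ⟨max N 1, fun K hK => ?_⟩
  have hK1 : 0 < K := lt_of_lt_of_le one_pos ((le_max_right _ _).trans hK)
  have hK1' : (0 : ℝ) < K := by exact_mod_cast hK1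
  have hKN : (N : ℝ) ≤ K := by exact_mod_cast (le_max_left _ _).trans hK
  have hpos' : ∀ z, 0 ≤ cc (fun k => (Bi m K k).toReal) z := fun z => by
    rw [← CK_eq hS K z]; exact hpos K hK1 z
  have hDK : D ≤ K * (ε / 4) := by
    rw [div_lt_iff₀ (by positivity)] at hN
    calc D ≤ N * (ε / 4) := hN.le
      _ ≤ K * (ε / 4) := by gcongr
  have hs : Summable (cc fun k => (Bi m K k).toReal) := by
    have := p3 V m c κ C k0 hS K hK1 (hpos K hK1)
    rwa [hcc K] at this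
  have hU : ∑' z, CK V K z ≤ K * (κ + ε / 4) + D := by
    rw [hcc K]
    refine tsum_cc_le (int_B hS K) (hF0 K) (η := min η 1) (lt_min hη one_pos)
      ((min_le_right _ _).trans hpi) (by positivity) ?_ hpos'
    filter_upwards [hup K] with k hk hk1
    exact hk (lt_of_lt_of_le hk1 (min_le_left _ _))
  have hL : K * (κ - ε / 4) ≤ ∑' z, CK V K z := by
    rw [hcc K]
    obtain ⟨η', hη', hlow⟩ := lower hS (ε := ε / 4) (by positivity) K
    refine le_trans (le_max_left _ 0) (le_tsum_cc (int_B hS K) (hF0 K) (η := min η' 1)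
      (lt_min hη' one_pos) ((min_le_right _ _).trans hpi) (le_max_right _ _) ?_ hpos' hs)
    filter_upwards [hlow] with k hk hk1
    exact max_le (hk (lt_of_lt_of_le hk1 (min_le_left _ _))) ENNReal.toReal_nonneg
  rw [Real.dist_eq, abs_lt]
  constructor
  · rw [lt_sub_iff_add_lt, lt_div_iff₀ hK1']
    nlinarith
  · rw [sub_lt_iff_lt_add, div_lt_iff₀ hK1']
    nlinarith

end Vale.Agent.P153.TwoPt
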