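import Mathlib

/-! P153, (P5): Plancherel on the plane and density of Fourier transforms of test functions. -/

open MeasureTheory FourierTransform Set Filter Topology
open scoped Real SchwartzMap ContDiff RealInnerProductSpace

namespace Vale.Agent.P153.TwoPt.P5

/-- the Euclidean plane -/
abbrev E : Type := WithLp 2 (ℝ × ℝ)

/-- the Fourier transform of a complex test function on the plane -/
noncomputable def FTc (f : ℝ × ℝ → ℂ) (w q : ℝ) : ℂ :=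
  ∫ z : ℝ × ℝ, f z * Complex.exp (Complex.I * ((w * z.1 + q * z.2 : ℝ) : ℂ))

/-- the scaling factor -/
noncomputable def sc : ℝ := -(2 * π)⁻¹

lemma sc_ne : sc ≠ 0 := by unfold sc; simp [Real.pi_ne_zero]

lemma integral_E {F : Type*} [NormedAddCommGroup F] [NormedSpace ℝ F] (f : E → F) :
    ∫ x : ℝ × ℝ, f (WithLp.toLp 2 x) = ∫ v : E, f v :=
  (WithLp.volume_preserving_toLp ℝ ℝ).integral_comp
    (MeasurableEquiv.toLp 2 (ℝ × ℝ)).measurableEmbedding f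

lemma FTc_eq (f : ℝ × ℝ → ℂ) (p : ℝ × ℝ) :
    FTc f p.1 p.2 = 𝓕 (fun v : E => f (WithLp.ofLp v)) (WithLp.toLp 2 (sc • p)) := by
  rw [Real.fourier_eq', ← integral_E]
  unfold FTc
  refine integral_congr_ae (ae_of_all _ fun z => ?_)
  simp only [WithLp.prod_inner_apply, smul_eq_mul]
  rw [mul_comm]
  congr 2
  have h : (inner ℝ z.1 (sc * p.1) + inner ℝ z.2 (sc * p.2) : ℝ) =
      sc * (p.1 * z.1 + p.2 * z.2) := by
    simp; ring
  simp only [Prod.smul_fst, Prod.smul_snd, smul_eq_mul]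
  rw [h]
  have h2 : (-2 * π * (sc * (p.1 * z.1 + p.2 * z.2)) : ℝ) = p.1 * z.1 + p.2 * z.2 := by
    unfold sc
    field_simp
  rw [h2]
  ring

lemma integral_scaled {F : Type*} [NormedAddCommGroup F] [NormedSpace ℝ F] (f : E → F) :
    ∫ p : ℝ × ℝ, f (WithLp.toLp 2 (sc • p)) = (4 * π ^ 2) • ∫ v : E, f v := by
  have h := Measure.integral_comp_smul (volume : Measure (ℝ × ℝ))
    (fun x => f (WithLp.toLp 2 x)) sc
  rw [h, integral_E]
  congr 1
  have : Module.finrank ℝ (ℝ × ℝ) = 2 := by simp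
  rw [this]
  unfold sc
  rw [neg_sq, inv_pow, inv_inv, abs_of_nonneg (by positivity)]
  ring

lemma norm_sq_Lp {α : Type*} [MeasurableSpace α] {μ : Measure α} (f : Lp ℂ 2 μ) :
    ‖f‖ ^ 2 = ∫ x, ‖f x‖ ^ 2 ∂μ := by
  have h := (Lp.memLp f).eLpNorm_eq_integral_rpow_norm (by norm_num) (by norm_num)
  rw [Lp.norm_def, h, ENNReal.toReal_ofReal (by positivity)]
  simp only [ENNReal.toReal_ofNat, Real.rpow_ofNat]
  have h0 : 0 ≤ ∫ x, ‖f x‖ ^ 2 ∂μ := integral_nonneg fun x => by positivity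
  rw [← Real.rpow_natCast, ← Real.rpow_mul h0]
  norm_num

/-- the norm of a difference of two classes -/
lemma norm_sq_toLp_sub {α : Type*} [MeasurableSpace α] {μ : Measure α} (f g : Lp ℂ 2 μ)
    (F G : α → ℂ) (hF : f =ᵐ[μ] F) (hG : g =ᵐ[μ] G) :
    ‖f - g‖ ^ 2 = ∫ x, ‖F x - G x‖ ^ 2 ∂μ := by
  rw [norm_sq_Lp]
  refine integral_congr_ae ?_
  filter_upwards [Lp.coeFn_sub f g, hF, hG] with x e1 e2 e3
  rw [e1, Pi.sub_apply, e2, e3]

/-- Plancherel for the difference of a Schwartz function and a class. -/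
lemma fourier_sub_norm (H : 𝓢(E, ℂ)) (G : Lp (α := E) ℂ 2 volume) :
    ‖(𝓕 H).toLp 2 volume - 𝓕 G‖ = ‖G - H.toLp 2 volume‖ := by
  have k0 : 𝓕 (H.toLp 2 volume) = (𝓕 H).toLp 2 volume := SchwartzMap.toLp_fourier_eq H
  have e2 : (𝓕 H).toLp 2 volume - 𝓕 G = Lp.fourierTransformₗᵢ E ℂ (H.toLp 2 volume - G) := by
    rw [map_sub, ← k0]
    rfl
  rw [e2, LinearIsometryEquiv.norm_map, ← norm_neg, neg_sub]

/-- a test function on the plane, as a Schwartz function on the Euclidean plane -/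
lemma toE {h : ℝ × ℝ → ℂ} (hs : HasCompactSupport h) (hc : ContDiff ℝ ∞ h) :
    ∃ H : 𝓢(E, ℂ), ∀ v : E, H v = h (WithLp.ofLp v) := by
  have hs' : HasCompactSupport (fun v : E => h (WithLp.ofLp v)) :=
    hs.comp_homeomorph (WithLp.homeomorphProd 2 ℝ ℝ)
  have hc' : ContDiff ℝ ∞ (fun v : E => h (WithLp.ofLp v)) :=
    hc.comp (WithLp.prodContinuousLinearEquiv 2 ℝ ℝ ℝ).contDiff
  exact ⟨hs'.toSchwartzMap hc', fun v => rfl⟩

/-- Plancherel for test functions -/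
theorem plancherel {h : ℝ × ℝ → ℂ} (hs : HasCompactSupport h) (hc : ContDiff ℝ ∞ h) :
    ∫ p : ℝ × ℝ, ‖FTc h p.1 p.2‖ ^ 2 = 4 * π ^ 2 * ∫ z : ℝ × ℝ, ‖h z‖ ^ 2 := by
  obtain ⟨H, hH⟩ := toE hs hc
  have h1 : (fun v : E => h (WithLp.ofLp v)) = H := by ext v; exact (hH v).symm
  simp only [FTc_eq, h1]
  rw [integral_scaled (fun v : E => ‖𝓕 (H : E → ℂ) v‖ ^ 2)]
  have h2 := SchwartzMap.integral_norm_sq_fourier H
  rw [SchwartzMap.fourier_coe] at h2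
  rw [h2, ← integral_E, smul_eq_mul]
  simp only [hH]

/-- **Density.** Every square integrable function on the plane is approximated in `L²` by Fourier
transforms of test functions. -/
theorem approx {W : ℝ × ℝ → ℂ} (hWm : Measurable W) (hW : Integrable fun p => ‖W p‖ ^ 2) {ε : ℝ}
    (hε : 0 < ε) : ∃ h : ℝ × ℝ → ℂ, HasCompactSupport h ∧ ContDiff ℝ ∞ h ∧
      Integrable (fun p : ℝ × ℝ => ‖FTc h p.1 p.2 - W p‖ ^ 2) ∧
      ∫ p : ℝ × ℝ, ‖FTc h p.1 p.2 - W p‖ ^ 2 ≤ ε := by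
  set U : E → ℂ := fun v => W (sc⁻¹ • WithLp.ofLp v) with hU
  have hofm : Measurable (fun v : E => (WithLp.ofLp v : ℝ × ℝ)) :=
    (MeasurableEquiv.toLp 2 (ℝ × ℝ)).symm.measurable
  have hUm : Measurable U := hWm.comp ((measurable_const_smul sc⁻¹).comp hofm)
  have hUi : Integrable fun v => ‖U v‖ ^ 2 := by
    have h1 : Integrable (fun x : ℝ × ℝ => ‖W (sc⁻¹ • x)‖ ^ 2) :=
      Integrable.comp_smul (f := fun x : ℝ × ℝ => ‖W x‖ ^ 2) hW (inv_ne_zero sc_ne)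
    exact (WithLp.volume_preserving_ofLp ℝ ℝ).integrable_comp_of_integrable h1
  have hU2 : MemLp U 2 volume := (memLp_two_iff_integrable_sq_norm hUm.aestronglyMeasurable).2 hUi
  set G := 𝓕⁻ (hU2.toLp U) with hG
  have hδ : 0 < √(ε / (4 * π ^ 2)) := Real.sqrt_pos.2 (by positivity)
  obtain ⟨h₀, hs, hc, hle⟩ := MemLp.exist_eLpNorm_sub_le (p := 2) (μ := volume) (by simp) (by simp)
    (Lp.memLp G) hδ
  set H : 𝓢(E, ℂ) := hs.toSchwartzMap hc with hH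
  have k1 : ‖G - H.toLp 2 volume‖ ≤ √(ε / (4 * π ^ 2)) := by
    rw [Lp.norm_def]
    refine ENNReal.toReal_le_of_le_ofReal hδ.le ?_
    refine le_trans (le_of_eq ?_) hle
    refine eLpNorm_congr_ae ?_
    filter_upwards [Lp.coeFn_sub G (H.toLp 2 volume), H.coeFn_toLp 2 volume] with v e1 e2
    rw [e1, Pi.sub_apply, Pi.sub_apply, e2]
    rfl
  have k2 : ‖(𝓕 H).toLp 2 volume - hU2.toLp U‖ ≤ √(ε / (4 * π ^ 2)) := by
    have e1 : 𝓕 G = hU2.toLp U := by rw [hG, fourier_fourierInv_eq]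
    rw [← e1, fourier_sub_norm]
    exact k1
  have hHi : Integrable fun v : E => ‖(𝓕 H) v - U v‖ ^ 2 := by
    have m1 : MemLp (fun v : E => (𝓕 H) v - U v) 2 volume := ((𝓕 H).memLp 2 volume).sub hU2
    exact (memLp_two_iff_integrable_sq_norm m1.1).1 m1
  have k3 : ∫ v : E, ‖(𝓕 H) v - U v‖ ^ 2 ≤ ε / (4 * π ^ 2) := by
    rw [← norm_sq_toLp_sub _ _ _ _ ((𝓕 H).coeFn_toLp 2 volume) hU2.coeFn_toLp,
      ← Real.sq_sqrt (show (0 : ℝ) ≤ ε / (4 * π ^ 2) by positivity)]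
    exact pow_le_pow_left₀ (norm_nonneg _) k2 2
  -- back to the plane
  have hs2 : HasCompactSupport (fun z : ℝ × ℝ => h₀ (WithLp.toLp 2 z)) :=
    hs.comp_homeomorph (WithLp.homeomorphProd 2 ℝ ℝ).symm
  have hc2 : ContDiff ℝ ∞ (fun z : ℝ × ℝ => h₀ (WithLp.toLp 2 z)) :=
    hc.comp (WithLp.prodContinuousLinearEquiv 2 ℝ ℝ ℝ).symm.contDiff
  have hF : ∀ p : ℝ × ℝ, ‖FTc (fun z : ℝ × ℝ => h₀ (WithLp.toLp 2 z)) p.1 p.2 - W p‖ ^ 2 =
      ‖(𝓕 H) (WithLp.toLp 2 (sc • p)) - U (WithLp.toLp 2 (sc • p))‖ ^ 2 := by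
    intro p
    rw [FTc_eq, SchwartzMap.fourier_coe]
    congr 3
    simp only [hU]
    rw [smul_smul, inv_mul_cancel₀ sc_ne, one_smul]
  refine ⟨_, hs2, hc2, ?_, ?_⟩
  · simp only [hF]
    have h1 : Integrable (fun x : ℝ × ℝ => ‖(𝓕 H) (WithLp.toLp 2 x) - U (WithLp.toLp 2 x)‖ ^ 2) :=
      (WithLp.volume_preserving_toLp ℝ ℝ).integrable_comp_of_integrable hHi
    exact Integrable.comp_smul (f := fun x : ℝ × ℝ =>
      ‖(𝓕 H) (WithLp.toLp 2 x) - U (WithLp.toLp 2 x)‖ ^ 2) h1 sc_ne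
  · simp only [hF]
    have hsc := integral_scaled (fun v : E => ‖(𝓕 H : 𝓢(E, ℂ)) v - U v‖ ^ 2)
    rw [hsc, smul_eq_mul]
    have hpos : (0 : ℝ) ≤ 4 * π ^ 2 := by positivity
    refine (mul_le_mul_of_nonneg_left k3 hpos).trans (le_of_eq ?_)
    have hne : (4 * π ^ 2 : ℝ) ≠ 0 := by positivity
    rw [mul_div_cancel₀ _ hne]

end Vale.Agent.P153.TwoPt.P5
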