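import Vale.Agent.P153.TwoPt.Defs
import Vale.Agent.P153.TwoPt.P5a

/-! P153, (P5): square integrability of the multiplier `f^ / (c|q| + iw)`. -/

open MeasureTheory FourierTransform Set Filter Topology
open scoped Real SchwartzMap ContDiff RealInnerProductSpace

namespace Vale.Agent.P153.TwoPt.P5

lemma FT_eq (f : ℝ × ℝ → ℝ) (w q : ℝ) : FT f w q = FTc (fun z => (f z : ℂ)) w q := rfl

lemma FTc_integrable {f : ℝ × ℝ → ℂ} (hf : Integrable f) (w q : ℝ) :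
    Integrable fun z : ℝ × ℝ => f z * Complex.exp (Complex.I * ((w * z.1 + q * z.2 : ℝ) : ℂ)) := by
  refine hf.mul_bdd (c := 1) ?_ (ae_of_all _ fun z => ?_)
  · exact Continuous.aestronglyMeasurable (by fun_prop)
  · rw [mul_comm]; exact (Complex.norm_exp_ofReal_mul_I _).le

lemma norm_FTc_le {f : ℝ × ℝ → ℂ} (w q : ℝ) : ‖FTc f w q‖ ≤ ∫ z, ‖f z‖ := by
  unfold FTc
  refine (norm_integral_le_integral_norm _).trans (le_of_eq ?_)
  refine integral_congr_ae (ae_of_all _ fun z => ?_)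
  simp only
  rw [norm_mul, mul_comm Complex.I, Complex.norm_exp_ofReal_mul_I, mul_one]

lemma continuous_FTc {f : ℝ × ℝ → ℂ} (hf : Integrable f) :
    Continuous fun p : ℝ × ℝ => FTc f p.1 p.2 := by
  unfold FTc
  refine continuous_of_dominated (bound := fun z => ‖f z‖) ?_ ?_ hf.norm ?_
  · intro p
    exact (FTc_integrable hf p.1 p.2).aestronglyMeasurable
  · intro p
    refine ae_of_all _ fun z => ?_
    rw [norm_mul, mul_comm Complex.I, Complex.norm_exp_ofReal_mul_I, mul_one]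
  · refine ae_of_all _ fun z => ?_
    fun_prop

/-- near the origin -/
lemma FT_near {f : ℝ × ℝ → ℝ} (hc : Continuous f) (hs : HasCompactSupport f)
    (h0 : ∫ z, f z = 0) (p : ℝ × ℝ) : ‖FT f p.1 p.2‖ ≤ (2 * ∫ z : ℝ × ℝ, |f z| * ‖z‖) * ‖p‖ := by
  have hf : Integrable f := hc.integrable_of_hasCompactSupport hs
  have hfc : Integrable fun z => (f z : ℂ) := hf.ofReal
  have e1 : FT f p.1 p.2 = ∫ z : ℝ × ℝ, (f z : ℂ) *
      (Complex.exp (Complex.I * ((p.1 * z.1 + p.2 * z.2 : ℝ) : ℂ)) - 1) := by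
    have h1 : ∫ z : ℝ × ℝ, (f z : ℂ) *
      (Complex.exp (Complex.I * ((p.1 * z.1 + p.2 * z.2 : ℝ) : ℂ)) - 1) =
        FT f p.1 p.2 - ∫ z : ℝ × ℝ, (f z : ℂ) := by
      unfold FT
      rw [← integral_sub (FTc_integrable hfc p.1 p.2) hfc]
      refine integral_congr_ae (ae_of_all _ fun z => ?_)
      simp only
      ring
    rw [h1, integral_complex_ofReal, h0]
    simp
  rw [e1]
  have hi : Integrable fun z : ℝ × ℝ => |f z| * ‖z‖ := by
    refine Continuous.integrable_of_hasCompactSupport (by fun_prop) ?_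
    exact (hs.abs).mul_right
  calc ‖∫ z : ℝ × ℝ, (f z : ℂ) *
      (Complex.exp (Complex.I * ((p.1 * z.1 + p.2 * z.2 : ℝ) : ℂ)) - 1)‖
      ≤ ∫ z : ℝ × ℝ, ‖(f z : ℂ) *
      (Complex.exp (Complex.I * ((p.1 * z.1 + p.2 * z.2 : ℝ) : ℂ)) - 1)‖ :=
        norm_integral_le_integral_norm _
    _ ≤ ∫ z : ℝ × ℝ, 2 * ‖p‖ * (|f z| * ‖z‖) := by
        refine integral_mono_of_nonneg (ae_of_all _ fun z => norm_nonneg _) (hi.const_mul _)
          (ae_of_all _ fun z => ?_)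
        simp only
        rw [norm_mul, Complex.norm_real, Real.norm_eq_abs]
        have h1 := Real.norm_exp_I_mul_ofReal_sub_one_le (x := p.1 * z.1 + p.2 * z.2)
        have h2 : ‖p.1 * z.1 + p.2 * z.2‖ ≤ 2 * ‖p‖ * ‖z‖ := by
          refine (norm_add_le _ _).trans ?_
          rw [norm_mul, norm_mul]
          have a1 := norm_fst_le p
          have a2 := norm_snd_le p
          have a3 := norm_fst_le z
          have a4 := norm_snd_le z
          have b1 := mul_le_mul a1 a3 (norm_nonneg _) (norm_nonneg _)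
          have b2 := mul_le_mul a2 a4 (norm_nonneg _) (norm_nonneg _)
          linarith
        have h3 := mul_le_mul_of_nonneg_left (h1.trans h2) (abs_nonneg (f z))
        linarith
    _ = (2 * ∫ z : ℝ × ℝ, |f z| * ‖z‖) * ‖p‖ := by
        rw [integral_const_mul]; ring

lemma norm_toLp_ge (x : ℝ × ℝ) : ‖x‖ ≤ ‖(WithLp.toLp 2 x : E)‖ := by
  have h := WithLp.prod_norm_sq_eq_of_L2 (WithLp.toLp 2 x : E)
  simp only [WithLp.toLp_fst, WithLp.toLp_snd] at h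
  rw [Prod.norm_def]
  refine max_le ?_ ?_
  · exact le_of_sq_le_sq (by nlinarith [sq_nonneg ‖x.2‖]) (norm_nonneg _)
  · exact le_of_sq_le_sq (by nlinarith [sq_nonneg ‖x.1‖]) (norm_nonneg _)

/-- away from the origin -/
lemma FT_far {f : ℝ × ℝ → ℝ} (hc : ContDiff ℝ 2 f) (hs : HasCompactSupport f) :
    ∃ C : ℝ, 0 ≤ C ∧ ∀ p : ℝ × ℝ, ‖p‖ ^ 2 * ‖FT f p.1 p.2‖ ≤ C := by
  set g : E → ℂ := fun v => (f (WithLp.ofLp v) : ℂ) with hg
  have hs' : HasCompactSupport g := by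
    have h1 : HasCompactSupport (fun z => (f z : ℂ)) := hs.comp_left (g := fun x : ℝ => (x : ℂ)) (by simp)
    exact h1.comp_homeomorph (WithLp.homeomorphProd 2 ℝ ℝ)
  have hc' : ContDiff ℝ 2 g :=
    (Complex.ofRealCLM.contDiff.comp hc).comp (WithLp.prodContinuousLinearEquiv 2 ℝ ℝ ℝ).contDiff
  have hint : ∀ (k n : ℕ), (k : ℕ∞) ≤ 0 → (n : ℕ∞) ≤ 2 →
      Integrable (fun v : E => ‖v‖ ^ k * ‖iteratedFDeriv ℝ n g v‖) := by
    intro k n _ hn
    have h1 : Continuous (fun v : E => iteratedFDeriv ℝ n g v) :=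
      hc'.continuous_iteratedFDeriv (by exact_mod_cast hn)
    refine Continuous.integrable_of_hasCompactSupport (by fun_prop) ?_
    exact ((hs'.iteratedFDeriv n).norm).mul_left
  have h2 := fun w : E => Real.pow_mul_norm_iteratedFDeriv_fourier_le (K := 0) (N := 2)
    (by exact_mod_cast hc') hint (k := 0) (n := 2) le_rfl le_rfl w
  set C := (2 * π) ^ 0 * (2 * (0 : ℕ) + 2) ^ 2 *
      ∑ p ∈ Finset.range (0 + 1) ×ˢ Finset.range (2 + 1),
        ∫ v : E, ‖v‖ ^ p.1 * ‖iteratedFDeriv ℝ p.2 g v‖ with hC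
  have hC0 : 0 ≤ C := le_trans (by positivity) (h2 0)
  refine ⟨(2 * π) ^ 2 * C, by positivity, fun p => ?_⟩
  have h3 := h2 (WithLp.toLp 2 (sc • p))
  rw [norm_iteratedFDeriv_zero] at h3
  have h4 : FT f p.1 p.2 = 𝓕 g (WithLp.toLp 2 (sc • p)) := by
    rw [FT_eq, FTc_eq]
  rw [← h4] at h3
  have h5 := norm_toLp_ge (sc • p)
  rw [norm_smul] at h5
  have h6 : ‖sc‖ = (2 * π)⁻¹ := by
    unfold sc
    rw [norm_neg, Real.norm_eq_abs, abs_of_pos (by positivity)]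
  rw [h6] at h5
  have h7 : ‖p‖ ≤ (2 * π) * ‖(WithLp.toLp 2 (sc • p) : E)‖ := by
    have := mul_le_mul_of_nonneg_left h5 (show (0 : ℝ) ≤ 2 * π by positivity)
    rwa [← mul_assoc, mul_inv_cancel₀ (by positivity), one_mul] at this
  have h8 : ‖p‖ ^ 2 ≤ ((2 * π) * ‖(WithLp.toLp 2 (sc • p) : E)‖) ^ 2 :=
    pow_le_pow_left₀ (norm_nonneg _) h7 2
  calc ‖p‖ ^ 2 * ‖FT f p.1 p.2‖
      ≤ ((2 * π) * ‖(WithLp.toLp 2 (sc • p) : E)‖) ^ 2 * ‖FT f p.1 p.2‖ :=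
        mul_le_mul_of_nonneg_right h8 (norm_nonneg _)
    _ = (2 * π) ^ 2 * (‖(WithLp.toLp 2 (sc • p) : E)‖ ^ 2 * ‖FT f p.1 p.2‖) := by ring
    _ ≤ (2 * π) ^ 2 * C := mul_le_mul_of_nonneg_left h3 (by positivity)

/-- the multiplier `f^ / (c|q| + iw)` -/
noncomputable def Wf (c : ℝ) (f : ℝ × ℝ → ℝ) (p : ℝ × ℝ) : ℂ :=
  FT f p.1 p.2 / ((c * |p.2| : ℝ) + Complex.I * (p.1 : ℝ))

lemma norm_den_sq (c : ℝ) (p : ℝ × ℝ) :
    ‖((c * |p.2| : ℝ) : ℂ) + Complex.I * (p.1 : ℝ)‖ ^ 2 = c ^ 2 * p.2 ^ 2 + p.1 ^ 2 := by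
  rw [← Complex.normSq_eq_norm_sq, Complex.normSq_apply]
  simp only [Complex.add_re, Complex.ofReal_re, Complex.mul_re, Complex.I_re, Complex.I_im,
    Complex.ofReal_im, Complex.add_im, Complex.mul_im]
  rw [show c ^ 2 * p.2 ^ 2 = c ^ 2 * |p.2| ^ 2 by rw [sq_abs]]
  ring

lemma norm_den_ge {c : ℝ} (hc : 0 < c) (p : ℝ × ℝ) :
    min c 1 * ‖p‖ ≤ ‖((c * |p.2| : ℝ) : ℂ) + Complex.I * (p.1 : ℝ)‖ := by
  have h := norm_den_sq c p
  have hm : 0 < min c 1 := lt_min hc one_pos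
  refine le_of_sq_le_sq ?_ (norm_nonneg _)
  rw [h, mul_pow]
  have h1 : (min c 1) ^ 2 ≤ c ^ 2 := pow_le_pow_left₀ hm.le (min_le_left _ _) 2
  have h2 : (min c 1) ^ 2 ≤ 1 := by
    have := pow_le_pow_left₀ hm.le (min_le_right c 1) 2
    simpa using this
  rw [Prod.norm_def]
  rcases max_cases ‖p.1‖ ‖p.2‖ with ⟨e, _⟩ | ⟨e, _⟩
  · rw [e, Real.norm_eq_abs, sq_abs]
    nlinarith [sq_nonneg p.1, sq_nonneg p.2, mul_nonneg (sq_nonneg c) (sq_nonneg p.2)]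
  · rw [e, Real.norm_eq_abs, sq_abs]
    nlinarith [sq_nonneg p.1, sq_nonneg p.2]

lemma measurable_Wf (c : ℝ) {f : ℝ × ℝ → ℝ} (hc : Continuous f) (hs : HasCompactSupport f) :
    Measurable (Wf c f) := by
  have hf : Integrable f := hc.integrable_of_hasCompactSupport hs
  have h1 : Measurable fun p : ℝ × ℝ => FT f p.1 p.2 :=
    (continuous_FTc (f := fun z => (f z : ℂ)) hf.ofReal).measurable
  unfold Wf
  refine h1.div ?_
  exact Continuous.measurable (by fun_prop)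

lemma integrable_Wf {c : ℝ} (hc0 : 0 < c) {f : ℝ × ℝ → ℝ} (hc : ContDiff ℝ 2 f)
    (hs : HasCompactSupport f) (h0 : ∫ z, f z = 0) : Integrable fun p => ‖Wf c f p‖ ^ 2 := by
  obtain ⟨C, hC0, hC⟩ := FT_far hc hs
  set A := 2 * ∫ z : ℝ × ℝ, |f z| * ‖z‖ with hA
  have hA0 : 0 ≤ A := by
    have : 0 ≤ ∫ z : ℝ × ℝ, |f z| * ‖z‖ := integral_nonneg fun z => by positivity
    linarith
  have hm : 0 < min c 1 := lt_min hc0 one_pos
  set B := 8 * (A + C) / min c 1 with hB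
  have hB0 : 0 ≤ B := by positivity
  have key : ∀ p : ℝ × ℝ, (1 + ‖p‖) ^ 3 * ‖Wf c f p‖ ≤ B := by
    intro p
    rcases eq_or_ne p 0 with rfl | hp
    · simp [Wf, hB0]
    have hp0 : 0 < ‖p‖ := norm_pos_iff.2 hp
    have hd := norm_den_ge hc0 p
    have hd0 : 0 < ‖((c * |p.2| : ℝ) : ℂ) + Complex.I * (p.1 : ℝ)‖ :=
      lt_of_lt_of_le (mul_pos hm hp0) hd
    have hn : FT_near hc.continuous hs h0 p = FT_near hc.continuous hs h0 p := rfl
    have n1 := FT_near hc.continuous hs h0 p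
    have n2 := hC p
    unfold Wf
    rw [norm_div, ← mul_div_assoc, div_le_iff₀ hd0]
    have hBd : B * (min c 1 * ‖p‖) ≤ B * ‖((c * |p.2| : ℝ) : ℂ) + Complex.I * (p.1 : ℝ)‖ :=
      mul_le_mul_of_nonneg_left hd hB0
    refine le_trans ?_ hBd
    have e1 : B * (min c 1 * ‖p‖) = 8 * (A + C) * ‖p‖ := by
      rw [hB]; field_simp
    rw [e1]
    rcases le_total ‖p‖ 1 with hle | hge
    · have h1 : (1 + ‖p‖) ^ 3 ≤ 8 := by
        have := pow_le_pow_left₀ (by positivity) (show 1 + ‖p‖ ≤ 2 by linarith) 3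
        norm_num at this ⊢
        exact this
      calc (1 + ‖p‖) ^ 3 * ‖FT f p.1 p.2‖ ≤ 8 * (A * ‖p‖) :=
            mul_le_mul h1 n1 (norm_nonneg _) (by norm_num)
        _ ≤ 8 * (A + C) * ‖p‖ := by nlinarith
    · have h1 : (1 + ‖p‖) ^ 3 ≤ 8 * ‖p‖ ^ 3 := by
        have := pow_le_pow_left₀ (by positivity) (show 1 + ‖p‖ ≤ 2 * ‖p‖ by linarith) 3
        rw [mul_pow] at this
        norm_num at this ⊢
        exact this
      calc (1 + ‖p‖) ^ 3 * ‖FT f p.1 p.2‖ ≤ (8 * ‖p‖ ^ 3) * ‖FT f p.1 p.2‖ :=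
            mul_le_mul_of_nonneg_right h1 (norm_nonneg _)
        _ = 8 * ‖p‖ * (‖p‖ ^ 2 * ‖FT f p.1 p.2‖) := by ring
        _ ≤ 8 * ‖p‖ * C := mul_le_mul_of_nonneg_left n2 (by positivity)
        _ ≤ 8 * (A + C) * ‖p‖ := by nlinarith
  have hI : Integrable (fun p : ℝ × ℝ => B ^ 2 * (1 + ‖p‖) ^ (-(6 : ℝ))) := by
    refine (integrable_one_add_norm (E := ℝ × ℝ) (μ := volume) (r := 6) ?_).const_mul _
    simp; norm_num
  refine hI.mono' ?_ (ae_of_all _ fun p => ?_)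
  · exact ((measurable_Wf c hc.continuous hs).norm.pow_const 2).aestronglyMeasurable
  · rw [norm_pow, norm_norm]
    have h1 := key p
    have h2 : 0 < 1 + ‖p‖ := by positivity
    have h3 : (1 + ‖p‖) ^ (-(6 : ℝ)) = ((1 + ‖p‖) ^ 6)⁻¹ := by
      rw [Real.rpow_neg h2.le]
      norm_cast
    rw [h3, ← div_eq_mul_inv, le_div_iff₀ (by positivity)]
    have h4 := pow_le_pow_left₀ (by positivity) h1 2
    calc ‖Wf c f p‖ ^ 2 * (1 + ‖p‖) ^ 6 = ((1 + ‖p‖) ^ 3 * ‖Wf c f p‖) ^ 2 := by ring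
      _ ≤ B ^ 2 := h4

end Vale.Agent.P153.TwoPt.P5
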