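import Vale.Agent.P153.TwoPt.Defs
import Vale.Agent.P153.TwoPt.P5b

/-! P153, (P5): completeness of the innovations. -/

open MeasureTheory FourierTransform Set Filter Topology
open scoped Real SchwartzMap ContDiff ComplexConjugate

namespace Vale.Agent.P153.TwoPt.P5

lemma conj_FTc (h : ℝ × ℝ → ℂ) (w q : ℝ) : conj (FTc h w q) = FTc (fun z => conj (h z)) (-w) (-q) := by
  unfold FTc
  rw [← integral_conj]
  refine integral_congr_ae (ae_of_all _ fun z => ?_)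
  simp only [map_mul, ← Complex.exp_conj, Complex.conj_I, Complex.conj_ofReal]
  congr 2
  push_cast
  ring

lemma FT_neg (f : ℝ × ℝ → ℝ) (w q : ℝ) : FT f (-w) (-q) = conj (FT f w q) := by
  rw [FT_eq, FT_eq, conj_FTc]
  simp only [Complex.conj_ofReal]

lemma Wf_neg (c : ℝ) (f : ℝ × ℝ → ℝ) (p : ℝ × ℝ) : conj (Wf c f (-p)) = Wf c f p := by
  unfold Wf
  rw [map_div₀, Prod.fst_neg, Prod.snd_neg, FT_neg, Complex.conj_conj, abs_neg]
  congr 1
  simp only [map_add, map_mul, map_neg, Complex.conj_I, Complex.conj_ofReal, Complex.ofReal_neg]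
  ring

/-- the transform of the real part -/
lemma FT_re {h : ℝ × ℝ → ℂ} (hi : Integrable h) (p : ℝ × ℝ) :
    FT (fun z => (h z).re) p.1 p.2 = (FTc h p.1 p.2 + conj (FTc h (-p).1 (-p).2)) / 2 := by
  rw [conj_FTc, Prod.fst_neg, Prod.snd_neg, neg_neg, neg_neg, FT_eq]
  have hi' : Integrable fun z => conj (h z) := by
    have := Complex.conjCLE.toContinuousLinearMap.integrable_comp hi
    exact this
  unfold FTc
  rw [← integral_add (FTc_integrable hi p.1 p.2) (FTc_integrable hi' p.1 p.2), ← integral_div]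
  refine integral_congr_ae (ae_of_all _ fun z => ?_)
  simp only
  have h1 : h z + conj (h z) = 2 * ((h z).re : ℂ) := by
    rw [Complex.add_conj]; push_cast; ring
  rw [← add_mul, h1]
  ring

/-- the integrand of the defect, from the integral of the square -/
lemma dist_re {h : ℝ × ℝ → ℂ} (hi : Integrable h) (c : ℝ) (f : ℝ × ℝ → ℝ) (p : ℝ × ℝ) :
    ‖FT (fun z => (h z).re) p.1 p.2 - Wf c f p‖ ^ 2 ≤
      (‖FTc h p.1 p.2 - Wf c f p‖ ^ 2 + ‖FTc h (-p).1 (-p).2 - Wf c f (-p)‖ ^ 2) / 2 := by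
  have e1 : FT (fun z => (h z).re) p.1 p.2 - Wf c f p =
      ((FTc h p.1 p.2 - Wf c f p) + conj (FTc h (-p).1 (-p).2 - Wf c f (-p))) / 2 := by
    rw [FT_re hi, map_sub, Wf_neg]; ring
  rw [e1]
  set a := FTc h p.1 p.2 - Wf c f p
  have e2 : ‖conj (FTc h (-p).1 (-p).2 - Wf c f (-p))‖ = ‖FTc h (-p).1 (-p).2 - Wf c f (-p)‖ :=
    Complex.norm_conj _
  set b := conj (FTc h (-p).1 (-p).2 - Wf c f (-p))
  rw [← e2, norm_div]
  have h1 : ‖a + b‖ ≤ ‖a‖ + ‖b‖ := norm_add_le _ _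
  have h2 : ‖a + b‖ ^ 2 ≤ (‖a‖ + ‖b‖) ^ 2 := pow_le_pow_left₀ (norm_nonneg _) h1 2
  have h3 : ‖(2 : ℂ)‖ = 2 := by simp
  rw [h3, div_pow]
  nlinarith [sq_nonneg (‖a‖ - ‖b‖)]

/-- the defect as an `L²` distance -/
lemma defect {c κ : ℝ} (hc0 : 0 < c) {f g : ℝ × ℝ → ℝ} (hf : ContDiff ℝ 2 f)
    (hfs : HasCompactSupport f) (h0 : ∫ z, f z = 0) (hg : ContDiff ℝ ∞ g)
    (hgs : HasCompactSupport g) :
    sig c κ f - 2 * cov c κ g f + κ * ∫ z : ℝ × ℝ, g z ^ 2 =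
      κ / (4 * π ^ 2) * ∫ p : ℝ × ℝ, ‖FT g p.1 p.2 - Wf c f p‖ ^ 2 := by
  have iW := integrable_Wf hc0 hf hfs h0
  have mW := (measurable_Wf c hf.continuous hfs).aestronglyMeasurable (μ := volume)
  have gc : ContDiff ℝ ∞ (fun z => (g z : ℂ)) := Complex.ofRealCLM.contDiff.comp hg
  have gs : HasCompactSupport (fun z => (g z : ℂ)) := hgs.comp_left (g := fun x : ℝ => (x : ℂ)) (by simp)
  have gi : Integrable g := hg.continuous.integrable_of_hasCompactSupport hgs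
  have cG : Continuous fun p : ℝ × ℝ => FT g p.1 p.2 := continuous_FTc (f := fun z => (g z : ℂ)) gi.ofReal
  have plG : ∫ p : ℝ × ℝ, ‖FT g p.1 p.2‖ ^ 2 = 4 * π ^ 2 * ∫ z : ℝ × ℝ, g z ^ 2 := by
    have h1 := plancherel gs gc
    simp only [FT_eq]
    rw [h1]
    congr 2
    ext z
    rw [Complex.norm_real, Real.norm_eq_abs, sq_abs]
  have iG : Integrable fun p : ℝ × ℝ => ‖FT g p.1 p.2‖ ^ 2 := by
    obtain ⟨H, hH⟩ := toE gs gc
    have e0 : (fun v : E => (g (WithLp.ofLp v) : ℂ)) = H := by ext v; exact (hH v).symm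
    have m1 : MemLp (fun v : E => (𝓕 H : 𝓢(E, ℂ)) v) 2 volume := (𝓕 H : 𝓢(E, ℂ)).memLp 2 volume
    have i1 : Integrable fun v : E => ‖(𝓕 H : 𝓢(E, ℂ)) v‖ ^ 2 :=
      (memLp_two_iff_integrable_sq_norm m1.1).1 m1
    have i2 : Integrable (fun x : ℝ × ℝ => ‖(𝓕 H : 𝓢(E, ℂ)) (WithLp.toLp 2 x)‖ ^ 2) :=
      (WithLp.volume_preserving_toLp ℝ ℝ).integrable_comp_of_integrable i1
    have i3 := Integrable.comp_smul (f := fun x : ℝ × ℝ =>
      ‖(𝓕 H : 𝓢(E, ℂ)) (WithLp.toLp 2 x)‖ ^ 2) i2 sc_ne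
    refine i3.congr (ae_of_all _ fun p => ?_)
    simp only
    rw [FT_eq, FTc_eq, e0, SchwartzMap.fourier_coe]
  have MG : MemLp (fun p : ℝ × ℝ => FT g p.1 p.2) 2 volume :=
    (memLp_two_iff_integrable_sq_norm cG.aestronglyMeasurable).2 iG
  have MW : MemLp (Wf c f) 2 volume := (memLp_two_iff_integrable_sq_norm mW).2 iW
  have iX : Integrable fun p : ℝ × ℝ => FT g p.1 p.2 * conj (Wf c f p) := by
    have h1 := MG.integrable_mul (MW.star)
    exact h1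
  have eX : ∀ p : ℝ × ℝ, FT g p.1 p.2 * (starRingEnd ℂ) (FT f p.1 p.2) /
      ((c * |p.2| : ℝ) - Complex.I * (p.1 : ℝ)) = FT g p.1 p.2 * conj (Wf c f p) := by
    intro p
    unfold Wf
    rw [map_div₀, mul_div_assoc]
    congr 2
    simp only [map_add, map_mul, Complex.conj_I, Complex.conj_ofReal]
    ring
  have eW : ∀ p : ℝ × ℝ, ‖FT f p.1 p.2‖ ^ 2 / (c ^ 2 * p.2 ^ 2 + p.1 ^ 2) = ‖Wf c f p‖ ^ 2 := by
    intro p
    unfold Wf
    rw [norm_div, div_pow, norm_den_sq]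
  have eD : ∀ p : ℝ × ℝ, ‖FT g p.1 p.2 - Wf c f p‖ ^ 2 =
      ‖FT g p.1 p.2‖ ^ 2 - 2 * (FT g p.1 p.2 * conj (Wf c f p)).re + ‖Wf c f p‖ ^ 2 := by
    intro p
    rw [← Complex.normSq_eq_norm_sq, ← Complex.normSq_eq_norm_sq, ← Complex.normSq_eq_norm_sq,
      Complex.normSq_sub]
    ring
  have eI : ∫ p : ℝ × ℝ, ‖FT g p.1 p.2 - Wf c f p‖ ^ 2 = (∫ p : ℝ × ℝ, ‖FT g p.1 p.2‖ ^ 2) -
      2 * (∫ p : ℝ × ℝ, FT g p.1 p.2 * conj (Wf c f p)).re + ∫ p : ℝ × ℝ, ‖Wf c f p‖ ^ 2 := by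
    simp only [eD]
    have i1 : Integrable fun p : ℝ × ℝ => 2 * (FT g p.1 p.2 * conj (Wf c f p)).re := iX.re.const_mul 2
    have i2 : Integrable fun p : ℝ × ℝ => ‖FT g p.1 p.2‖ ^ 2 -
      2 * (FT g p.1 p.2 * conj (Wf c f p)).re := iG.sub i1
    rw [integral_add i2 iW, integral_sub iG i1, integral_const_mul]
    have hre : ∫ p : ℝ × ℝ, (FT g p.1 p.2 * conj (Wf c f p)).re =
        (∫ p : ℝ × ℝ, FT g p.1 p.2 * conj (Wf c f p)).re := integral_re iX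
    rw [hre]
  unfold sig cov
  simp only [eX, eW]
  rw [eI, plG]
  have hpi : (4 * π ^ 2 : ℝ) ≠ 0 := by positivity
  field_simp
  ring

theorem p5 : P5Statement := by
  intro c κ hc0 hκ f hf hfs h0 ε hε
  have iW := integrable_Wf hc0 hf hfs h0
  have mW := measurable_Wf c hf.continuous hfs
  set δ := ε * (4 * π ^ 2) / (κ + 1) with hδ
  have hδ0 : 0 < δ := by positivity
  obtain ⟨h, hs, hc, hi, hle⟩ := approx mW iW hδ0
  have hint : Integrable h := hc.continuous.integrable_of_hasCompactSupport hs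
  have gc : ContDiff ℝ ∞ (fun z => (h z).re) := Complex.reCLM.contDiff.comp hc
  have gs : HasCompactSupport (fun z => (h z).re) := hs.comp_left (g := fun x : ℂ => x.re) (by simp)
  refine ⟨fun z => (h z).re, gc.continuous, gs, ?_⟩
  rw [defect hc0 hf hfs h0 gc gs]
  have i2 : Integrable fun p : ℝ × ℝ => ‖FTc h (-p).1 (-p).2 - Wf c f (-p)‖ ^ 2 :=
    hi.comp_neg
  have e2 : ∫ p : ℝ × ℝ, ‖FTc h (-p).1 (-p).2 - Wf c f (-p)‖ ^ 2 =
      ∫ p : ℝ × ℝ, ‖FTc h p.1 p.2 - Wf c f p‖ ^ 2 :=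
    integral_neg_eq_self (fun p : ℝ × ℝ => ‖FTc h p.1 p.2 - Wf c f p‖ ^ 2) volume
  have h1 : ∫ p : ℝ × ℝ, ‖FT (fun z => (h z).re) p.1 p.2 - Wf c f p‖ ^ 2 ≤ δ := by
    refine le_trans (integral_mono_of_nonneg (ae_of_all _ fun p => by positivity)
      ((hi.add i2).div_const 2) (ae_of_all _ fun p => dist_re hint c f p)) ?_
    rw [integral_div]
    have e3 : ∫ p : ℝ × ℝ, ((fun p : ℝ × ℝ => ‖FTc h p.1 p.2 - Wf c f p‖ ^ 2) +
        fun p : ℝ × ℝ => ‖FTc h (-p).1 (-p).2 - Wf c f (-p)‖ ^ 2) p =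
        (∫ p : ℝ × ℝ, ‖FTc h p.1 p.2 - Wf c f p‖ ^ 2) +
          ∫ p : ℝ × ℝ, ‖FTc h p.1 p.2 - Wf c f p‖ ^ 2 := by
      refine (integral_add hi i2).trans ?_
      rw [e2]
    rw [e3]
    linarith
  calc κ / (4 * π ^ 2) * ∫ p : ℝ × ℝ, ‖FT (fun z => (h z).re) p.1 p.2 - Wf c f p‖ ^ 2
      ≤ κ / (4 * π ^ 2) * δ := mul_le_mul_of_nonneg_left h1 (by positivity)
    _ = κ / (κ + 1) * ε := by
        rw [hδ]
        have hpi : (4 * π ^ 2 : ℝ) ≠ 0 := by positivity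
        field_simp
    _ ≤ ε := by
        have : κ / (κ + 1) ≤ 1 := by rw [div_le_one (by linarith)]; linarith
        nlinarith

end Vale.Agent.P153.TwoPt.P5
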