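import Vale.Agent.P153.TwoPt.P3

/-!
# P153, block (D): statement (P6), the conditional mean of the increment is negligible
-/

open MeasureTheory ProbabilityTheory Filter Topology Set
open scoped ENNReal Real

namespace Vale.Agent.P153.TwoPt

namespace P6

open Cn

/-- `∫ (1-τ^j)/(1-τ²) dm_k`. -/
noncomputable def Bj (m : Kernel ℝ ℝ) (j : ℕ) (k : ℝ) : ℝ≥0∞ :=
  ∫⁻ τ, ENNReal.ofReal ((1 - τ ^ j) / (1 - τ ^ 2)) ∂(m k)

lemma Bj_measurable (m : Kernel ℝ ℝ) (j : ℕ) : Measurable (Bj m j) :=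
  Measurable.lintegral_kernel (by fun_prop)

lemma one_sub_pow_le {τ : ℝ} (h0 : 0 ≤ τ) (j : ℕ) : 1 - τ ^ j ≤ j * (1 - τ) := by
  have := one_add_mul_le_pow (a := τ - 1) (by linarith) j
  have h2 : 1 + (τ - 1) = τ := by ring
  rw [h2] at this
  linarith

lemma one_sub_pow_nonneg {τ : ℝ} (h0 : 0 ≤ τ) (h1 : τ < 1) (j : ℕ) : 0 ≤ 1 - τ ^ j :=
  sub_nonneg.2 (pow_le_one₀ h0 h1.le)

lemma sq_pos' {τ : ℝ} (h0 : 0 ≤ τ) (h1 : τ < 1) : 0 < 1 - τ ^ 2 := by nlinarith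

lemma one_sub_le {τ : ℝ} (h0 : 0 ≤ τ) (h1 : τ < 1) : 1 - τ ≤ 1 - τ ^ 2 := by nlinarith

lemma phi_nonneg {τ : ℝ} (h0 : 0 ≤ τ) (h1 : τ < 1) (j : ℕ) : 0 ≤ (1 - τ ^ j) / (1 - τ ^ 2) :=
  div_nonneg (one_sub_pow_nonneg h0 h1 j) (sq_pos' h0 h1).le

lemma phi_le {τ : ℝ} (h0 : 0 ≤ τ) (h1 : τ < 1) (j : ℕ) : (1 - τ ^ j) / (1 - τ ^ 2) ≤ j := by
  rw [div_le_iff₀ (sq_pos' h0 h1)]
  refine (one_sub_pow_le h0 j).trans ?_
  exact mul_le_mul_of_nonneg_left (one_sub_le h0 h1) (Nat.cast_nonneg _)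

section

variable {V : ℤ → ℤ → ℝ} {m : Kernel ℝ ℝ} {c κ C k0 : ℝ}

lemma int_inv {k : ℝ} (hsupp : ∀ᵐ τ ∂(m k), 0 ≤ τ ∧ τ < 1) (hA : Ai m k < ⊤) :
    Integrable (fun τ : ℝ => 1 / (1 - τ ^ 2)) (m k) := by
  have hm1 : Measurable fun τ : ℝ => 1 / (1 - τ ^ 2) := by fun_prop
  have hn1 : 0 ≤ᵐ[m k] fun τ : ℝ => 1 / (1 - τ ^ 2) := by
    filter_upwards [hsupp] with τ hτ
    have := sq_pos' hτ.1 hτ.2
    simp only [Pi.zero_apply]
    positivity
  exact ⟨hm1.aestronglyMeasurable, by rw [hasFiniteIntegral_iff_ofReal hn1]; exact hA⟩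

lemma int_phi {k : ℝ} (hsupp : ∀ᵐ τ ∂(m k), 0 ≤ τ ∧ τ < 1) (hA : Ai m k < ⊤) (j : ℕ) :
    Integrable (fun τ : ℝ => (1 - τ ^ j) / (1 - τ ^ 2)) (m k) := by
  have hm2 : Measurable fun τ : ℝ => (1 - τ ^ j) / (1 - τ ^ 2) := by fun_prop
  refine (int_inv hsupp hA).mono' hm2.aestronglyMeasurable ?_
  filter_upwards [hsupp] with τ hτ
  rw [Real.norm_eq_abs, abs_of_nonneg (phi_nonneg hτ.1 hτ.2 j)]
  have := sq_pos' hτ.1 hτ.2
  have h4 : 0 ≤ τ ^ j := pow_nonneg hτ.1 _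
  gcongr
  linarith

lemma Bj_toReal {k : ℝ} (hsupp : ∀ᵐ τ ∂(m k), 0 ≤ τ ∧ τ < 1) (j : ℕ) :
    (Bj m j k).toReal = ∫ τ, (1 - τ ^ j) / (1 - τ ^ 2) ∂(m k) := by
  have hm2 : Measurable fun τ : ℝ => (1 - τ ^ j) / (1 - τ ^ 2) := by fun_prop
  refine (integral_eq_lintegral_of_nonneg_ae ?_ hm2.aestronglyMeasurable).symm
  filter_upwards [hsupp] with τ hτ
  exact phi_nonneg hτ.1 hτ.2 j

lemma inner_eqj {k : ℝ} (hsupp : ∀ᵐ τ ∂(m k), 0 ≤ τ ∧ τ < 1) (hA : Ai m k < ⊤) (a : ℝ) (j : ℕ) :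
    ∫ τ, (1 - a * τ ^ j) / (1 - τ ^ 2) ∂(m k) =
      (1 - a) * (Ai m k).toReal + a * (Bj m j k).toReal := by
  have hm1 : Measurable fun τ : ℝ => 1 / (1 - τ ^ 2) := by fun_prop
  have hn1 : 0 ≤ᵐ[m k] fun τ : ℝ => 1 / (1 - τ ^ 2) := by
    filter_upwards [hsupp] with τ hτ
    have := sq_pos' hτ.1 hτ.2
    simp only [Pi.zero_apply]
    positivity
  have e1 : (Ai m k).toReal = ∫ τ, 1 / (1 - τ ^ 2) ∂(m k) :=
    (integral_eq_lintegral_of_nonneg_ae hn1 hm1.aestronglyMeasurable).symm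
  rw [e1, Bj_toReal hsupp, ← integral_const_mul, ← integral_const_mul,
    ← integral_add ((int_inv hsupp hA).const_mul _) ((int_phi hsupp hA j).const_mul _)]
  refine integral_congr_ae ?_
  filter_upwards [hsupp] with τ hτ
  have : 1 - τ ^ 2 ≠ 0 := (sq_pos' hτ.1 hτ.2).ne'
  field_simp
  ring

lemma Bj_le {k : ℝ} (hG : Good m C k) (hC : 0 ≤ C) (j : ℕ) : (Bj m j k).toReal ≤ j * C := by
  refine ENNReal.toReal_le_of_le_ofReal (by positivity) ?_
  calc Bj m j k ≤ ∫⁻ _, ENNReal.ofReal j ∂(m k) := by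
        refine lintegral_mono_ae ?_
        filter_upwards [hG.supp] with τ hτ
        exact ENNReal.ofReal_le_ofReal (phi_le hτ.1 hτ.2 j)
    _ = ENNReal.ofReal j * m k univ := lintegral_const _
    _ ≤ ENNReal.ofReal j * ENNReal.ofReal C := by gcongr; exact hG.mass
    _ = ENNReal.ofReal (j * C) := (ENNReal.ofReal_mul (by positivity)).symm

lemma int_Bj (hS : Spec V m c κ C k0) (j : ℕ) :
    IntegrableOn (fun k => (Bj m j k).toReal) (Icc (-π) π) := by
  have hk0π : k0 ≤ π := hS.k0_le.trans (by linarith [Real.pi_gt_three])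
  have hcos := Cn.one_sub_cos_pos hS.k0_pos hk0π
  have hi : IntegrableOn (fun _ : ℝ => (j : ℝ) * C) (Icc (-π) π) :=
    continuous_const.integrableOn_Icc
  refine Integrable.mono' (hi.add ((int_g hS).const_mul (1 / (1 - Real.cos k0))))
    (Bj_measurable m j).ennreal_toReal.aestronglyMeasurable ?_
  rw [ae_restrict_iff' measurableSet_Icc]
  have h0 : ∀ᵐ k : ℝ, k ≠ 0 := by
    rw [ae_iff]; simp
  filter_upwards [ae_good hS, ae_Ai_lt hS, hS.supp, h0] with k hg hA hs hk0 hk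
  have hkπ : |k| ≤ π := abs_le.mpr ⟨hk.1, hk.2⟩
  rw [Real.norm_eq_abs, abs_of_nonneg ENNReal.toReal_nonneg]
  have h3 : 0 ≤ (Ai m k).toReal := ENNReal.toReal_nonneg
  have h4 : 0 ≤ 1 - Real.cos k := by linarith [Real.cos_le_one k]
  show (Bj m j k).toReal ≤ j * C + 1 / (1 - Real.cos k0) * ((1 - Real.cos k) * (Ai m k).toReal)
  rcases lt_or_ge |k| k0 with h | h
  · have := Bj_le (hg h hk0) hS.C_pos.le j
    have : 0 ≤ 1 / (1 - Real.cos k0) * ((1 - Real.cos k) * (Ai m k).toReal) := by positivity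
    linarith
  · have h5 : Real.cos k ≤ Real.cos k0 := by
      rw [← Real.cos_abs k]
      exact Real.cos_le_cos_of_nonneg_of_le_pi hS.k0_pos.le hkπ h
    have h6 : (Bj m j k).toReal ≤ (Ai m k).toReal := by
      refine ENNReal.toReal_mono (hA hkπ hk0).ne ?_
      refine lintegral_mono_ae ?_
      filter_upwards [hs] with τ hτ
      refine ENNReal.ofReal_le_ofReal ?_
      have := sq_pos' hτ.1 hτ.2
      have h4 : 0 ≤ τ ^ j := pow_nonneg hτ.1 _
      gcongr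
      linarith
    have h7 : (Ai m k).toReal ≤ 1 / (1 - Real.cos k0) * ((1 - Real.cos k) * (Ai m k).toReal) := by
      rw [one_div_mul_eq_div, le_div_iff₀ hcos, mul_comm]
      gcongr
    have : 0 ≤ j * C := by have := hS.C_pos; positivity
    linarith

lemma V_eqj (hS : Spec V m c κ C k0) (j : ℕ) (z : ℤ) :
    V (j : ℤ) z = (1 / π) * ((∫ k in Icc (-π) π, (1 - Real.cos (k * z)) * (Ai m k).toReal) +
      ∫ k in Icc (-π) π, Real.cos (k * z) * (Bj m j k).toReal) := by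
  rw [hS.rep, ← integral_add (int_A hS z) (integrableOn_cos_mul (int_Bj hS j) z)]
  congr 1
  refine setIntegral_congr_ae measurableSet_Icc ?_
  have h0 : ∀ᵐ k : ℝ, k ≠ 0 := by
    rw [ae_iff]; simp
  filter_upwards [ae_Ai_lt hS, hS.supp, h0] with k hA hs hk0 hk
  have hkπ : |k| ≤ π := abs_le.mpr ⟨hk.1, hk.2⟩
  rw [Int.natAbs_natCast]
  exact inner_eqj hs (hA hkπ hk0) _ j

lemma Bj_zero (k : ℝ) : Bj m 0 k = 0 := by
  unfold Bj; simp

/-- the density. -/
noncomputable def FK (m : Kernel ℝ ℝ) (K : ℕ) (k : ℝ) : ℝ :=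
  2 * (Bj m K k).toReal - (Bj m (2 * K) k).toReal

lemma int_FK (hS : Spec V m c κ C k0) (K : ℕ) : IntegrableOn (FK m K) (Icc (-π) π) :=
  ((int_Bj hS K).const_mul 2).sub (int_Bj hS (2 * K))

lemma TK_eq (hS : Spec V m c κ C k0) (K : ℕ) (z : ℤ) : TK V K z = cc (FK m K) z := by
  have h1 := V_eqj hS K z
  have h2 := V_eqj hS (2 * K) z
  have h3 := V_eqj hS 0 z
  simp only [Bj_zero, ENNReal.toReal_zero, mul_zero, integral_zero, add_zero] at h3
  push_cast at h2 h3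
  unfold TK cc FK
  rw [h1, h2, h3]
  have e : ∫ k in Icc (-π) π, Real.cos (k * z) * (2 * (Bj m K k).toReal - (Bj m (2 * K) k).toReal) =
      2 * (∫ k in Icc (-π) π, Real.cos (k * z) * (Bj m K k).toReal) -
        ∫ k in Icc (-π) π, Real.cos (k * z) * (Bj m (2 * K) k).toReal := by
    rw [← integral_const_mul, ← integral_sub ((integrableOn_cos_mul (int_Bj hS K) z).const_mul 2)
      (integrableOn_cos_mul (int_Bj hS (2 * K)) z)]
    refine integral_congr_ae (Eventually.of_forall fun k => ?_)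
    simp only
    ring
  rw [e]
  generalize (∫ k in Icc (-π) π, (1 - Real.cos (k * z)) * (Ai m k).toReal) = I0
  generalize (∫ k in Icc (-π) π, Real.cos (k * z) * (Bj m K k).toReal) = I1
  generalize (∫ k in Icc (-π) π, Real.cos (k * z) * (Bj m (2 * K) k).toReal) = I2
  have : π ≠ 0 := Real.pi_ne_zero
  field_simp
  ring

lemma FK_eq {k : ℝ} (hsupp : ∀ᵐ τ ∂(m k), 0 ≤ τ ∧ τ < 1) (hA : Ai m k < ⊤) (K : ℕ) :
    FK m K k = ∫ τ, (1 - τ ^ K) ^ 2 / (1 - τ ^ 2) ∂(m k) := by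
  unfold FK
  rw [Bj_toReal hsupp, Bj_toReal hsupp, ← integral_const_mul,
    ← integral_sub ((int_phi hsupp hA K).const_mul 2) (int_phi hsupp hA (2 * K))]
  refine integral_congr_ae (Eventually.of_forall fun τ => ?_)
  simp only
  ring

lemma FK_nonneg {k : ℝ} (hsupp : ∀ᵐ τ ∂(m k), 0 ≤ τ ∧ τ < 1) (hA : Ai m k < ⊤) (K : ℕ) :
    0 ≤ FK m K k := by
  rw [FK_eq hsupp hA]
  refine integral_nonneg_of_ae ?_
  filter_upwards [hsupp] with τ hτ
  have := sq_pos' hτ.1 hτ.2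
  simp only [Pi.zero_apply]
  positivity

lemma FK_le {k : ℝ} (hG : Good m C k) (hC : 0 ≤ C) (hA : Ai m k < ⊤) {A η ε' : ℝ} (hA0 : 0 ≤ A)
    (hη : 0 < η) (hε : 0 ≤ ε')
    (hmid : m k {τ | A * |k| < 1 - τ ∧ 1 - τ < η} ≤ ENNReal.ofReal ε') (K : ℕ) :
    FK m K k ≤ (K ^ 2 * (A * |k|) + 1 / η) * C + K * ε' := by
  have := hG.fin
  rw [FK_eq hG.supp hA]
  set S := {τ : ℝ | A * |k| < 1 - τ ∧ 1 - τ < η} with hS
  have hSm : MeasurableSet S := measurableSet_mid _ _ _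
  have hi : Integrable (S.indicator fun _ => (K : ℝ)) (m k) := (integrable_const _).indicator hSm
  have h1 : ∫ τ, (1 - τ ^ K) ^ 2 / (1 - τ ^ 2) ∂(m k) ≤
      ∫ τ, ((K ^ 2 * (A * |k|) + 1 / η) + S.indicator (fun _ => (K : ℝ)) τ) ∂(m k) := by
    refine integral_mono_of_nonneg ?_ ((integrable_const _).add hi) ?_
    · filter_upwards [hG.supp] with τ hτ
      have := sq_pos' hτ.1 hτ.2
      simp only [Pi.zero_apply]
      positivity
    · filter_upwards [hG.supp] with τ hτ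
      have hp := sq_pos' hτ.1 hτ.2
      have hp1 : 0 < 1 - τ := by linarith [hτ.2]
      have hn := one_sub_pow_nonneg hτ.1 hτ.2 K
      have hb := one_sub_pow_le hτ.1 K
      have hle := one_sub_le hτ.1 hτ.2
      have t1 : 0 ≤ (K : ℝ) ^ 2 * (A * |k|) := by positivity
      have t2 : 0 ≤ 1 / η := by positivity
      have t3 : 0 ≤ S.indicator (fun _ => (K : ℝ)) τ :=
        indicator_nonneg (fun _ _ => Nat.cast_nonneg _) _
      have hone : 1 - τ ^ K ≤ 1 := by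
        have := pow_nonneg hτ.1 K
        linarith
      rcases le_or_gt (1 - τ) (A * |k|) with h | h
      · have : (1 - τ ^ K) ^ 2 / (1 - τ ^ 2) ≤ K ^ 2 * (A * |k|) := by
          rw [div_le_iff₀ hp]
          calc (1 - τ ^ K) ^ 2 ≤ (K * (1 - τ)) ^ 2 := by gcongr
            _ = K ^ 2 * ((1 - τ) * (1 - τ)) := by ring
            _ ≤ K ^ 2 * ((A * |k|) * (1 - τ ^ 2)) := by gcongr
            _ = _ := by ring
        linarith
      · rcases lt_or_ge (1 - τ) η with h' | h'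
        · have hmem : τ ∈ S := ⟨h, h'⟩
          rw [indicator_of_mem hmem]
          have : (1 - τ ^ K) ^ 2 / (1 - τ ^ 2) ≤ K := by
            rw [div_le_iff₀ hp]
            calc (1 - τ ^ K) ^ 2 = (1 - τ ^ K) * (1 - τ ^ K) := by ring
              _ ≤ 1 * (K * (1 - τ)) := by gcongr
              _ ≤ 1 * (K * (1 - τ ^ 2)) := by gcongr
              _ = _ := by ring
          linarith
        · have : (1 - τ ^ K) ^ 2 / (1 - τ ^ 2) ≤ 1 / η := by
            calc (1 - τ ^ K) ^ 2 / (1 - τ ^ 2) ≤ 1 / (1 - τ ^ 2) := by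
                  gcongr
                  exact pow_le_one₀ hn hone
              _ ≤ 1 / η := one_div_le_one_div_of_le hη (h'.trans hle)
          linarith
  refine h1.trans ?_
  rw [integral_add (integrable_const _) hi, integral_const, integral_indicator_const _ hSm,
    smul_eq_mul, smul_eq_mul]
  have h2 : (m k).real S ≤ ε' := ENNReal.toReal_le_of_le_ofReal hε hmid
  have h3 := hG.real_le hC
  have t : 0 ≤ (K : ℝ) ^ 2 * (A * |k|) + 1 / η := by positivity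
  have h4 := mul_le_mul_of_nonneg_left h3 t
  have h5 := mul_le_mul_of_nonneg_left h2 (Nat.cast_nonneg K : (0 : ℝ) ≤ K)
  linarith

end

end P6

open P6 Cn in
theorem p6 : P6Statement := by
  intro V m c κ C k0 hS ε hε
  have hC := hS.C_pos
  have hpi := Real.pi_gt_three
  obtain ⟨-, -, h3⟩ := conc V m c κ C k0 hS
  obtain ⟨A, hA, η, hη, η', hη', hmid⟩ := h3 (ε / 4) (by positivity)
  obtain ⟨K0, hK0⟩ := exists_nat_gt (4 * C / (η * ε))
  refine ⟨K0 + 1, fun K hK => ?_⟩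
  have hKpos : (0 : ℝ) < K := by
    have : 0 < K := by omega
    exact_mod_cast this
  have hKb : C / η ≤ ε / 4 * K := by
    have h1 : 4 * C / (η * ε) < K := hK0.trans (by
      have : K0 < K := by omega
      exact_mod_cast this)
    rw [div_lt_iff₀ (by positivity)] at h1
    rw [div_le_iff₀ hη]
    linarith
  -- small momenta
  set δ : ℝ := min (min k0 η') (ε / (4 * (K * A * C))) with hδ
  have hδ0 : 0 < δ := lt_min (lt_min hS.k0_pos hη') (by positivity)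
  have hδπ : δ ≤ π := by
    have h1 : δ ≤ k0 := (min_le_left _ _).trans (min_le_left _ _)
    linarith [hS.k0_le]
  have h0 : ∀ᵐ k : ℝ, k ≠ 0 := by
    rw [ae_iff]; simp
  have hF0 : ∀ᵐ k : ℝ, |k| ≤ π → 0 ≤ FK m K k := by
    filter_upwards [ae_Ai_lt hS, hS.supp, h0] with k hA' hs hk0 hk
    exact FK_nonneg hs (hA' hk hk0) K
  have hFb : ∀ᵐ k : ℝ, |k| < δ → FK m K k ≤ 3 / 4 * ε * K := by
    filter_upwards [ae_Ai_lt hS, ae_good hS, hmid, h0] with k hA' hg hm' hk0 hk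
    have k1 : |k| < k0 := hk.trans_le ((min_le_left _ _).trans (min_le_left _ _))
    have k2 : |k| < η' := hk.trans_le ((min_le_left _ _).trans (min_le_right _ _))
    have k3 : |k| < ε / (4 * (K * A * C)) := hk.trans_le (min_le_right _ _)
    have hb := FK_le (hg k1 hk0) hC.le (hA' (hk.le.trans hδπ) hk0) hA.le hη
      (by positivity : (0 : ℝ) ≤ ε / 4) (hm' k2 hk0) K
    rw [lt_div_iff₀ (by positivity)] at k3
    have e1 : (K ^ 2 * (A * |k|) + 1 / η) * C + K * (ε / 4) =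
        K * (|k| * (4 * (K * A * C))) / 4 + C / η + K * (ε / 4) := by ring
    rw [e1] at hb
    have e2 : K * (|k| * (4 * (K * A * C))) ≤ K * ε := mul_le_mul_of_nonneg_left k3.le hKpos.le
    linarith
  have hB0 : 0 ≤ 3 / 4 * ε * K := by positivity
  have hmain := fun l => fej_int_le (int_FK hS K) hF0 hδ0 hδπ hB0 hFb l
  set cst : ℝ := 1 / (2 * π) * (2 / (1 - Real.cos δ)) * ∫ k in Icc (-π) π, FK m K k with hcst
  obtain ⟨l0, hl0⟩ := exists_nat_gt (cst / (ε / 4 * K))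
  refine ⟨l0 + 1, fun l hl => ?_⟩
  have hlpos : (0 : ℝ) < l := by
    have : 0 < l := by omega
    exact_mod_cast this
  have hlb : cst ≤ ε / 4 * K * l := by
    have h1 : cst / (ε / 4 * K) < l := hl0.trans (by
      have : l0 < l := by omega
      exact_mod_cast this)
    rw [div_lt_iff₀ (by positivity)] at h1
    linarith
  have hsum : ∑ x ∈ Finset.range l, ∑ y ∈ Finset.range l, TK V K ((x : ℤ) - y) ≤
      l * (3 / 4 * ε * K) + cst := by
    simp_rw [TK_eq hS]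
    rw [sum_cc_eq (int_FK hS K)]
    exact hmain l
  rw [one_div, inv_mul_le_iff₀ hlpos]
  linarith

end Vale.Agent.P153.TwoPt
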