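import Vale.Agent.P153.TwoPt.P2
import Vale.Agent.P153.TwoPt.Kern
import Vale.Agent.P153.TwoPt.Conc
import Vale.Agent.P153.TwoPt.P3
import Vale.Agent.P153.TwoPt.P3b
import Vale.Agent.P153.TwoPt.P4
import Vale.Agent.P153.TwoPt.P5
import Vale.Agent.P153.TwoPt.P6

/-!
# P153, two-point part: assembled (P1-P6 all proved)
-/

namespace Vale.Agent.P153.TwoPt

theorem kl_all : KLStatement := kl_of_conc conc

/-- (P1) the variance of `X`. -/
theorem p1 : P1Statement := p1_of KB kl_all

/-- (P2) the covariance of `X` and `X'`. -/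
theorem p2 : P2Statement := p2_of KB kl_all

/-- (P5) completeness of the innovations. -/
theorem p5 : P5Statement := P5.p5

end Vale.Agent.P153.TwoPt
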