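import Vale.Agent.P153.TwoPt.Defs2
import Vale.Agent.P153.TwoPt.Poisson

/-!
# P153, two-point part: bounds of the kernels (KB)
-/

open MeasureTheory ProbabilityTheory Filter Topology Set
open scoped ENNReal Real

namespace Vale.Agent.P153.TwoPt

theorem den_ge_sq {τ : ℝ} (h0 : 0 ≤ τ) (θ : ℝ) : (1 - τ) ^ 2 ≤ den τ θ := by
  unfold den
  have h1 := Real.cos_le_one θ
  have : 0 ≤ τ * (2 - 2 * Real.cos θ) := mul_nonneg h0 (by linarith)
  linarith

theorem den_ge_theta {τ : ℝ} (h0 : 0 ≤ τ) (h1 : τ < 1) {θ : ℝ} (hθ : |θ| ≤ π) :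
    θ ^ 2 / (4 * π ^ 2) ≤ den τ θ := by
  have hpi := Real.pi_pos
  have hc : Real.cos θ ≤ 1 - 2 / π ^ 2 * θ ^ 2 := Real.cos_le_one_sub_mul_cos_sq hθ
  rcases le_or_gt (1 / 2) τ with h | h
  · have h2 : τ * (4 / π ^ 2 * θ ^ 2) ≤ den τ θ := by
      unfold den
      have h3 : τ * (4 / π ^ 2 * θ ^ 2) ≤ τ * (2 - 2 * Real.cos θ) := by
        refine mul_le_mul_of_nonneg_left ?_ h0
        have : 4 / π ^ 2 * θ ^ 2 = 2 * (2 / π ^ 2 * θ ^ 2) := by ring
        linarith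
      nlinarith [sq_nonneg (1 - τ)]
    refine le_trans ?_ h2
    have h4 : θ ^ 2 / (4 * π ^ 2) = (1 / 16) * (4 / π ^ 2 * θ ^ 2) := by
      field_simp
      ring
    rw [h4]
    refine mul_le_mul_of_nonneg_right (by linarith) (by positivity)
  · have h2 := den_ge_sq h0 θ
    have h3 : θ ^ 2 ≤ π ^ 2 := sq_le_sq' (by linarith [abs_le.1 hθ]) (abs_le.1 hθ).2
    have h4 : θ ^ 2 / (4 * π ^ 2) ≤ 1 / 4 := by
      rw [div_le_div_iff₀ (by positivity) (by norm_num)]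
      linarith
    nlinarith

theorem measurable_den (θ : ℝ) : Measurable fun τ : ℝ => den τ θ := by
  unfold den
  fun_prop

theorem den_neg (τ θ : ℝ) : den τ (-θ) = den τ θ := by
  unfold den
  rw [Real.cos_neg]

theorem norm_one_sub (τ θ : ℝ) :
    ‖1 - (τ : ℂ) * Complex.exp (-(Complex.I * (θ : ℂ)))‖ = Real.sqrt (den τ θ) := by
  have h := den_eq_norm τ (-θ)
  rw [den_neg] at h
  rw [h, Real.sqrt_sq (norm_nonneg _)]
  congr 4
  push_cast
  ring

theorem norm_one_sub_pow {z : ℂ} (hz : ‖z‖ ≤ 1) (K : ℕ) : ‖1 - z ^ K‖ ≤ K * ‖1 - z‖ := by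
  induction K with
  | zero => simp
  | succ K ih =>
    have h1 : 1 - z ^ (K + 1) = (1 - z ^ K) + z ^ K * (1 - z) := by ring
    rw [h1]
    refine (norm_add_le _ _).trans ?_
    rw [norm_mul, norm_pow]
    have h2 : ‖z‖ ^ K * ‖1 - z‖ ≤ 1 * ‖1 - z‖ :=
      mul_le_mul_of_nonneg_right (pow_le_one₀ (norm_nonneg _) hz) (norm_nonneg _)
    push_cast
    linarith

theorem norm_tau_exp {τ : ℝ} (h0 : 0 ≤ τ) (θ : ℝ) :
    ‖(τ : ℂ) * Complex.exp (-(Complex.I * (θ : ℂ)))‖ = τ := by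
  rw [norm_mul, Complex.norm_real, Real.norm_of_nonneg h0,
    show -(Complex.I * (θ : ℂ)) = ((-θ : ℝ) : ℂ) * Complex.I by push_cast; ring,
    Complex.norm_exp_ofReal_mul_I, mul_one]

/-- The integrand of `Om`. -/
theorem norm_Om_integrand {τ : ℝ} (h0 : 0 ≤ τ) (h1 : τ < 1) (θ : ℝ) (K : ℕ) :
    ‖(1 - ((τ : ℂ) * Complex.exp (-(Complex.I * (θ : ℂ)))) ^ K) / (den τ θ : ℂ)‖ ≤
      K / Real.sqrt (den τ θ) := by
  have hd := den_pos h0 h1 θ
  have hs := Real.sqrt_pos.2 hd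
  rw [norm_div, Complex.norm_real, Real.norm_of_nonneg hd.le]
  have h2 : ‖1 - ((τ : ℂ) * Complex.exp (-(Complex.I * (θ : ℂ)))) ^ K‖ ≤ K * Real.sqrt (den τ θ) := by
    have h3 := norm_one_sub_pow (z := (τ : ℂ) * Complex.exp (-(Complex.I * (θ : ℂ))))
      (by rw [norm_tau_exp h0]; exact h1.le) K
    rwa [norm_one_sub] at h3
  calc ‖1 - ((τ : ℂ) * Complex.exp (-(Complex.I * (θ : ℂ)))) ^ K‖ / den τ θ
      ≤ (K * Real.sqrt (den τ θ)) / den τ θ := div_le_div_of_nonneg_right h2 hd.le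
    _ = K / Real.sqrt (den τ θ) := by
      rw [div_eq_div_iff hd.ne' hs.ne', mul_assoc, Real.mul_self_sqrt hd.le]

theorem KB : KBStatement := by
  intro V m c κ C k0 hS
  have hpi := Real.pi_pos
  have hC := hS.C_pos
  refine ⟨C * (1 + 4 * π ^ 2), by positivity, ?_⟩
  filter_upwards [hS.supp, hS.mass, hS.inv] with k hsupp hmass hinv hk hk0 θ hθ
  have hm := hmass hk
  have hi := hinv hk hk0
  have hfin : IsFiniteMeasure (m k) := ⟨lt_of_le_of_lt hm ENNReal.ofReal_lt_top⟩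
  have hk2 : 0 < k ^ 2 := by positivity
  have hkθ : 0 < k ^ 2 + θ ^ 2 := by positivity
  have hmeas : AEStronglyMeasurable (fun τ => 1 / den τ θ) (m k) :=
    ((measurable_den θ).const_div 1).aestronglyMeasurable
  have hnn : 0 ≤ᵐ[m k] fun τ => 1 / den τ θ := by
    filter_upwards [hsupp] with τ hτ
    exact (one_div_pos.2 (den_pos hτ.1 hτ.2 θ)).le
  have hle1 : ∫⁻ τ, ENNReal.ofReal (1 / den τ θ) ∂(m k) ≤ ENNReal.ofReal (C / k ^ 2) := by
    refine (lintegral_mono_ae ?_).trans hi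
    filter_upwards [hsupp] with τ hτ
    refine ENNReal.ofReal_le_ofReal ?_
    refine one_div_le_one_div_of_le ?_ (den_ge_sq hτ.1 θ)
    have : 0 < 1 - τ := by linarith [hτ.2]
    positivity
  have hint : Integrable (fun τ => 1 / den τ θ) (m k) := by
    refine ⟨hmeas, ?_⟩
    rw [hasFiniteIntegral_iff_ofReal hnn]
    exact lt_of_le_of_lt hle1 ENNReal.ofReal_lt_top
  have hPsi : Psi m k θ = (∫⁻ τ, ENNReal.ofReal (1 / den τ θ) ∂(m k)).toReal := by
    unfold Psi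
    exact integral_eq_lintegral_of_nonneg_ae hnn hmeas
  have hP1 : Psi m k θ * k ^ 2 ≤ C := by
    have : Psi m k θ ≤ C / k ^ 2 := by
      rw [hPsi]
      refine ENNReal.toReal_le_of_le_ofReal (by positivity) hle1
    rwa [le_div_iff₀ hk2] at this
  have hP2 : Psi m k θ * θ ^ 2 ≤ 4 * π ^ 2 * C := by
    unfold Psi
    rw [← integral_mul_const]
    have h1 : ∫ τ, 1 / den τ θ * θ ^ 2 ∂(m k) ≤ ∫ τ, 4 * π ^ 2 ∂(m k) := by
      refine integral_mono_ae (hint.mul_const _) (integrable_const _) ?_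
      filter_upwards [hsupp] with τ hτ
      have h2 := den_ge_theta hτ.1 hτ.2 hθ
      have h3 := den_pos hτ.1 hτ.2 θ
      rw [div_le_iff₀ (by positivity)] at h2
      show 1 / den τ θ * θ ^ 2 ≤ 4 * π ^ 2
      rw [one_div, inv_mul_le_iff₀ h3]
      linarith
    refine h1.trans ?_
    rw [integral_const, smul_eq_mul, mul_comm]
    refine mul_le_mul_of_nonneg_left ?_ (by positivity)
    exact ENNReal.toReal_le_of_le_ofReal hC.le hm
  have hP : Psi m k θ ≤ C * (1 + 4 * π ^ 2) / (k ^ 2 + θ ^ 2) := by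
    rw [le_div_iff₀ hkθ, mul_add]
    linarith
  refine ⟨hint, hP, fun K => ?_⟩
  -- the causal kernel
  set s : ℝ := Real.sqrt (k ^ 2 + θ ^ 2) with hs
  have hs0 : 0 < s := Real.sqrt_pos.2 hkθ
  have hs2 : s * s = k ^ 2 + θ ^ 2 := Real.mul_self_sqrt hkθ.le
  have hg : Integrable (fun τ => (K : ℝ) * (1 / 2 * (1 / s + s * (1 / den τ θ)))) (m k) :=
    (((integrable_const _).add (hint.const_mul s)).const_mul _).const_mul _
  have h1 : ‖Om m K k θ‖ ≤ ∫ τ, (K : ℝ) * (1 / 2 * (1 / s + s * (1 / den τ θ))) ∂(m k) := by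
    unfold Om
    refine norm_integral_le_of_norm_le hg ?_
    filter_upwards [hsupp] with τ hτ
    refine (norm_Om_integrand hτ.1 hτ.2 θ K).trans ?_
    have h3 := den_pos hτ.1 hτ.2 θ
    set d := Real.sqrt (den τ θ) with hd
    have hd0 : 0 < d := Real.sqrt_pos.2 h3
    have hd2 : den τ θ = d * d := (Real.mul_self_sqrt h3.le).symm
    rw [div_eq_mul_inv]
    refine mul_le_mul_of_nonneg_left ?_ (Nat.cast_nonneg K)
    rw [hd2]
    have h5 : 1 / 2 * (1 / s + s * (1 / (d * d))) - d⁻¹ = (s - d) ^ 2 / (2 * s * d ^ 2) := by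
      field_simp
      ring
    have h6 : 0 ≤ (s - d) ^ 2 / (2 * s * d ^ 2) := by positivity
    linarith
  refine h1.trans ?_
  rw [integral_const_mul, integral_const_mul, integral_add (integrable_const _) (hint.const_mul s),
    integral_const_mul, integral_const, smul_eq_mul]
  have h7 : (m k).real univ ≤ C := ENNReal.toReal_le_of_le_ofReal hC.le hm
  have h8 : s * ∫ τ, 1 / den τ θ ∂(m k) ≤ C * (1 + 4 * π ^ 2) / s := by
    have h9 : s * Psi m k θ ≤ s * (C * (1 + 4 * π ^ 2) / (k ^ 2 + θ ^ 2)) :=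
      mul_le_mul_of_nonneg_left hP hs0.le
    refine h9.trans (le_of_eq ?_)
    rw [← hs2]
    field_simp
  have h10 : (m k).real univ * (1 / s) ≤ C * (1 + 4 * π ^ 2) / s := by
    rw [mul_one_div]
    refine div_le_div_of_nonneg_right (h7.trans ?_) hs0.le
    nlinarith [sq_nonneg π]
  rw [mul_div_assoc]
  refine mul_le_mul_of_nonneg_left ?_ (Nat.cast_nonneg K)
  linarith

end Vale.Agent.P153.TwoPt
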