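import Vale.Agent.P153.TwoPt.KB

/-!
# P153, two-point part: limits of the kernels (KL) from (T)
-/

open MeasureTheory ProbabilityTheory Filter Topology Set
open scoped ENNReal Real

namespace Vale.Agent.P153.TwoPt

/-- `L² den(1 - E/L, w/L) → E² + w²`. -/
theorem den_scaled_eq (L E w : ℝ) (hL : L ≠ 0) :
    L ^ 2 * den (1 - E / L) (w / L) =
      E ^ 2 + (1 - E / L) * (L ^ 2 * (2 - 2 * Real.cos (w / L))) := by
  unfold den
  field_simp
  ring

theorem cos_scaled_bound {L w : ℝ} (hL : 1 ≤ L) (h : |w / L| ≤ 1) :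
    |L ^ 2 * (2 - 2 * Real.cos (w / L)) - w ^ 2| ≤ 2 * w ^ 4 / L ^ 2 := by
  have hL0 : 0 < L := by linarith
  have h1 := Real.cos_bound h
  have h2 : L ^ 2 * (2 - 2 * Real.cos (w / L)) - w ^ 2 =
      -(2 * L ^ 2) * (Real.cos (w / L) - (1 - (w / L) ^ 2 / 2)) := by
    field_simp
    ring
  rw [h2, abs_mul, abs_neg, abs_of_pos (by positivity : (0 : ℝ) < 2 * L ^ 2)]
  calc 2 * L ^ 2 * |Real.cos (w / L) - (1 - (w / L) ^ 2 / 2)|
      ≤ 2 * L ^ 2 * (|w / L| ^ 4 * (5 / 96)) := mul_le_mul_of_nonneg_left h1 (by positivity)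
    _ = (5 / 48) * w ^ 4 / L ^ 2 := by
        rw [abs_div, abs_of_pos hL0, div_pow]
        have : |w| ^ 4 = w ^ 4 := by
          rw [show (4 : ℕ) = 2 * 2 by norm_num, pow_mul, sq_abs, ← pow_mul]
        rw [this]
        field_simp
        ring
    _ ≤ 2 * w ^ 4 / L ^ 2 := by
        refine div_le_div_of_nonneg_right ?_ (by positivity)
        nlinarith [sq_nonneg (w ^ 2)]

/-- Uniform bound. -/
theorem den_scaled_bound {L E w A : ℝ} (hL : 1 ≤ L) (h : |w / L| ≤ 1) (hE0 : 0 ≤ E) (hEA : E ≤ A) :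
    |L ^ 2 * den (1 - E / L) (w / L) - (E ^ 2 + w ^ 2)| ≤
      (2 * w ^ 4 + A * (w ^ 2 + 2 * w ^ 4)) / L := by
  have hL0 : 0 < L := by linarith
  have h1 := cos_scaled_bound hL h
  set c := L ^ 2 * (2 - 2 * Real.cos (w / L)) with hc
  have h2 : L ^ 2 * den (1 - E / L) (w / L) - (E ^ 2 + w ^ 2) = (c - w ^ 2) - E / L * c := by
    rw [den_scaled_eq L E w hL0.ne', ← hc]
    ring
  have hc0 : 0 ≤ c := by
    have := Real.cos_le_one (w / L)
    rw [hc]
    exact mul_nonneg (by positivity) (by linarith)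
  have h3 : 2 * w ^ 4 / L ^ 2 ≤ 2 * w ^ 4 / L := by
    refine div_le_div_of_nonneg_left (by positivity) hL0 ?_
    nlinarith
  have h4 : 2 * w ^ 4 / L ≤ 2 * w ^ 4 := div_le_self (by positivity) hL
  have h5 : c ≤ w ^ 2 + 2 * w ^ 4 := by
    have := (abs_le.1 h1).2
    linarith
  have h6 : |E / L * c| ≤ A * (w ^ 2 + 2 * w ^ 4) / L := by
    rw [abs_of_nonneg (by positivity), div_mul_eq_mul_div]
    refine div_le_div_of_nonneg_right ?_ hL0.le
    exact mul_le_mul hEA h5 hc0 (hE0.trans hEA)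
  rw [h2, add_div]
  refine (abs_sub _ _).trans ?_
  linarith

/-- Limit of `(L² den)⁻¹`. -/
theorem tul_psi {L : ℕ → ℝ} (hL1 : ∀ n, 1 ≤ L n) (hL : Tendsto L atTop atTop) {w : ℝ} (hw : w ≠ 0)
    {A : ℝ} (hA : 1 < A) :
    TendstoUniformlyOn (fun n (E : ℝ) =>
      (((((L n) ^ 2 * den (1 - E / L n) (w / L n))⁻¹ : ℝ)) : ℂ))
      (fun E => (((E ^ 2 + w ^ 2)⁻¹ : ℝ) : ℂ)) atTop (Icc (1 / A) A) := by
  have hA0 : 0 < A := by linarith
  have hw2 : 0 < w ^ 2 := by positivity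
  rw [Metric.tendstoUniformlyOn_iff]
  intro ε hε
  set B := 2 * w ^ 4 + A * (w ^ 2 + 2 * w ^ 4) with hB
  have hB0 : 0 ≤ B := by positivity
  have hBL : Tendsto (fun n => B / L n) atTop (𝓝 0) := hL.const_div_atTop B
  have e1 := hBL.eventually (gt_mem_nhds (show (0 : ℝ) < w ^ 2 / 2 by positivity))
  have e2 := hBL.eventually (gt_mem_nhds (show (0 : ℝ) < ε * (w ^ 2 * (w ^ 2 / 2)) by positivity))
  have e3 := hL.eventually_ge_atTop |w|
  filter_upwards [e1, e2, e3] with n h1 h2 h3 E hE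
  have hLn : 0 < L n := by linarith [hL1 n]
  have habs : |w / L n| ≤ 1 := by
    rw [abs_div, abs_of_pos hLn, div_le_one hLn]
    exact h3
  have hE0 : 0 ≤ E := le_trans (by positivity) hE.1
  have h4 := den_scaled_bound (hL1 n) habs hE0 hE.2
  rw [← hB] at h4
  set x := (L n) ^ 2 * den (1 - E / L n) (w / L n) with hx
  set y := E ^ 2 + w ^ 2 with hy
  have hy0 : w ^ 2 ≤ y := by rw [hy]; nlinarith [sq_nonneg E]
  have hx0 : w ^ 2 / 2 ≤ x := by
    have := (abs_le.1 h4).1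
    linarith
  have hxp : 0 < x := by linarith
  have hyp : 0 < y := by linarith
  rw [dist_eq_norm, ← Complex.ofReal_sub, Complex.norm_real, Real.norm_eq_abs]
  have h5 : y⁻¹ - x⁻¹ = (x - y) / (y * x) := by
    field_simp
  rw [h5, abs_div, abs_of_pos (mul_pos hyp hxp), div_lt_iff₀ (mul_pos hyp hxp)]
  have h6 : w ^ 2 * (w ^ 2 / 2) ≤ y * x := mul_le_mul hy0 hx0 (by positivity) hyp.le
  calc |x - y| ≤ B / L n := h4
    _ < ε * (w ^ 2 * (w ^ 2 / 2)) := h2
    _ ≤ ε * (y * x) := mul_le_mul_of_nonneg_left h6 hε.le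

/-- The scaled causal kernel. -/
theorem om_factor {L E w : ℝ} (hL : 0 < L) (hE : 0 < E) (hEL : E ≤ L) (K : ℕ) :
    (L : ℂ)⁻¹ * ((1 - (((1 - E / L : ℝ) : ℂ) * Complex.exp (-(Complex.I * ((w / L : ℝ) : ℂ)))) ^ K) /
      (den (1 - E / L) (w / L) : ℂ)) =
    (∑ j ∈ Finset.range K, (((1 - E / L : ℝ) : ℂ) *
      Complex.exp (-(Complex.I * ((w / L : ℝ) : ℂ)))) ^ j) /
      ((L : ℂ) * (1 - ((1 - E / L : ℝ) : ℂ) * Complex.exp (Complex.I * ((w / L : ℝ) : ℂ)))) := by
  have hLc : (L : ℂ) ≠ 0 := by exact_mod_cast hL.ne'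
  have h0 : 0 ≤ 1 - E / L := by
    have : E / L ≤ 1 := (div_le_one hL).2 hEL
    linarith
  have h1 : 1 - E / L < 1 := by
    have : 0 < E / L := by positivity
    linarith
  have hd := den_pos h0 h1 (w / L)
  have hdc : (den (1 - E / L) (w / L) : ℂ) ≠ 0 := by exact_mod_cast hd.ne'
  rw [den_factor] at hdc ⊢
  set z := ((1 - E / L : ℝ) : ℂ) * Complex.exp (-(Complex.I * ((w / L : ℝ) : ℂ))) with hz
  set u := ((1 - E / L : ℝ) : ℂ) * Complex.exp (Complex.I * ((w / L : ℝ) : ℂ)) with hu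
  have hz1 : (1 - z) ≠ 0 := right_ne_zero_of_mul hdc
  have hu1 : (1 - u) ≠ 0 := left_ne_zero_of_mul hdc
  have hgeom : (∑ j ∈ Finset.range K, z ^ j) * (1 - z) = 1 - z ^ K := by
    have := geom_sum_mul z K
    linear_combination -this
  rw [← hgeom]
  field_simp

theorem exp_scaled_bound {x : ℝ} (hx : |x| ≤ 1) : ‖Complex.exp (Complex.I * (x : ℂ)) - 1‖ ≤ 2 * |x| := by
  have h := Complex.norm_exp_sub_one_le (x := Complex.I * (x : ℂ)) (by
    rw [norm_mul, Complex.norm_I, one_mul, Complex.norm_real]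
    exact hx)
  rwa [norm_mul, Complex.norm_I, one_mul, Complex.norm_real] at h

theorem norm_num_bound {L E w A : ℝ} (hL : 1 ≤ L) (h : |w / L| ≤ 1) (hE0 : 0 ≤ E) (hEA : E ≤ A)
    (hEL : E ≤ L) (K : ℕ) :
    ‖(∑ j ∈ Finset.range K, (((1 - E / L : ℝ) : ℂ) *
      Complex.exp (-(Complex.I * ((w / L : ℝ) : ℂ)))) ^ j) - K‖ ≤ K ^ 2 * (A + 2 * |w|) / L := by
  have hL0 : 0 < L := by linarith
  set z := ((1 - E / L : ℝ) : ℂ) * Complex.exp (-(Complex.I * ((w / L : ℝ) : ℂ))) with hz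
  have hA : 0 ≤ A := hE0.trans hEA
  have h0 : 0 ≤ 1 - E / L := by
    have : E / L ≤ 1 := (div_le_one hL0).2 hEL
    linarith
  have hE1 : 0 ≤ E / L := by positivity
  have hz1 : ‖z‖ ≤ 1 := by
    rw [hz, norm_tau_exp h0]
    linarith
  have he : ‖Complex.exp (-(Complex.I * ((w / L : ℝ) : ℂ))) - 1‖ ≤ 2 * |w / L| := by
    have := exp_scaled_bound (x := -(w / L)) (by rwa [abs_neg])
    rw [abs_neg] at this
    convert this using 3
    push_cast
    ring_nf
  have hzd : ‖1 - z‖ ≤ (A + 2 * |w|) / L := by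
    have h1 : 1 - z = ((E / L : ℝ) : ℂ) - ((1 - E / L : ℝ) : ℂ) *
        (Complex.exp (-(Complex.I * ((w / L : ℝ) : ℂ))) - 1) := by
      rw [hz]
      push_cast
      ring
    rw [h1]
    refine (norm_sub_le _ _).trans ?_
    rw [norm_mul, Complex.norm_real, Complex.norm_real, Real.norm_of_nonneg hE1,
      Real.norm_of_nonneg h0, add_div]
    have h2 : E / L ≤ A / L := div_le_div_of_nonneg_right hEA hL0.le
    have h3 : (1 - E / L) * ‖Complex.exp (-(Complex.I * ((w / L : ℝ) : ℂ))) - 1‖ ≤ 1 * (2 * |w / L|) :=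
      mul_le_mul (by linarith) he (norm_nonneg _) (by norm_num)
    have h4 : 2 * |w / L| = 2 * |w| / L := by rw [abs_div, abs_of_pos hL0]; ring
    linarith
  have h5 : (∑ j ∈ Finset.range K, z ^ j) - K = -∑ j ∈ Finset.range K, (1 - z ^ j) := by
    rw [Finset.sum_sub_distrib]
    simp
  rw [h5, norm_neg]
  refine (norm_sum_le _ _).trans ?_
  have h6 : ∀ j ∈ Finset.range K, ‖1 - z ^ j‖ ≤ K * ((A + 2 * |w|) / L) := by
    intro j hj
    refine (norm_one_sub_pow hz1 j).trans ?_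
    refine mul_le_mul ?_ hzd (norm_nonneg _) (Nat.cast_nonneg K)
    exact_mod_cast (Finset.mem_range.1 hj).le
  refine (Finset.sum_le_sum h6).trans (le_of_eq ?_)
  rw [Finset.sum_const, Finset.card_range, nsmul_eq_mul]
  ring

theorem norm_den_bound {L E w A : ℝ} (hL : 1 ≤ L) (h : |w / L| ≤ 1) (hE0 : 0 ≤ E) (hEA : E ≤ A) :
    ‖(L : ℂ) * (1 - ((1 - E / L : ℝ) : ℂ) * Complex.exp (Complex.I * ((w / L : ℝ) : ℂ))) -
      ((E : ℂ) - Complex.I * (w : ℂ))‖ ≤ (w ^ 2 + 2 * A * |w|) / L := by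
  have hL0 : 0 < L := by linarith
  have hLc : (L : ℂ) ≠ 0 := by exact_mod_cast hL0.ne'
  have hA : 0 ≤ A := hE0.trans hEA
  set e := Complex.exp (Complex.I * ((w / L : ℝ) : ℂ)) with he
  have h1 : (L : ℂ) * (1 - ((1 - E / L : ℝ) : ℂ) * e) - ((E : ℂ) - Complex.I * (w : ℂ)) =
      -((L : ℂ) * (e - 1 - Complex.I * ((w / L : ℝ) : ℂ))) + (E : ℂ) * (e - 1) := by
    push_cast
    field_simp
    ring
  rw [h1]
  refine (norm_add_le _ _).trans ?_
  rw [norm_neg, norm_mul, norm_mul, Complex.norm_real, Complex.norm_real, Real.norm_of_nonneg hL0.le,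
    Real.norm_of_nonneg hE0]
  have h2 : ‖e - 1 - Complex.I * ((w / L : ℝ) : ℂ)‖ ≤ |w / L| ^ 2 := by
    have := Complex.norm_exp_sub_one_sub_id_le (x := Complex.I * ((w / L : ℝ) : ℂ)) (by
      rw [norm_mul, Complex.norm_I, one_mul, Complex.norm_real]
      exact h)
    rwa [norm_mul, Complex.norm_I, one_mul, Complex.norm_real] at this
  have h3 := exp_scaled_bound h
  rw [← he] at h3
  have h4 : L * ‖e - 1 - Complex.I * ((w / L : ℝ) : ℂ)‖ ≤ L * |w / L| ^ 2 :=
    mul_le_mul_of_nonneg_left h2 hL0.le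
  have h5 : E * ‖e - 1‖ ≤ A * (2 * |w / L|) := mul_le_mul hEA h3 (norm_nonneg _) hA
  have h6 : L * |w / L| ^ 2 = w ^ 2 / L := by
    rw [sq_abs, div_pow]
    field_simp
  have h7 : A * (2 * |w / L|) = 2 * A * |w| / L := by
    rw [abs_div, abs_of_pos hL0]
    ring
  rw [add_div]
  linarith

theorem norm_lim_ge (E w : ℝ) : |w| ≤ ‖(E : ℂ) - Complex.I * (w : ℂ)‖ := by
  have h := Complex.abs_im_le_norm ((E : ℂ) - Complex.I * (w : ℂ))
  simpa using h

/-- Limit of the scaled causal kernel. -/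
theorem tul_om {L : ℕ → ℝ} (hL1 : ∀ n, 1 ≤ L n) (hL : Tendsto L atTop atTop) {w : ℝ} (hw : w ≠ 0)
    (K : ℕ) {A : ℝ} (hA : 1 < A) :
    TendstoUniformlyOn (fun n (E : ℝ) =>
      (L n : ℂ)⁻¹ * ((1 - (((1 - E / L n : ℝ) : ℂ) *
        Complex.exp (-(Complex.I * ((w / L n : ℝ) : ℂ)))) ^ K) /
      (den (1 - E / L n) (w / L n) : ℂ)))
      (fun E : ℝ => (K : ℂ) / ((E : ℂ) - Complex.I * (w : ℂ))) atTop (Icc (1 / A) A) := by
  have hA0 : 0 < A := by linarith
  have hw0 : 0 < |w| := abs_pos.2 hw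
  rw [Metric.tendstoUniformlyOn_iff]
  intro ε hε
  set D1 : ℝ := K ^ 2 * (A + 2 * |w|) with hD1
  set D2 : ℝ := w ^ 2 + 2 * A * |w| with hD2
  have hD10 : 0 ≤ D1 := by positivity
  have hD20 : 0 ≤ D2 := by positivity
  set M : ℝ := (D1 * |w| + K * D2) / (|w| * (|w| / 2)) + D1 * 2 / |w| with hM
  have hM0 : 0 ≤ M := by positivity
  have hD : Tendsto (fun n => D2 / L n) atTop (𝓝 0) := hL.const_div_atTop D2
  have hD' : Tendsto (fun n => (D1 / (|w| / 2) + K * D2 / (|w| * (|w| / 2))) / L n) atTop (𝓝 0) :=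
    hL.const_div_atTop _
  have e1 := hD.eventually (gt_mem_nhds (show (0 : ℝ) < |w| / 2 by positivity))
  have e2 := hD'.eventually (gt_mem_nhds hε)
  have e3 := hL.eventually_ge_atTop |w|
  have e4 := hL.eventually_ge_atTop A
  filter_upwards [e1, e2, e3, e4] with n h1 h2 h3 h4 E hE
  have hLn : 0 < L n := by linarith [hL1 n]
  have habs : |w / L n| ≤ 1 := by
    rw [abs_div, abs_of_pos hLn, div_le_one hLn]
    exact h3
  have hE0 : 0 < E := lt_of_lt_of_le (by positivity) hE.1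
  have hEL : E ≤ L n := hE.2.trans h4
  rw [om_factor hLn hE0 hEL K, dist_eq_norm]
  have ha := norm_num_bound (hL1 n) habs hE0.le hE.2 hEL K
  have hb := norm_den_bound (hL1 n) habs hE0.le hE.2
  rw [← hD1] at ha
  rw [← hD2] at hb
  set a := ∑ j ∈ Finset.range K, (((1 - E / L n : ℝ) : ℂ) *
      Complex.exp (-(Complex.I * ((w / L n : ℝ) : ℂ)))) ^ j with hadef
  set b := (L n : ℂ) * (1 - ((1 - E / L n : ℝ) : ℂ) *
    Complex.exp (Complex.I * ((w / L n : ℝ) : ℂ))) with hbdef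
  set b' := (E : ℂ) - Complex.I * (w : ℂ) with hb'def
  have hb'1 : |w| ≤ ‖b'‖ := norm_lim_ge E w
  have hb1 : |w| / 2 ≤ ‖b‖ := by
    have h5 : ‖b'‖ ≤ ‖b‖ + ‖b - b'‖ := by
      have : b' = b - (b - b') := by ring
      calc ‖b'‖ = ‖b - (b - b')‖ := by rw [← this]
        _ ≤ ‖b‖ + ‖b - b'‖ := norm_sub_le _ _
    linarith
  have hb0 : 0 < ‖b‖ := by linarith [half_pos hw0]
  have hb'0 : 0 < ‖b'‖ := by linarith
  have hbne : b ≠ 0 := norm_pos_iff.1 hb0
  have hb'ne : b' ≠ 0 := norm_pos_iff.1 hb'0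
  have h6 : (K : ℂ) / b' - a / b = -((a - K) / b) + K * (b - b') / (b' * b) := by
    field_simp
    ring
  rw [h6]
  refine (norm_add_le _ _).trans_lt ?_
  simp only [norm_neg, norm_div, norm_mul]
  have h7 : ‖a - K‖ / ‖b‖ ≤ (D1 / L n) / (|w| / 2) :=
    div_le_div₀ (by positivity) ha (by positivity) hb1
  have hK : ‖(K : ℂ)‖ = K := by simp
  have h8 : ‖(K : ℂ)‖ * ‖b - b'‖ / (‖b'‖ * ‖b‖) ≤ (K * (D2 / L n)) / (|w| * (|w| / 2)) := by
    rw [hK]
    refine div_le_div₀ (by positivity) ?_ (by positivity) ?_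
    · exact mul_le_mul_of_nonneg_left hb (Nat.cast_nonneg K)
    · exact mul_le_mul hb'1 hb1 (by positivity) hb'0.le
  refine lt_of_le_of_lt (add_le_add h7 h8) ?_
  refine lt_of_le_of_lt (le_of_eq ?_) h2
  field_simp

theorem den_ge_mul {τ : ℝ} (h0 : 0 ≤ τ) (h1 : τ < 1) {θ : ℝ} (hθ : |θ| ≤ π) :
    (1 - τ) * (|θ| / (2 * π)) ≤ den τ θ := by
  have hpi := Real.pi_pos
  have h2 := den_ge_sq h0 θ
  have h3 := den_ge_theta h0 h1 hθ
  have h4 : (|θ| / (2 * π)) ^ 2 = θ ^ 2 / (4 * π ^ 2) := by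
    rw [div_pow, sq_abs]
    congr 1
    ring
  rw [← h4] at h3
  nlinarith [sq_nonneg ((1 - τ) - |θ| / (2 * π))]

theorem KL_of_T (hT : TStatement) : KLStatement := by
  intro V m c κ C k0 hS L hL1 hL K
  have hpi := Real.pi_pos
  filter_upwards [hT V m c κ C k0 hS L hL1 hL] with q hq hq0 w hw
  have hw0 : 0 < |w| := abs_pos.2 hw
  have hT' := hq hq0
  refine ⟨?_, ?_⟩
  · -- the causal kernel
    have h1 := hT' (fun n τ => (L n : ℂ)⁻¹ *
      ((1 - ((τ : ℂ) * Complex.exp (-(Complex.I * ((w / L n : ℝ) : ℂ)))) ^ K) /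
        (den τ (w / L n) : ℂ))) (fun E => (K : ℂ) / ((E : ℂ) - Complex.I * (w : ℂ))) K
      (fun n => ?_) (fun n τ h0 h1 => ?_) ?_ (fun A hA => tul_om hL1 hL hw K hA)
    · simp only [integral_const_mul] at h1
      rw [mul_div_assoc]
      exact h1
    · have := measurable_den (w / L n)
      refine Measurable.const_mul (Measurable.div ?_ (Complex.measurable_ofReal.comp this)) _
      exact ((Complex.measurable_ofReal.mul_const _).pow_const K).const_sub 1
    · have hLn : 0 < L n := by linarith [hL1 n]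
      have h1τ : 0 < 1 - τ := by linarith
      rw [norm_mul, norm_inv, Complex.norm_real, Real.norm_of_nonneg hLn.le]
      have h2 := norm_Om_integrand h0 h1 (w / L n) K
      have h3 : (K : ℝ) / Real.sqrt (den τ (w / L n)) ≤ K / (1 - τ) := by
        refine div_le_div_of_nonneg_left (Nat.cast_nonneg K) h1τ ?_
        refine Real.le_sqrt_of_sq_le (den_ge_sq h0 _)
      calc (L n)⁻¹ * _ ≤ (L n)⁻¹ * (K / (1 - τ)) :=
            mul_le_mul_of_nonneg_left (h2.trans h3) (by positivity)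
        _ = K / (L n * (1 - τ)) := by
            field_simp
    · refine ContinuousOn.div continuousOn_const (by fun_prop) fun E _ h => ?_
      have := norm_lim_ge E w
      rw [h, norm_zero] at this
      linarith
  · have h1 := hT' (fun n τ => if |w / L n| ≤ π then
        ((((L n) ^ 2 * den τ (w / L n))⁻¹ : ℝ) : ℂ) else 0)
      (fun E => (((E ^ 2 + w ^ 2)⁻¹ : ℝ) : ℂ)) (2 * π / |w|)
      (fun n => ?_) (fun n τ h0 h1 => ?_) ?_ (fun A hA => ?_)
    · have h2 : (κ : ℂ) * (((((c * |q|) ^ 2 + w ^ 2)⁻¹ : ℝ)) : ℂ) =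
          ((κ / (c ^ 2 * q ^ 2 + w ^ 2) : ℝ) : ℂ) := by
        rw [mul_pow, sq_abs]
        push_cast
        rw [div_eq_mul_inv]
      rw [h2] at h1
      have h3 := (Complex.continuous_re.tendsto _).comp h1
      rw [Complex.ofReal_re] at h3
      refine h3.congr' ?_
      filter_upwards [hL.eventually_ge_atTop |w|] with n hn
      have hLn : 0 < L n := by linarith [hL1 n]
      have habs : |w / L n| ≤ π := by
        rw [abs_div, abs_of_pos hLn]
        have : |w| / L n ≤ 1 := (div_le_one hLn).2 hn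
        linarith [Real.pi_gt_three]
      simp only [Function.comp_apply, if_pos habs]
      rw [integral_complex_ofReal, Complex.ofReal_re]
      unfold Psi
      rw [← integral_const_mul]
      refine integral_congr_ae (Eventually.of_forall fun τ => ?_)
      simp only [mul_inv, one_div]
    · have := measurable_den (w / L n)
      by_cases h : |w / L n| ≤ π
      · simp only [if_pos h]
        exact Complex.measurable_ofReal.comp (this.const_mul _).inv
      · simp only [if_neg h]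
        exact measurable_const
    · have hLn : 0 < L n := by linarith [hL1 n]
      have h1τ : 0 < 1 - τ := by linarith
      by_cases h : |w / L n| ≤ π
      · simp only [if_pos h]
        rw [Complex.norm_real, Real.norm_eq_abs, abs_inv,
          abs_of_pos (mul_pos (by positivity) (den_pos h0 h1 _))]
        have h4 := den_ge_mul h0 h1 h
        rw [abs_div, abs_of_pos hLn] at h4
        have h5 : 0 < (1 - τ) * (|w| / L n / (2 * π)) := by positivity
        calc ((L n) ^ 2 * den τ (w / L n))⁻¹ ≤ ((L n) ^ 2 * ((1 - τ) * (|w| / L n / (2 * π))))⁻¹ := by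
              refine inv_anti₀ (by positivity) ?_
              exact mul_le_mul_of_nonneg_left h4 (by positivity)
          _ = 2 * π / |w| / (L n * (1 - τ)) := by
              field_simp
      · simp only [if_neg h]
        rw [norm_zero]
        positivity
    · refine Continuous.continuousOn ?_
      refine Complex.continuous_ofReal.comp (Continuous.inv₀ (by fun_prop) fun E => ?_)
      positivity
    · refine (tul_psi hL1 hL hw hA).congr ?_
      filter_upwards [hL.eventually_ge_atTop |w|] with n hn E _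
      have hLn : 0 < L n := by linarith [hL1 n]
      have habs : |w / L n| ≤ π := by
        rw [abs_div, abs_of_pos hLn]
        have : |w| / L n ≤ 1 := (div_le_one hLn).2 hn
        linarith [Real.pi_gt_three]
      simp only [if_pos habs]

end Vale.Agent.P153.TwoPt
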