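import Vale.Agent.P153.TwoPt.Rho

/-!
# P153, two-point part: the scaling limit of integrals of numerators against the kernels
-/

open MeasureTheory ProbabilityTheory Filter Topology Set
open scoped ENNReal Real

namespace Vale.Agent.P153.TwoPt

theorem continuous_den : Continuous fun p : ℝ × ℝ => den p.1 p.2 := by
  unfold den
  fun_prop

theorem integral_inv_den {τ : ℝ} (h0 : 0 ≤ τ) (h1 : τ < 1) :
    ∫ θ in Icc (-π) π, 1 / den τ θ = 2 * π / (1 - τ ^ 2) := by
  have h := poisson h0 h1 0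
  simp only [Int.cast_zero, mul_zero, Complex.ofReal_zero, Complex.exp_zero, Int.natAbs_zero,
    pow_zero] at h
  have h2 : ∀ θ : ℝ, (1 : ℂ) / (den τ θ : ℂ) = ((1 / den τ θ : ℝ) : ℂ) := by
    intro θ
    push_cast
    rfl
  simp_rw [h2] at h
  rw [integral_complex_ofReal] at h
  have h3 := Complex.ofReal_injective h
  rw [h3]
  ring

theorem qmp_smul (c : ℝ) (hc : c ≠ 0) : Measure.QuasiMeasurePreserving
    (fun z : ℝ × ℝ => c • z) volume volume := by
  refine ⟨measurable_const_smul c, ?_⟩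
  have h := Measure.map_addHaar_smul (volume : Measure (ℝ × ℝ)) hc
  rw [h]
  exact Measure.smul_absolutelyContinuous

/-- the general kernel. -/
noncomputable def Rk (m : Kernel ℝ ℝ) (u : ℝ → ℝ → ℂ) (k θ : ℝ) : ℂ :=
  ∫ τ, u τ θ / (den τ θ : ℂ) ∂(m k)

/-- the inner integral over `θ`. -/
noncomputable def In (u : ℝ → ℝ → ℂ) (N : ℝ → ℝ → ℂ) (p : ℝ × ℝ) : ℂ :=
  ∫ θ in Icc (-π) π, N θ p.1 * (u p.2 θ / (den p.2 θ : ℂ))

section
variable {V : ℤ → ℤ → ℝ} {m : Kernel ℝ ℝ} {c κ C k0 : ℝ}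

theorem stronglyMeasurable_Rk [IsSFiniteKernel m] {u : ℝ → ℝ → ℂ}
    (hu : Measurable fun p : ℝ × ℝ => u p.1 p.2) :
    StronglyMeasurable fun p : ℝ × ℝ => Rk m u p.1 p.2 := by
  have hf : StronglyMeasurable fun q : (ℝ × ℝ) × ℝ => u q.2 q.1.2 / (den q.2 q.1.2 : ℂ) := by
    refine Measurable.stronglyMeasurable ?_
    have h1 : Measurable fun q : (ℝ × ℝ) × ℝ => (q.2, q.1.2) := by fun_prop
    have h2 : Measurable fun q : (ℝ × ℝ) × ℝ => u q.2 q.1.2 := hu.comp h1
    have h3 : Measurable fun q : (ℝ × ℝ) × ℝ => den q.2 q.1.2 :=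
      continuous_den.measurable.comp h1
    exact h2.div (Complex.measurable_ofReal.comp h3)
  have := hf.integral_kernel_prod_right' (κ := m.comap Prod.fst measurable_fst)
  exact this

theorem ae_int (h : Spec V m c κ C k0) : ∀ᵐ k ∂(volume.restrict (Icc (-π) π)),
    Integrable (fun τ : ℝ => 1 / (1 - τ ^ 2)) (m k) := by
  have := h.sfin
  have h1 := h.int1
  unfold rho at h1
  rw [Measure.integrable_compProd_iff h1.aestronglyMeasurable] at h1
  have h0 : ∀ᵐ k ∂(volume.restrict (Icc (-π) π)), k ≠ 0 := by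
    refine ae_restrict_of_ae ?_
    exact Measure.ae_ne volume 0
  filter_upwards [h1.1, ae_restrict_mem measurableSet_Icc, h0] with k hk1 hk2 hk3
  have hc : 0 < 1 - Real.cos k := by
    have h5 : Real.cos k ≠ 1 := by
      intro h6
      rw [Real.cos_eq_one_iff_of_lt_of_lt (by linarith [hk2.1, Real.pi_pos])
        (by linarith [hk2.2, Real.pi_pos])] at h6
      exact hk3 h6
    have h6 := Real.cos_le_one k
    exact sub_pos.2 (lt_of_le_of_ne h6 h5)
  have h7 := hk1.const_mul (1 - Real.cos k)⁻¹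
  refine h7.congr (Eventually.of_forall fun τ => ?_)
  simp only
  rw [← mul_assoc, inv_mul_cancel₀ hc.ne', one_mul]

theorem int_prod_den (k : ℝ) [SFinite (m k)] (hk : Integrable (fun τ : ℝ => 1 / (1 - τ ^ 2)) (m k))
    (hs : ∀ᵐ τ ∂(m k), 0 ≤ τ ∧ τ < 1) :
    Integrable (fun p : ℝ × ℝ => 1 / den p.1 p.2) ((m k).prod (volume.restrict (Icc (-π) π))) := by
  have hm : Measurable fun p : ℝ × ℝ => 1 / den p.1 p.2 :=
    measurable_const.div continuous_den.measurable
  rw [integrable_prod_iff hm.aestronglyMeasurable]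
  constructor
  · filter_upwards [hs] with τ hτ
    refine ContinuousOn.integrableOn_compact isCompact_Icc ?_
    refine Continuous.continuousOn ?_
    have h1 : Continuous fun θ => den τ θ := continuous_den.comp (by fun_prop : Continuous fun θ : ℝ => (τ, θ))
    exact continuous_const.div h1 fun θ => (den_pos hτ.1 hτ.2 θ).ne'
  · refine (hk.const_mul (2 * π)).congr ?_
    filter_upwards [hs] with τ hτ
    have h1 : ∀ θ : ℝ, ‖1 / den τ θ‖ = 1 / den τ θ := fun θ =>
      Real.norm_of_nonneg (by have := den_pos hτ.1 hτ.2 θ; positivity)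
    simp_rw [h1]
    rw [integral_inv_den hτ.1 hτ.2]
    ring

theorem swap (k : ℝ) [SFinite (m k)] (hk : Integrable (fun τ : ℝ => 1 / (1 - τ ^ 2)) (m k))
    (hs : ∀ᵐ τ ∂(m k), 0 ≤ τ ∧ τ < 1) {u : ℝ → ℝ → ℂ} {N : ℝ → ℝ → ℂ}
    (hu : Measurable fun p : ℝ × ℝ => u p.1 p.2) {U B : ℝ}
    (hU : ∀ τ θ, 0 ≤ τ → τ < 1 → ‖u τ θ‖ ≤ U) (hN : Continuous fun p : ℝ × ℝ => N p.1 p.2)
    (hB : ∀ θ ∈ Icc (-π) π, ‖N θ k‖ ≤ B) :
    ∫ τ, In u N (k, τ) ∂(m k) = ∫ θ in Icc (-π) π, N θ k * Rk m u k θ := by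
  unfold In Rk
  have hmeas : Measurable fun p : ℝ × ℝ => N p.2 k * (u p.1 p.2 / (den p.1 p.2 : ℂ)) := by
    have h1 : Measurable fun p : ℝ × ℝ => N p.2 k :=
      hN.measurable.comp (by fun_prop : Measurable fun p : ℝ × ℝ => (p.2, k))
    exact h1.mul (hu.div (Complex.measurable_ofReal.comp continuous_den.measurable))
  have hint : Integrable (fun p : ℝ × ℝ => N p.2 k * (u p.1 p.2 / (den p.1 p.2 : ℂ)))
      ((m k).prod (volume.restrict (Icc (-π) π))) := by
    refine Integrable.mono' ((int_prod_den k hk hs).const_mul (B * U))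
      hmeas.aestronglyMeasurable ?_
    have h1 : ∀ᵐ p ∂((m k).prod (volume.restrict (Icc (-π) π))), 0 ≤ p.1 ∧ p.1 < 1 :=
      Measure.quasiMeasurePreserving_fst.ae hs
    have h2 : ∀ᵐ p ∂((m k).prod (volume.restrict (Icc (-π) π))), p.2 ∈ Icc (-π) π :=
      Measure.quasiMeasurePreserving_snd.ae (ae_restrict_mem measurableSet_Icc)
    filter_upwards [h1, h2] with p hp1 hp2
    have h3 := den_pos hp1.1 hp1.2 p.2
    rw [norm_mul, norm_div, Complex.norm_real, Real.norm_of_nonneg h3.le]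
    have h4 := hU p.1 p.2 hp1.1 hp1.2
    have h5 := hB p.2 hp2
    have hB0 := (norm_nonneg _).trans h5
    rw [mul_assoc, mul_one_div]
    gcongr
  rw [integral_integral_swap hint]
  refine integral_congr_ae (Eventually.of_forall fun θ => ?_)
  simp only
  rw [integral_const_mul]

theorem norm_In_le {u : ℝ → ℝ → ℂ} {N : ℝ → ℝ → ℂ} {U B : ℝ}
    (hU : ∀ τ θ, 0 ≤ τ → τ < 1 → ‖u τ θ‖ ≤ U) {p : ℝ × ℝ} (hp : 0 ≤ p.2 ∧ p.2 < 1)
    (hB : ∀ θ ∈ Icc (-π) π, ‖N θ p.1‖ ≤ B) :
    ‖In u N p‖ ≤ B * U * (2 * π) * (1 / (1 - p.2 ^ 2)) := by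
  unfold In
  have h1 : Continuous fun θ => den p.2 θ :=
    continuous_den.comp (by fun_prop : Continuous fun θ : ℝ => (p.2, θ))
  have h2 : IntegrableOn (fun θ => B * U * (1 / den p.2 θ)) (Icc (-π) π) :=
    ((continuous_const.mul (continuous_const.div h1 fun θ =>
      (den_pos hp.1 hp.2 θ).ne')).continuousOn).integrableOn_compact isCompact_Icc
  refine (norm_integral_le_of_norm_le h2 ?_).trans ?_
  · filter_upwards [ae_restrict_mem measurableSet_Icc] with θ hθ
    have h3 := den_pos hp.1 hp.2 θ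
    rw [norm_mul, norm_div, Complex.norm_real, Real.norm_of_nonneg h3.le]
    have h4 := hU p.2 θ hp.1 hp.2
    have h5 := hB θ hθ
    have hB0 := (norm_nonneg _).trans h5
    rw [mul_assoc, mul_one_div]
    gcongr
  · rw [integral_const_mul, integral_inv_den hp.1 hp.2]
    exact le_of_eq (by ring)

/-- The general limit. -/
theorem nearFar (h : Spec V m c κ C k0) {u : ℝ → ℝ → ℂ}
    (hu : Measurable fun p : ℝ × ℝ => u p.1 p.2) {U : ℝ}
    (hU : ∀ τ θ, 0 ≤ τ → τ < 1 → ‖u τ θ‖ ≤ U) (L : ℕ → ℝ) (hL : ∀ n, 1 ≤ L n)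
    (N : ℕ → ℝ → ℝ → ℂ) (hN : ∀ n, Continuous fun p : ℝ × ℝ => N n p.1 p.2)
    (hI : ∀ n, Integrable (In u (N n)) (rho m)) (b : ℕ → ℝ) (hb : Tendsto b atTop (𝓝 0))
    (hfar : ∀ n, ∀ θ ∈ Icc (-π) π, ∀ k ∈ Icc (-π) π, k0 ≤ |k| → ‖N n θ k‖ ≤ b n)
    (D : ℝ × ℝ → ℝ) (hD : Integrable D)
    (hdom : ∀ n, ∀ᵐ z : ℝ × ℝ, |z.2| < k0 * L n → |z.1| ≤ π * L n →
      ((L n) ^ 2)⁻¹ * (‖N n (z.1 / L n) (z.2 / L n)‖ * ‖Rk m u (z.2 / L n) (z.1 / L n)‖) ≤ D z)
    (hLt : Tendsto L atTop atTop)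
    (Lim : ℝ × ℝ → ℂ)
    (hlim : ∀ᵐ z : ℝ × ℝ, Tendsto (fun n => (((L n) ^ 2)⁻¹ : ℂ) *
      (N n (z.1 / L n) (z.2 / L n) * Rk m u (z.2 / L n) (z.1 / L n))) atTop (𝓝 (Lim z))) :
    Tendsto (fun n => ∫ p, In u (N n) p ∂(rho m)) atTop (𝓝 (∫ z, Lim z)) := by
  have := h.sfin
  have hpi := Real.pi_pos
  have hk0 := h.k0_pos
  have hk1 := h.k0_le
  have hset : MeasurableSet {p : ℝ × ℝ | k0 ≤ |p.1|} :=
    measurableSet_le measurable_const (by fun_prop)
  -- far part
  have hfar' : Tendsto (fun n => ∫ p in {p : ℝ × ℝ | k0 ≤ |p.1|}, In u (N n) p ∂(rho m)) atTop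
      (𝓝 0) := by
    set J : ℝ := ∫ p in {p : ℝ × ℝ | k0 ≤ |p.1|}, 1 / (1 - p.2 ^ 2) ∂(rho m) with hJ
    have h2 : Tendsto (fun n => b n * U * (2 * π) * J) atTop (𝓝 0) := by
      have := ((hb.mul_const U).mul_const (2 * π)).mul_const J
      simpa using this
    refine squeeze_zero_norm (fun n => ?_) h2
    rw [hJ, ← integral_const_mul]
    refine norm_integral_le_of_norm_le (h.int_far.const_mul _) ?_
    filter_upwards [ae_restrict_mem hset, ae_restrict_of_ae h.ae_supp, ae_restrict_of_ae h.ae_mem]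
      with p hp1 hp2 hp3
    exact norm_In_le hU hp2 fun θ hθ => hfar n θ hθ p.1 hp3 hp1
  -- near part
  have hcompl : {p : ℝ × ℝ | k0 ≤ |p.1|}ᶜ = Ioo (-k0) k0 ×ˢ univ := by
    ext p
    simp [abs_lt]
  have hsub : Ioo (-k0) k0 ⊆ Icc (-π) π := fun x hx =>
    ⟨by linarith [hx.1, Real.pi_gt_three], by linarith [hx.2, Real.pi_gt_three]⟩
  have hRm := stronglyMeasurable_Rk (m := m) hu
  set F : ℕ → ℝ × ℝ → ℂ := fun n z => N n z.1 z.2 * Rk m u z.2 z.1 with hF
  have hFm : ∀ n, AEStronglyMeasurable (F n) volume := by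
    intro n
    have h1 : Measurable fun z : ℝ × ℝ => Rk m u z.2 z.1 :=
      hRm.measurable.comp (by fun_prop : Measurable fun z : ℝ × ℝ => (z.2, z.1))
    exact ((hN n).measurable.mul h1).aestronglyMeasurable
  set A : Set (ℝ × ℝ) := Icc (-π) π ×ˢ Ioo (-k0) k0 with hA
  have hAm : MeasurableSet A := measurableSet_Icc.prod measurableSet_Ioo
  have hscale : ∀ n, ∀ᵐ z : ℝ × ℝ, z ∈ A → ‖F n z‖ ≤ (L n) ^ 2 * D (L n • z) := by
    intro n
    have hL0 : 0 < L n := by linarith [hL n]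
    have h1 : ∀ᵐ z : ℝ × ℝ, |(L n • z).2| < k0 * L n → |(L n • z).1| ≤ π * L n →
      ((L n) ^ 2)⁻¹ * (‖N n ((L n • z).1 / L n) ((L n • z).2 / L n)‖ *
        ‖Rk m u ((L n • z).2 / L n) ((L n • z).1 / L n)‖) ≤ D (L n • z) :=
      (qmp_smul (L n) hL0.ne').ae (hdom n)
    filter_upwards [h1] with z hz hzA
    have h2 : (L n • z).1 / L n = z.1 := by
      simp only [Prod.smul_fst, smul_eq_mul]
      field_simp
    have h3 : (L n • z).2 / L n = z.2 := by
      simp only [Prod.smul_snd, smul_eq_mul]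
      field_simp
    rw [h2, h3] at hz
    have h4 := hz (by
      simp only [Prod.smul_snd, smul_eq_mul, abs_mul, abs_of_pos hL0]
      rw [mul_comm]
      have := abs_lt.2 hzA.2
      gcongr) (by
      simp only [Prod.smul_fst, smul_eq_mul, abs_mul, abs_of_pos hL0]
      rw [mul_comm]
      have := abs_le.2 hzA.1
      gcongr)
    rw [hF]
    simp only
    rw [norm_mul]
    rw [inv_mul_le_iff₀ (by positivity)] at h4
    exact h4
  have hFint : ∀ n, IntegrableOn (F n) A := by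
    intro n
    have hL0 : 0 < L n := by linarith [hL n]
    have h1 : Integrable (fun z : ℝ × ℝ => (L n) ^ 2 * D (L n • z)) :=
      ((integrable_comp_smul_iff volume D hL0.ne').2 hD).const_mul _
    refine Integrable.mono' h1.integrableOn (hFm n).restrict ?_
    exact (ae_restrict_iff' hAm).2 (hscale n)
  have hnear : ∀ n, ∫ p in {p : ℝ × ℝ | k0 ≤ |p.1|}ᶜ, In u (N n) p ∂(rho m) =
      ∫ z in A, F n z := by
    intro n
    rw [hcompl]
    have h1 : ∫ p in Ioo (-k0) k0 ×ˢ univ, In u (N n) p ∂(rho m) =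
        ∫ k in Ioo (-k0) k0, ∫ τ, In u (N n) (k, τ) ∂(m k) ∂(volume.restrict (Icc (-π) π)) := by
      unfold rho
      rw [Measure.setIntegral_compProd measurableSet_Ioo MeasurableSet.univ]
      · simp
      · have := hI n
        unfold rho at this
        exact this.integrableOn
    rw [h1, Measure.restrict_restrict measurableSet_Ioo, inter_eq_left.2 hsub]
    have h2 : ∫ k in Ioo (-k0) k0, ∫ τ, In u (N n) (k, τ) ∂(m k) =
        ∫ k in Ioo (-k0) k0, ∫ θ in Icc (-π) π, F n (θ, k) := by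
      refine integral_congr_ae ?_
      have h3 := ae_restrict_of_ae_restrict_of_subset hsub (ae_int h)
      filter_upwards [h3, ae_restrict_of_ae h.supp] with k hk1 hk2
      obtain ⟨B, hB⟩ := (isCompact_Icc (a := -π) (b := π)).exists_bound_of_continuousOn
        (f := fun θ => N n θ k) ((hN n).comp (by fun_prop : Continuous fun θ : ℝ => (θ, k))).continuousOn
      exact swap k hk1 hk2 hu hU (hN n) hB
    rw [h2]
    have h4 := setIntegral_prod (μ := (volume : Measure ℝ)) (ν := (volume : Measure ℝ))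
      (fun z : ℝ × ℝ => F n z) (s := Icc (-π) π) (t := Ioo (-k0) k0) (hFint n)
    rw [hA, Measure.volume_eq_prod, h4]
    refine (integral_integral_swap ?_).symm
    have h5 := hFint n
    rw [hA, IntegrableOn, Measure.volume_eq_prod, ← Measure.prod_restrict] at h5
    exact h5
  have hnear2 : ∀ n, ∫ z in A, F n z =
      ∫ z, (((L n) ^ 2)⁻¹ : ℂ) * A.indicator (F n) ((L n)⁻¹ • z) := by
    intro n
    have hL0 : 0 < L n := by linarith [hL n]
    rw [integral_const_mul, Measure.integral_comp_inv_smul, ← integral_indicator hAm]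
    rw [Module.finrank_prod, Module.finrank_self]
    rw [abs_of_pos (by positivity), Complex.real_smul, ← mul_assoc]
    rw [show (((L n) ^ (1 + 1) : ℝ) : ℂ) = ((L n : ℂ)) ^ 2 by push_cast; ring]
    rw [inv_mul_cancel₀ (by
      have : (L n : ℂ) ≠ 0 := by exact_mod_cast hL0.ne'
      positivity), one_mul]
  have hnearlim : Tendsto (fun n => ∫ z, (((L n) ^ 2)⁻¹ : ℂ) * A.indicator (F n) ((L n)⁻¹ • z))
      atTop (𝓝 (∫ z, Lim z)) := by
    refine tendsto_integral_of_dominated_convergence (fun z => ‖D z‖) ?_ hD.norm ?_ ?_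
    · intro n
      have hL0 : 0 < L n := by linarith [hL n]
      have h1 : AEStronglyMeasurable (A.indicator (F n)) volume := (hFm n).indicator hAm
      have h2 := h1.comp_quasiMeasurePreserving (qmp_smul (L n)⁻¹ (inv_ne_zero hL0.ne'))
      exact h2.const_mul _
    · intro n
      have hL0 : 0 < L n := by linarith [hL n]
      filter_upwards [hdom n] with z hz
      by_cases hzA : (L n)⁻¹ • z ∈ A
      · rw [indicator_of_mem hzA]
        have h6 := hzA.1
        have h7 := hzA.2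
        simp only [Prod.smul_fst, Prod.smul_snd, smul_eq_mul] at h6 h7
        have h8 : |z.2| < k0 * L n := by
          have := abs_lt.2 h7
          rw [abs_mul, abs_of_pos (inv_pos.2 hL0), inv_mul_lt_iff₀ hL0] at this
          linarith
        have h9 : |z.1| ≤ π * L n := by
          have := abs_le.2 h6
          rw [abs_mul, abs_of_pos (inv_pos.2 hL0), inv_mul_le_iff₀ hL0] at this
          linarith
        have h10 := hz h8 h9
        rw [hF]
        simp only [Prod.smul_fst, Prod.smul_snd, smul_eq_mul]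
        rw [norm_mul, norm_mul, inv_mul_eq_div (L n) z.1, inv_mul_eq_div (L n) z.2]
        have h11 : ‖(((L n) ^ 2)⁻¹ : ℂ)‖ = ((L n) ^ 2)⁻¹ := by
          rw [norm_inv, norm_pow, Complex.norm_real, Real.norm_of_nonneg hL0.le]
        rw [h11]
        exact h10.trans (Real.le_norm_self _)
      · rw [indicator_of_notMem hzA]
        simp
    · filter_upwards [hlim] with z hz
      refine hz.congr' ?_
      have h6 : ∀ᶠ n in atTop, |z.2| < k0 * L n := by
        have := (hLt.const_mul_atTop hk0).eventually_gt_atTop (|z.2|)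
        exact this
      have h7 : ∀ᶠ n in atTop, |z.1| < π * L n :=
        (hLt.const_mul_atTop hpi).eventually_gt_atTop (|z.1|)
      filter_upwards [h6, h7] with n hn1 hn2
      have hL0 : 0 < L n := by linarith [hL n]
      have hzA : (L n)⁻¹ • z ∈ A := by
        refine ⟨?_, ?_⟩
        · simp only [Prod.smul_fst, smul_eq_mul]
          refine abs_le.1 ?_
          rw [abs_mul, abs_of_pos (inv_pos.2 hL0), inv_mul_le_iff₀ hL0]
          linarith
        · simp only [Prod.smul_snd, smul_eq_mul]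
          refine abs_lt.1 ?_
          rw [abs_mul, abs_of_pos (inv_pos.2 hL0), inv_mul_lt_iff₀ hL0]
          linarith
      rw [indicator_of_mem hzA, hF]
      simp only [Prod.smul_fst, Prod.smul_snd, smul_eq_mul]
      rw [inv_mul_eq_div (L n) z.1, inv_mul_eq_div (L n) z.2]
  have htot : ∀ n, ∫ p, In u (N n) p ∂(rho m) =
      ∫ p in {p : ℝ × ℝ | k0 ≤ |p.1|}, In u (N n) p ∂(rho m) +
      ∫ z, (((L n) ^ 2)⁻¹ : ℂ) * A.indicator (F n) ((L n)⁻¹ • z) := by
    intro n
    rw [← hnear2 n, ← hnear n, integral_add_compl hset (hI n)]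
  simp_rw [htot]
  have := hfar'.add hnearlim
  rw [zero_add] at this
  exact this

end

end Vale.Agent.P153.TwoPt
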