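import Vale.Agent.P153.TwoPt.Hat
import Vale.Agent.P153.TwoPt.Riemann

/-!
# P153, two-point part: bounds and limit of the discrete Fourier transform of the weights
-/

open MeasureTheory ProbabilityTheory Filter Topology Set
open scoped ENNReal Real

namespace Vale.Agent.P153.TwoPt

/-- the box of lattice points with coordinates at most `T`. -/
noncomputable def bx (T : ℝ) : Finset (ℤ × ℤ) := Finset.Icc (-⌊T⌋) ⌊T⌋ ×ˢ Finset.Icc (-⌊T⌋) ⌊T⌋

theorem mem_bx {T : ℝ} {p : ℤ × ℤ} : p ∈ bx T ↔ |(p.1 : ℝ)| ≤ T ∧ |(p.2 : ℝ)| ≤ T := by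
  unfold bx
  rw [Finset.mem_product, Finset.mem_Icc, Finset.mem_Icc, abs_le, abs_le]
  have key : ∀ x : ℤ, (-⌊T⌋ ≤ x ∧ x ≤ ⌊T⌋) ↔ (-T ≤ (x : ℝ) ∧ (x : ℝ) ≤ T) := by
    intro x
    rw [Int.le_floor, neg_le, Int.le_floor, Int.cast_neg, neg_le]
  rw [key, key]

theorem card_bx {T : ℝ} (hT : 0 ≤ T) : ((bx T).card : ℝ) ≤ (2 * T + 1) ^ 2 := by
  unfold bx
  rw [Finset.card_product, Int.card_Icc]
  have h1 : 0 ≤ ⌊T⌋ := Int.floor_nonneg.2 hT
  have h2 : ((⌊T⌋ + 1 - -⌊T⌋).toNat : ℝ) = 2 * ⌊T⌋ + 1 := by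
    have : ((⌊T⌋ + 1 - -⌊T⌋).toNat : ℤ) = 2 * ⌊T⌋ + 1 := by omega
    exact_mod_cast this
  push_cast
  rw [h2, ← sq]
  have h3 := Int.floor_le T
  have h4 : (0 : ℝ) ≤ ⌊T⌋ := by exact_mod_cast h1
  gcongr

theorem card_bx' {A L : ℝ} (hA : 0 ≤ A) (hL : 1 ≤ L) :
    ((bx (A * L)).card : ℝ) ≤ (2 * A + 1) ^ 2 * L ^ 2 := by
  refine (card_bx (by positivity)).trans ?_
  rw [← mul_pow]
  refine pow_le_pow_left₀ (by positivity) ?_ 2
  nlinarith

section
variable {f : ℝ × ℝ → ℝ} {L : ℕ → ℝ} {a : ℕ → ℤ → ℤ → ℝ} {M : ℝ}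

theorem Disc.sup (h : Disc f L a M) {A : ℝ} (hA : M ≤ A) (n : ℕ) : Sup (a n) (bx (A * L n)) := by
  intro p hp
  rw [mem_bx, not_and_or, not_le, not_le] at hp
  have hL := h.L_pos n
  refine h.supp n p.1 p.2 ?_
  rcases hp with hp | hp
  · left
    exact lt_of_le_of_lt (by gcongr) hp
  · right
    exact lt_of_le_of_lt (by gcongr) hp

theorem Disc.sum_zero' (h : Disc f L a M) {A : ℝ} (hA : M ≤ A) (n : ℕ) :
    ∑ p ∈ bx (A * L n), a n p.1 p.2 = 0 := by
  rw [← h.sum_zero n]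
  refine (finsum_eq_sum_of_support_subset _ ?_).symm
  intro p hp
  by_contra h2
  exact hp (h.sup hA n p h2)

theorem Disc.bound (h : Disc f L a M) : ∃ B > 0, ∀ᶠ n in atTop, ∀ j x, |a n j x| ≤ B / L n ^ 2 := by
  obtain ⟨Cf, hCf⟩ := h.f_supp.exists_bound_of_continuous h.f_cont
  have hC0 : 0 ≤ Cf := (norm_nonneg _).trans (hCf 0)
  refine ⟨Cf + 1, by positivity, ?_⟩
  filter_upwards [h.close 1 one_pos] with n hn j x
  have hL : 0 < L n := by linarith [h.L_pos n]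
  rw [le_div_iff₀ (by positivity)]
  have h1 := hn j x
  have h2 := hCf (j / L n, x / L n)
  rw [Real.norm_eq_abs] at h2
  have h3 : |L n ^ 2 * a n j x| ≤ Cf + 1 := by
    have := abs_sub_abs_le_abs_sub (L n ^ 2 * a n j x) (f (j / L n, x / L n))
    linarith
  rw [abs_mul, abs_of_pos (by positivity)] at h3
  linarith

theorem Disc.hat_bounds (h : Disc f L a M) : ∃ C1 > 0, ∀ᶠ n in atTop, ∀ θ k : ℝ, |θ| ≤ π →
    |k| ≤ π → ‖hat (a n) θ k‖ ≤ C1 * L n * (|θ| + |k|) ∧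
    ‖hat (a n) θ k‖ * (L n ^ 2 * θ ^ 2) ≤ C1 ∧ ‖hat (a n) θ k‖ * (L n ^ 2 * k ^ 2) ≤ C1 := by
  obtain ⟨B, hB, hb⟩ := h.bound
  have hM := h.M_pos
  have hpi := Real.pi_pos
  set C1 : ℝ := (2 * M + 1) ^ 2 * B * M + π ^ 2 / 4 * ((2 * (M + 1) + 1) ^ 2 * M) with hC1
  refine ⟨C1, by positivity, ?_⟩
  filter_upwards [hb] with n hn θ k hθ hk
  have hL1 := h.L_pos n
  have hL : 0 < L n := by linarith
  have hdiff : ∀ (x : ℝ), |x| ≤ π → ∀ b : ℤ → ℤ → ℝ, (∀ j x, |b j x| ≤ M / L n ^ 4) →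
      Sup b (bx ((M + 1) * L n)) → hat b θ k = -((2 - 2 * Real.cos x : ℝ) : ℂ) * hat (a n) θ k →
      ‖hat (a n) θ k‖ * (L n ^ 2 * x ^ 2) ≤ C1 := by
    intro x hx b hb1 hb2 hb3
    have h1 := norm_hat_le hb2 hb1 θ k
    have h2 := card_bx' (A := M + 1) (by positivity) hL1
    have h3 : ‖hat b θ k‖ ≤ (2 * (M + 1) + 1) ^ 2 * M / L n ^ 2 := by
      refine h1.trans ?_
      calc ((bx ((M + 1) * L n)).card : ℝ) * (M / L n ^ 4)
          ≤ ((2 * (M + 1) + 1) ^ 2 * L n ^ 2) * (M / L n ^ 4) := by gcongr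
        _ = _ := by
          field_simp
    have h4 := two_sub_cos_ge x hx
    have h5 : 0 ≤ 2 - 2 * Real.cos x := by linarith [Real.cos_le_one x]
    rw [hb3, norm_mul, norm_neg, Complex.norm_real, Real.norm_of_nonneg h5,
      le_div_iff₀ (by positivity)] at h3
    have h6 : ‖hat (a n) θ k‖ * (L n ^ 2 * x ^ 2) ≤ π ^ 2 / 4 * ((2 * (M + 1) + 1) ^ 2 * M) := by
      calc ‖hat (a n) θ k‖ * (L n ^ 2 * x ^ 2)
          = π ^ 2 / 4 * ((4 / π ^ 2 * x ^ 2) * ‖hat (a n) θ k‖ * L n ^ 2) := by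
            field_simp
        _ ≤ π ^ 2 / 4 * ((2 - 2 * Real.cos x) * ‖hat (a n) θ k‖ * L n ^ 2) := by gcongr
        _ ≤ _ := by gcongr
    have h7 : 0 ≤ (2 * M + 1) ^ 2 * B * M := by positivity
    rw [hC1]
    linarith
  have hsup := h.sup (le_refl M) n
  have hsup1 : Sup (fun j x => a n (j + 1) x - 2 * a n j x + a n (j - 1) x) (bx ((M + 1) * L n)) := by
    intro p hp
    have hout : ∀ q : ℤ × ℤ, |q.1 - p.1| ≤ 1 → q.2 = p.2 → a n q.1 q.2 = 0 := by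
      intro q hq1 hq2
      refine h.supp n _ _ ?_
      rw [mem_bx, not_and_or, not_le, not_le] at hp
      have hq3 : |(q.1 : ℝ) - p.1| ≤ 1 := by exact_mod_cast hq1
      rcases hp with hp | hp
      · left
        have := abs_sub_abs_le_abs_sub (p.1 : ℝ) (q.1 : ℝ)
        rw [abs_sub_comm] at this
        nlinarith
      · right
        rw [hq2]
        nlinarith
    have h1 := hout (p.1 + 1, p.2) (by simp) rfl
    have h2 := hout (p.1, p.2) (by simp) rfl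
    have h3 := hout (p.1 - 1, p.2) (by simp) rfl
    simp only at h1 h2 h3
    simp only [h1, h2, h3]
    ring
  have hsup2 : Sup (fun j x => a n j (x + 1) - 2 * a n j x + a n j (x - 1)) (bx ((M + 1) * L n)) := by
    intro p hp
    have hout : ∀ q : ℤ × ℤ, |q.2 - p.2| ≤ 1 → q.1 = p.1 → a n q.1 q.2 = 0 := by
      intro q hq1 hq2
      refine h.supp n _ _ ?_
      rw [mem_bx, not_and_or, not_le, not_le] at hp
      have hq3 : |(q.2 : ℝ) - p.2| ≤ 1 := by exact_mod_cast hq1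
      rcases hp with hp | hp
      · left
        rw [hq2]
        nlinarith
      · right
        have := abs_sub_abs_le_abs_sub (p.2 : ℝ) (q.2 : ℝ)
        rw [abs_sub_comm] at this
        nlinarith
    have h1 := hout (p.1, p.2 + 1) (by simp) rfl
    have h2 := hout (p.1, p.2) (by simp) rfl
    have h3 := hout (p.1, p.2 - 1) (by simp) rfl
    simp only at h1 h2 h3
    simp only [h1, h2, h3]
    ring
  refine ⟨?_, ?_, ?_⟩
  · have h1 := norm_hat_le' hsup hn (h.sum_zero' (le_refl M) n)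
      (fun p hp => mem_bx.1 hp) θ k
    refine h1.trans ?_
    have h2 := card_bx' (A := M) hM.le hL1
    calc ((bx (M * L n)).card : ℝ) * (B / L n ^ 2) * (M * L n) * (|θ| + |k|)
        ≤ ((2 * M + 1) ^ 2 * L n ^ 2) * (B / L n ^ 2) * (M * L n) * (|θ| + |k|) := by gcongr
      _ = ((2 * M + 1) ^ 2 * B * M) * L n * (|θ| + |k|) := by
        field_simp
      _ ≤ C1 * L n * (|θ| + |k|) := by
        have : (2 * M + 1) ^ 2 * B * M ≤ C1 := by
          rw [hC1]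
          have : 0 ≤ π ^ 2 / 4 * ((2 * (M + 1) + 1) ^ 2 * M) := by positivity
          linarith
        gcongr
  · exact hdiff θ hθ _ (h.diff1 n) hsup1 (hat_diff1 hsup θ k)
  · exact hdiff k hk _ (h.diff2 n) hsup2 (hat_diff2 hsup θ k)

/-- elementary decay. -/
theorem decay {b w q C1 : ℝ} (hb : 0 ≤ b) (h1 : b ≤ C1 * (|w| + |q|))
    (h2 : b * w ^ 2 ≤ C1) (h3 : b * q ^ 2 ≤ C1) :
    b ^ 2 * (1 + (w ^ 2 + q ^ 2)) ^ 3 ≤ 24 * C1 ^ 2 * (w ^ 2 + q ^ 2) := by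
  set s := w ^ 2 + q ^ 2 with hs
  have hs0 : 0 ≤ s := by positivity
  have h4 : b * s ≤ 2 * C1 := by rw [hs]; linarith
  have h5 : b ^ 2 ≤ 2 * C1 ^ 2 * s := by
    have h6 : b ^ 2 ≤ (C1 * (|w| + |q|)) ^ 2 := pow_le_pow_left₀ hb h1 2
    have h7 : (|w| + |q|) ^ 2 ≤ 2 * s := by
      rw [hs, ← sq_abs w, ← sq_abs q]
      nlinarith [sq_nonneg (|w| - |q|)]
    calc b ^ 2 ≤ (C1 * (|w| + |q|)) ^ 2 := h6
      _ = C1 ^ 2 * (|w| + |q|) ^ 2 := by ring
      _ ≤ C1 ^ 2 * (2 * s) := by gcongr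
      _ = _ := by ring
  have h8 : (b * s) ^ 2 ≤ (2 * C1) ^ 2 := pow_le_pow_left₀ (by positivity) h4 2
  have h9 : (1 + s) ^ 3 ≤ 4 * (1 + s ^ 3) := by nlinarith [mul_nonneg hs0 (sq_nonneg (s - 1)), sq_nonneg (s - 1)]
  calc b ^ 2 * (1 + s) ^ 3 ≤ b ^ 2 * (4 * (1 + s ^ 3)) := by gcongr
    _ = 4 * b ^ 2 + 4 * ((b * s) ^ 2 * s) := by ring
    _ ≤ 4 * (2 * C1 ^ 2 * s) + 4 * ((2 * C1) ^ 2 * s) := by gcongr
    _ = _ := by ring

theorem norm_sq_le (z : ℝ × ℝ) : ‖z‖ ^ 2 ≤ z.1 ^ 2 + z.2 ^ 2 := by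
  rw [Prod.norm_def]
  rcases max_cases ‖z.1‖ ‖z.2‖ with h | h
  · rw [h.1, Real.norm_eq_abs, sq_abs]
    nlinarith [sq_nonneg z.2]
  · rw [h.1, Real.norm_eq_abs, sq_abs]
    nlinarith [sq_nonneg z.1]

theorem integrable_dom : Integrable fun z : ℝ × ℝ => (1 + ‖z‖ ^ 2) ^ (-(3 : ℝ) / 2) := by
  refine integrable_rpow_neg_one_add_norm_sq ?_
  rw [Module.finrank_prod, Module.finrank_self]
  norm_num

theorem hat_lim (h : Disc f L a M) (w q : ℝ) :
    Tendsto (fun n => hat (a n) (w / L n) (q / L n)) atTop (𝓝 (FT f w q)) := by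
  set F : ℝ × ℝ → ℂ := fun z => (f z : ℂ) * Complex.exp (Complex.I * ((w * z.1 + q * z.2 : ℝ) : ℂ))
    with hF
  have hFc : Continuous F := by
    have := h.f_cont
    rw [hF]
    fun_prop
  have hFs : HasCompactSupport F := by
    rw [hF]
    exact (h.f_supp.comp_left (g := fun x : ℝ => (x : ℂ)) (by simp)).mul_right
  obtain ⟨R, hR⟩ := h.f_supp.isCompact.isBounded.subset_closedBall (0 : ℝ × ℝ)
  have hM := h.M_pos
  set A : ℝ := max M R with hA
  have hMA : M ≤ A := le_max_left _ _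
  have hRA : R ≤ A := le_max_right _ _
  have hA0 : 0 < A := by linarith
  have hout : ∀ n, ∀ p : ℤ × ℤ, p ∉ bx (A * L n) → f (p.1 / L n, p.2 / L n) = 0 := by
    intro n p hp
    have hL : 0 < L n := by linarith [h.L_pos n]
    by_contra hne
    have h1 := hR (subset_tsupport _ (Function.mem_support.2 hne))
    rw [mem_closedBall_zero_iff, Prod.norm_def] at h1
    refine hp (mem_bx.2 ?_)
    have h2 := (le_max_left _ _).trans h1
    have h3 := (le_max_right _ _).trans h1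
    simp only [Real.norm_eq_abs, abs_div, abs_of_pos hL] at h2 h3
    rw [div_le_iff₀ hL] at h2 h3
    exact ⟨h2.trans (by gcongr), h3.trans (by gcongr)⟩
  have hLi : Tendsto (fun n => 1 / L n) atTop (𝓝 0) := by
    simp_rw [one_div]
    exact h.L_top.inv_tendsto_atTop
  have hr := riemann2 F hFc hFs (fun n => 1 / L n) (fun n => 1 / L n)
    (fun n => by have := h.L_pos n; positivity) (fun n => by have := h.L_pos n; positivity) hLi hLi
    (fun n => bx (A * L n)) (fun n p hp => by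
      rw [hF]
      simp only [mul_one_div]
      rw [hout n p hp]
      simp)
  have hFT : ∫ z, F z = FT f w q := rfl
  rw [hFT] at hr
  refine tendsto_of_tendsto_of_dist hr ?_
  rw [Metric.tendsto_atTop]
  intro ε hε
  set D : ℝ := (2 * A + 1) ^ 2 with hD
  have hD0 : 0 < D := by positivity
  obtain ⟨n0, hn0⟩ := eventually_atTop.1 (h.close (ε / (2 * D)) (by positivity))
  refine ⟨n0, fun n hn => ?_⟩
  have hL1 := h.L_pos n
  have hL : 0 < L n := by linarith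
  rw [Real.dist_eq, sub_zero, abs_of_nonneg dist_nonneg, dist_comm, dist_eq_norm,
    hat_eq (h.sup hMA n), Finset.smul_sum, ← Finset.sum_sub_distrib]
  have hterm : ∀ p ∈ bx (A * L n), ‖(a n p.1 p.2 : ℂ) * chr (w / L n) (q / L n) p -
      (1 / L n * (1 / L n)) • F (p.1 * (1 / L n), p.2 * (1 / L n))‖ ≤ ε / (2 * D) / L n ^ 2 := by
    intro p _
    have h1 : F (p.1 * (1 / L n), p.2 * (1 / L n)) =
        (f (p.1 / L n, p.2 / L n) : ℂ) * chr (w / L n) (q / L n) p := by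
      rw [hF]
      unfold chr
      simp only [mul_one_div]
      congr 4
      ring
    rw [h1, Complex.real_smul, ← mul_assoc, ← sub_mul, norm_mul, norm_chr, mul_one,
      ← Complex.ofReal_mul, ← Complex.ofReal_sub, Complex.norm_real, Real.norm_eq_abs]
    have h2 := hn0 n hn p.1 p.2
    have h3 : a n p.1 p.2 - 1 / L n * (1 / L n) * f (p.1 / L n, p.2 / L n) =
        (L n ^ 2 * a n p.1 p.2 - f (p.1 / L n, p.2 / L n)) / L n ^ 2 := by
      field_simp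
    rw [h3, abs_div, abs_of_pos (by positivity : 0 < L n ^ 2)]
    gcongr
  refine lt_of_le_of_lt (norm_sum_le_of_le _ hterm) ?_
  rw [Finset.sum_const, nsmul_eq_mul]
  have h4 := card_bx' hA0.le hL1
  calc ((bx (A * L n)).card : ℝ) * (ε / (2 * D) / L n ^ 2)
      ≤ (D * L n ^ 2) * (ε / (2 * D) / L n ^ 2) := by gcongr
    _ = ε / 2 := by
      field_simp
    _ < ε := by linarith

end

end Vale.Agent.P153.TwoPt
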