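import Vale.Agent.P153.TwoPt.NearFar
import Vale.Agent.P153.TwoPt.Weights
import Vale.Agent.P153.TwoPt.KB

/-!
# P153, two-point part: the variance of `X` (P1)
-/

open MeasureTheory ProbabilityTheory Filter Topology Set
open scoped ENNReal Real

namespace Vale.Agent.P153.TwoPt

theorem continuous_hat {a : ℤ → ℤ → ℝ} {s : Finset (ℤ × ℤ)} (hs : Sup a s) :
    Continuous fun p : ℝ × ℝ => hat a p.1 p.2 := by
  simp_rw [hat_eq hs]
  refine continuous_finsetSum _ fun q _ => ?_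
  unfold chr
  fun_prop

theorem continuous_den' (τ : ℝ) : Continuous fun θ => den τ θ :=
  continuous_den.comp (by fun_prop : Continuous fun θ : ℝ => (τ, θ))

theorem In_sum {ι : Type*} (S : Finset ι) (A : ι → ℂ) (n x : ι → ℤ) (u : ℝ → ℝ → ℂ) {k τ : ℝ}
    (hu : Continuous fun θ => u τ θ) (h0 : 0 ≤ τ) (h1 : τ < 1) (N : ℝ → ℝ → ℂ)
    (hN : ∀ θ, N θ k = ∑ i ∈ S, A i * Complex.exp (Complex.I * ((θ * n i : ℝ) : ℂ)) *
      Complex.exp (Complex.I * ((k * x i : ℝ) : ℂ))) :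
    In u N (k, τ) = ∑ i ∈ S, A i * Complex.exp (Complex.I * ((k * x i : ℝ) : ℂ)) *
      ∫ θ in Icc (-π) π, Complex.exp (Complex.I * ((θ * n i : ℝ) : ℂ)) * (u τ θ / (den τ θ : ℂ)) := by
  unfold In
  have hc : Continuous fun θ => u τ θ / (den τ θ : ℂ) :=
    hu.div (Complex.continuous_ofReal.comp (continuous_den' τ)) fun θ => by
      exact_mod_cast (den_pos h0 h1 θ).ne'
  have h2 : ∀ θ, N θ k * (u τ θ / (den τ θ : ℂ)) = ∑ i ∈ S,
      (A i * Complex.exp (Complex.I * ((k * x i : ℝ) : ℂ))) *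
      (Complex.exp (Complex.I * ((θ * n i : ℝ) : ℂ)) * (u τ θ / (den τ θ : ℂ))) := by
    intro θ
    rw [hN, Finset.sum_mul]
    refine Finset.sum_congr rfl fun i _ => ?_
    ring
  simp_rw [h2]
  rw [integral_finsetSum]
  · refine Finset.sum_congr rfl fun i _ => ?_
    rw [integral_const_mul]
  · intro i _
    refine ContinuousOn.integrableOn_compact isCompact_Icc ?_
    refine Continuous.continuousOn ?_
    refine continuous_const.mul (Continuous.mul ?_ hc)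
    fun_prop

/-- the weights in `varX`. -/
theorem finsum_pair {b : ℤ × ℤ → ℤ × ℤ → ℝ} {s t : Finset (ℤ × ℤ)}
    (h1 : ∀ p, p ∉ s → ∀ q, b p q = 0) (h2 : ∀ q, q ∉ t → ∀ p, b p q = 0) :
    ∑ᶠ p : ℤ × ℤ, ∑ᶠ q : ℤ × ℤ, b p q = ∑ p ∈ s, ∑ q ∈ t, b p q := by
  rw [finsum_eq_sum_of_support_subset (s := s)]
  · refine Finset.sum_congr rfl fun p _ => ?_
    refine finsum_eq_sum_of_support_subset _ ?_
    intro q hq
    by_contra h
    exact hq (h2 q h p)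
  · intro p hp
    by_contra h
    refine hp ?_
    simp only
    rw [finsum_congr (fun q => h1 p h q), finsum_zero]

section
variable {V : ℤ → ℤ → ℝ} {m : Kernel ℝ ℝ} {c κ C k0 : ℝ}

/-- the numerator of `P1`. -/
noncomputable def N1 (a : ℤ → ℤ → ℝ) (θ k : ℝ) : ℂ := ((‖hat a θ k‖ ^ 2 : ℝ) : ℂ)

theorem N1_eq {a : ℤ → ℤ → ℝ} {s : Finset (ℤ × ℤ)} (hs : Sup a s) (θ k : ℝ) :
    N1 a θ k = ∑ i ∈ s ×ˢ s, ((a i.1.1 i.1.2 * a i.2.1 i.2.2 : ℝ) : ℂ) *
      Complex.exp (Complex.I * ((θ * ((i.1.1 - i.2.1 : ℤ)) : ℝ) : ℂ)) *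
      Complex.exp (Complex.I * ((k * ((i.1.2 - i.2.2 : ℤ)) : ℝ) : ℂ)) := by
  unfold N1
  rw [← Complex.normSq_eq_norm_sq, ← Complex.mul_conj, hat_eq hs, map_sum, Finset.sum_mul_sum,
    Finset.sum_product]
  refine Finset.sum_congr rfl fun p _ => Finset.sum_congr rfl fun q _ => ?_
  unfold chr
  rw [map_mul, Complex.conj_ofReal, ← Complex.exp_conj, map_mul, Complex.conj_I,
    Complex.conj_ofReal]
  rw [show (a p.1 p.2 : ℂ) * Complex.exp (Complex.I * ((θ * p.1 + k * p.2 : ℝ) : ℂ)) *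
    ((a q.1 q.2 : ℂ) * Complex.exp (-Complex.I * ((θ * q.1 + k * q.2 : ℝ) : ℂ))) =
    ((a p.1 p.2 * a q.1 q.2 : ℝ) : ℂ) * (Complex.exp (Complex.I * ((θ * p.1 + k * p.2 : ℝ) : ℂ)) *
      Complex.exp (-Complex.I * ((θ * q.1 + k * q.2 : ℝ) : ℂ))) by push_cast; ring]
  rw [mul_assoc, ← Complex.exp_add, ← Complex.exp_add]
  congr 2
  push_cast
  ring

theorem In_N1 {a : ℤ → ℤ → ℝ} {s : Finset (ℤ × ℤ)} (hs : Sup a s) (h0 : ∑ p ∈ s, a p.1 p.2 = 0)
    {p : ℝ × ℝ} (hp : 0 ≤ p.2 ∧ p.2 < 1) :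
    In (fun _ _ => 1) (N1 a) p = ((-(2 * π) * ∑ i ∈ s ×ˢ s, a i.1.1 i.1.2 * a i.2.1 i.2.2 *
      Wf (i.1.1 - i.2.1) (i.1.2 - i.2.2) p : ℝ) : ℂ) := by
  obtain ⟨k, τ⟩ := p
  obtain ⟨hτ0, hτ1⟩ := hp
  simp only at hτ0 hτ1
  have hreal : In (fun _ _ => 1) (N1 a) (k, τ) =
      (((In (fun _ _ => 1) (N1 a) (k, τ)).re : ℝ) : ℂ) := by
    have : In (fun _ _ => 1) (N1 a) (k, τ) =
        ((∫ θ in Icc (-π) π, ‖hat a θ k‖ ^ 2 * (1 / den τ θ) : ℝ) : ℂ) := by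
      unfold In N1
      rw [← integral_complex_ofReal]
      refine integral_congr_ae (Eventually.of_forall fun θ => ?_)
      simp only
      push_cast
      ring
    rw [this, Complex.ofReal_re]
  rw [hreal]
  congr 1
  rw [In_sum (s ×ˢ s) (fun i => ((a i.1.1 i.1.2 * a i.2.1 i.2.2 : ℝ) : ℂ))
    (fun i => i.1.1 - i.2.1) (fun i => i.1.2 - i.2.2) (fun _ _ => 1) continuous_const hτ0 hτ1 (N1 a)
    (fun θ => N1_eq hs θ k)]
  have hterm : ∀ i : (ℤ × ℤ) × (ℤ × ℤ), ((a i.1.1 i.1.2 * a i.2.1 i.2.2 : ℝ) : ℂ) *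
      Complex.exp (Complex.I * ((k * ((i.1.2 - i.2.2 : ℤ)) : ℝ) : ℂ)) *
      ∫ θ in Icc (-π) π, Complex.exp (Complex.I * ((θ * ((i.1.1 - i.2.1 : ℤ)) : ℝ) : ℂ)) *
        ((1 : ℂ) / (den τ θ : ℂ)) =
      ((a i.1.1 i.1.2 * a i.2.1 i.2.2 * (2 * π * (τ ^ (i.1.1 - i.2.1).natAbs / (1 - τ ^ 2))) : ℝ) : ℂ) *
      Complex.exp (((k * ((i.1.2 - i.2.2 : ℤ)) : ℝ) : ℂ) * Complex.I) := by
    intro i
    simp_rw [mul_one_div]
    rw [poisson hτ0 hτ1]
    push_cast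
    ring_nf
  rw [Finset.sum_congr rfl fun i _ => hterm i, Complex.re_sum]
  have hre : ∀ i : (ℤ × ℤ) × (ℤ × ℤ), (((a i.1.1 i.1.2 * a i.2.1 i.2.2 *
      (2 * π * (τ ^ (i.1.1 - i.2.1).natAbs / (1 - τ ^ 2))) : ℝ) : ℂ) *
      Complex.exp (((k * ((i.1.2 - i.2.2 : ℤ)) : ℝ) : ℂ) * Complex.I)).re =
      2 * π / (1 - τ ^ 2) * (a i.1.1 i.1.2 * a i.2.1 i.2.2) -
      2 * π * (a i.1.1 i.1.2 * a i.2.1 i.2.2 * Wf (i.1.1 - i.2.1) (i.1.2 - i.2.2) (k, τ)) := by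
    intro i
    rw [Complex.re_ofReal_mul, Complex.exp_ofReal_mul_I_re]
    unfold Wf
    simp only
    ring
  rw [Finset.sum_congr rfl fun i _ => hre i, Finset.sum_sub_distrib, ← Finset.mul_sum,
    ← Finset.mul_sum, Finset.sum_product]
  simp_rw [← Finset.mul_sum]
  rw [h0]
  simp

theorem varX_eq (h : Spec V m c κ C k0) {a : ℤ → ℤ → ℝ} {s : Finset (ℤ × ℤ)} (hs : Sup a s)
    (h0 : ∑ p ∈ s, a p.1 p.2 = 0) : Integrable (In (fun _ _ => 1) (N1 a)) (rho m) ∧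
    varX V a = (1 / (4 * π ^ 2)) * (∫ p, In (fun _ _ => 1) (N1 a) p ∂(rho m)).re := by
  have hpi := Real.pi_pos
  set G : ℝ × ℝ → ℝ := fun p => -(2 * π) * ∑ i ∈ s ×ˢ s, a i.1.1 i.1.2 * a i.2.1 i.2.2 *
      Wf (i.1.1 - i.2.1) (i.1.2 - i.2.2) p with hG
  have hae : In (fun _ _ => 1) (N1 a) =ᵐ[rho m] fun p => ((G p : ℝ) : ℂ) := by
    filter_upwards [h.ae_supp] with p hp
    exact In_N1 hs h0 hp
  have hGi : Integrable G (rho m) := by
    refine Integrable.const_mul ?_ _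
    refine integrable_finsetSum _ fun i _ => ?_
    exact (h.int_W _ _).const_mul _
  refine ⟨(hGi.ofReal (𝕜 := ℂ)).congr hae.symm, ?_⟩
  rw [integral_congr_ae hae, integral_complex_ofReal, Complex.ofReal_re, hG, integral_const_mul,
    integral_finsetSum _ fun i _ => (h.int_W _ _).const_mul _]
  unfold varX
  rw [finsum_pair (s := s) (t := s) (fun p hp q => by rw [hs p hp]; ring)
    (fun q hq p => by rw [hs q hq]; ring), ← Finset.sum_product']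
  simp_rw [integral_const_mul, h.rep']
  rw [Finset.mul_sum, Finset.mul_sum, Finset.mul_sum]
  refine Finset.sum_congr rfl fun i _ => ?_
  field_simp
  ring

theorem Rk_one (k θ : ℝ) : Rk m (fun _ _ => 1) k θ = (Psi m k θ : ℂ) := by
  unfold Rk Psi
  rw [← integral_complex_ofReal]
  refine integral_congr_ae (Eventually.of_forall fun τ => ?_)
  simp

theorem Psi_nonneg {k : ℝ} (h : ∀ᵐ τ ∂(m k), 0 ≤ τ ∧ τ < 1) (θ : ℝ) : 0 ≤ Psi m k θ := by
  unfold Psi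
  refine integral_nonneg_of_ae ?_
  filter_upwards [h] with τ hτ
  exact (one_div_pos.2 (den_pos hτ.1 hτ.2 θ)).le

theorem ae_scale {P : ℝ → Prop} (h : ∀ᵐ k : ℝ, P k) {L : ℝ} (hL : 0 < L) :
    ∀ᵐ z : ℝ × ℝ, P (z.2 / L) := by
  have h1 : Measure.QuasiMeasurePreserving (fun q : ℝ => q / L) volume volume := by
    have h2 := Measure.map_addHaar_smul (volume : Measure ℝ) (inv_ne_zero hL.ne')
    refine ⟨by fun_prop, ?_⟩
    have h3 : (fun q : ℝ => q / L) = fun q => L⁻¹ • q := by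
      funext q
      rw [smul_eq_mul]
      ring
    rw [h3, h2]
    exact Measure.smul_absolutelyContinuous
  have h4 : ∀ᵐ q : ℝ, P (q / L) := h1.ae h
  exact Measure.quasiMeasurePreserving_snd.ae h4

theorem ae_snd {P : ℝ → Prop} (h : ∀ᵐ k : ℝ, P k) : ∀ᵐ z : ℝ × ℝ, P z.2 :=
  Measure.quasiMeasurePreserving_snd.ae h

theorem ae_fst {P : ℝ → Prop} (h : ∀ᵐ k : ℝ, P k) : ∀ᵐ z : ℝ × ℝ, P z.1 :=
  Measure.quasiMeasurePreserving_fst.ae h

theorem inv_cube_le (z : ℝ × ℝ) :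
    ((1 + (z.1 ^ 2 + z.2 ^ 2)) ^ 3)⁻¹ ≤ (1 + ‖z‖ ^ 2) ^ (-(3 : ℝ) / 2) := by
  have h1 := norm_sq_le z
  have h2 : 0 < 1 + ‖z‖ ^ 2 := by positivity
  have h3 : (1 + ‖z‖ ^ 2) ^ (-(3 : ℝ) / 2) = ((1 + ‖z‖ ^ 2) ^ ((3 : ℝ) / 2))⁻¹ := by
    rw [← Real.rpow_neg h2.le]
    congr 1
    ring
  rw [h3]
  refine inv_anti₀ (by positivity) ?_
  calc (1 + ‖z‖ ^ 2) ^ ((3 : ℝ) / 2) ≤ (1 + ‖z‖ ^ 2) ^ (3 : ℝ) :=
        Real.rpow_le_rpow_of_exponent_le (by nlinarith [sq_nonneg ‖z‖]) (by norm_num)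
    _ = (1 + ‖z‖ ^ 2) ^ 3 := by
      rw [show (3 : ℝ) = ((3 : ℕ) : ℝ) by norm_num, Real.rpow_natCast]
    _ ≤ _ := by gcongr

end

theorem p1_of (hKB : KBStatement) (hKL : KLStatement) : P1Statement := by
  intro V m c κ C k0 hS f L a M hD
  have hpi := Real.pi_pos
  have hk0 := hS.k0_pos
  obtain ⟨C1, hC1, hb⟩ := hD.hat_bounds
  obtain ⟨C', hC', hKB1⟩ := hKB V m c κ C k0 hS
  obtain ⟨n0, hn0⟩ := eventually_atTop.1 hb
  rw [← tendsto_add_atTop_iff_nat n0]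
  have hshift : Tendsto (fun n => n + n0) atTop atTop := tendsto_add_atTop_nat n0
  have hL1 : ∀ n, 1 ≤ L (n + n0) := fun n => hD.L_pos _
  have hL0 : ∀ n, 0 < L (n + n0) := fun n => by linarith [hL1 n]
  have hLt : Tendsto (fun n => L (n + n0)) atTop atTop := hD.L_top.comp hshift
  have hsup : ∀ n, Sup (a n) (bx (M * L n)) := fun n => hD.sup (le_refl M) n
  have hzero : ∀ n, ∑ p ∈ bx (M * L n), a n p.1 p.2 = 0 := fun n => hD.sum_zero' (le_refl M) n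
  have hLi : Tendsto (fun n => (L (n + n0))⁻¹) atTop (𝓝 0) := hLt.inv_tendsto_atTop
  have hnf := nearFar hS (u := fun _ _ => 1) measurable_const (U := 1) (fun _ _ _ _ => by simp)
    (fun n => L (n + n0)) hL1 (fun n => N1 (a (n + n0)))
    (fun n => by
      unfold N1
      exact Complex.continuous_ofReal.comp ((continuous_hat (hsup _)).norm.pow 2))
    (fun n => (varX_eq hS (hsup _) (hzero _)).1)
    (fun n => (C1 / k0 ^ 2 * (L (n + n0))⁻¹ ^ 2) ^ 2)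
    (by
      have := ((hLi.pow 2).const_mul (C1 / k0 ^ 2)).pow 2
      simpa using this)
    (by
      intro n θ hθ k hk hkk
      have h1 := (hn0 (n + n0) (by omega) θ k (abs_le.2 ⟨hθ.1, hθ.2⟩) (abs_le.2 ⟨hk.1, hk.2⟩)).2.2
      have hL := hL0 n
      unfold N1
      rw [Complex.norm_real, Real.norm_of_nonneg (by positivity)]
      refine pow_le_pow_left₀ (norm_nonneg _) ?_ 2
      have h2 : k0 ^ 2 ≤ k ^ 2 := by
        rw [← sq_abs k]
        exact pow_le_pow_left₀ hk0.le hkk 2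
      have h3 : ‖hat (a (n + n0)) θ k‖ * (L (n + n0) ^ 2 * k0 ^ 2) ≤ C1 :=
        le_trans (by gcongr) h1
      rw [← le_div_iff₀ (by positivity)] at h3
      refine h3.trans (le_of_eq ?_)
      field_simp)
    (fun z => 24 * C1 ^ 2 * C' * (1 + ‖z‖ ^ 2) ^ (-(3 : ℝ) / 2))
    (integrable_dom.const_mul _)
    (by
      intro n
      have hL := hL0 n
      filter_upwards [ae_scale hKB1 hL, ae_scale hS.supp hL,
        ae_snd (Measure.ae_ne (volume : Measure ℝ) 0)] with z hz1 hz2 hz3 hk hθ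
      have hq : z.2 / L (n + n0) ≠ 0 := div_ne_zero hz3 hL.ne'
      have hqk : |z.2 / L (n + n0)| < k0 := by
        rw [abs_div, abs_of_pos hL, div_lt_iff₀ hL]
        exact hk
      have hθ' : |z.1 / L (n + n0)| ≤ π := by
        rw [abs_div, abs_of_pos hL, div_le_iff₀ hL]
        exact hθ
      have hqπ : |z.2 / L (n + n0)| ≤ π := by
        have := hS.k0_le
        linarith [Real.pi_gt_three]
      have hP := (hz1 hqk hq (z.1 / L (n + n0)) hθ').2.1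
      have hP0 := Psi_nonneg hz2 (z.1 / L (n + n0))
      obtain ⟨hb1, hb2, hb3⟩ := hn0 (n + n0) (by omega) (z.1 / L (n + n0)) (z.2 / L (n + n0)) hθ' hqπ
      rw [Rk_one, Complex.norm_real, Real.norm_of_nonneg hP0]
      unfold N1
      rw [Complex.norm_real, Real.norm_of_nonneg (by positivity)]
      set b := ‖hat (a (n + n0)) (z.1 / L (n + n0)) (z.2 / L (n + n0))‖ with hbdef
      have hb0 : 0 ≤ b := norm_nonneg _
      have hs0 : 0 < z.1 ^ 2 + z.2 ^ 2 := by positivity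
      have hd := decay (b := b) (w := z.1) (q := z.2) (C1 := C1) hb0
        (by
          rw [abs_div, abs_div, abs_of_pos hL] at hb1
          calc b ≤ C1 * L (n + n0) * (|z.1| / L (n + n0) + |z.2| / L (n + n0)) := hb1
            _ = _ := by field_simp)
        (by
          calc b * z.1 ^ 2 = b * (L (n + n0) ^ 2 * (z.1 / L (n + n0)) ^ 2) := by field_simp
            _ ≤ C1 := hb2)
        (by
          calc b * z.2 ^ 2 = b * (L (n + n0) ^ 2 * (z.2 / L (n + n0)) ^ 2) := by field_simp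
            _ ≤ C1 := hb3)
      calc (L (n + n0) ^ 2)⁻¹ * (b ^ 2 * Psi m (z.2 / L (n + n0)) (z.1 / L (n + n0)))
          ≤ (L (n + n0) ^ 2)⁻¹ * (b ^ 2 * (C' / ((z.2 / L (n + n0)) ^ 2 +
            (z.1 / L (n + n0)) ^ 2))) := by gcongr
        _ = C' * (b ^ 2 / (z.1 ^ 2 + z.2 ^ 2)) := by
          have : (z.2 / L (n + n0)) ^ 2 + (z.1 / L (n + n0)) ^ 2 =
              (z.1 ^ 2 + z.2 ^ 2) / L (n + n0) ^ 2 := by
            field_simp
            ring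
          rw [this]
          field_simp
        _ ≤ C' * (24 * C1 ^ 2 * ((1 + (z.1 ^ 2 + z.2 ^ 2)) ^ 3)⁻¹) := by
          refine mul_le_mul_of_nonneg_left ?_ hC'.le
          rw [div_le_iff₀ hs0, mul_assoc, mul_comm (_⁻¹) _, ← mul_assoc, ← div_eq_mul_inv,
            le_div_iff₀ (by positivity)]
          exact hd
        _ ≤ C' * (24 * C1 ^ 2 * (1 + ‖z‖ ^ 2) ^ (-(3 : ℝ) / 2)) := by
          have := inv_cube_le z
          gcongr
        _ = _ := by ring)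
    hLt
    (fun z => ((‖FT f z.1 z.2‖ ^ 2 * (κ / (c ^ 2 * z.2 ^ 2 + z.1 ^ 2)) : ℝ) : ℂ))
    (by
      have hkl := hKL V m c κ C k0 hS (fun n => L (n + n0)) hL1 hLt 1
      filter_upwards [ae_snd hkl, ae_snd (Measure.ae_ne (volume : Measure ℝ) 0),
        ae_fst (Measure.ae_ne (volume : Measure ℝ) 0)] with z hz1 hz2 hz3
      have h1 := (hz1 hz2 z.1 hz3).2
      have h2 := (hat_lim hD z.1 z.2).comp hshift
      have h3 := ((h2.norm.pow 2).mul h1)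
      have h4 := (Complex.continuous_ofReal.tendsto _).comp h3
      refine h4.congr fun n => ?_
      simp only [Function.comp_apply]
      rw [Rk_one]
      unfold N1
      push_cast
      ring)
  have hre := (Complex.continuous_re.tendsto _).comp hnf
  have hfin := hre.const_mul (1 / (4 * π ^ 2))
  have hsig : 1 / (4 * π ^ 2) * (∫ z : ℝ × ℝ, ((‖FT f z.1 z.2‖ ^ 2 *
      (κ / (c ^ 2 * z.2 ^ 2 + z.1 ^ 2)) : ℝ) : ℂ)).re = sig c κ f := by
    rw [integral_complex_ofReal, Complex.ofReal_re]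
    unfold sig
    have : ∀ z : ℝ × ℝ, ‖FT f z.1 z.2‖ ^ 2 * (κ / (c ^ 2 * z.2 ^ 2 + z.1 ^ 2)) =
        κ * (‖FT f z.1 z.2‖ ^ 2 / (c ^ 2 * z.2 ^ 2 + z.1 ^ 2)) := fun z => by ring
    simp_rw [this]
    rw [integral_const_mul]
    ring
  rw [hsig] at hfin
  refine hfin.congr fun n => ?_
  exact ((varX_eq hS (hsup _) (hzero _)).2).symm

end Vale.Agent.P153.TwoPt
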