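import Vale.Agent.P153.TwoPt.P1

/-!
# P153, two-point part: the covariance of `X` and `X'` (P2)
-/

open MeasureTheory ProbabilityTheory Filter Topology Set
open scoped ENNReal Real

namespace Vale.Agent.P153.TwoPt

/-- the causal symbol. -/
noncomputable def uK (K : ℕ) (τ θ : ℝ) : ℂ :=
  1 - ((τ : ℂ) * Complex.exp (-(Complex.I * (θ : ℂ)))) ^ K

theorem continuous_uK (K : ℕ) : Continuous fun p : ℝ × ℝ => uK K p.1 p.2 := by
  unfold uK
  fun_prop

theorem norm_uK_le (K : ℕ) (τ θ : ℝ) (h0 : 0 ≤ τ) (h1 : τ < 1) : ‖uK K τ θ‖ ≤ 2 := by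
  unfold uK
  refine (norm_sub_le _ _).trans ?_
  rw [norm_one, norm_pow, norm_tau_exp h0]
  have := pow_le_one₀ (n := K) h0 h1.le
  linarith

theorem exp_mul_uK (K : ℕ) (τ θ : ℝ) (n : ℤ) :
    Complex.exp (Complex.I * ((θ * n : ℝ) : ℂ)) * (uK K τ θ / (den τ θ : ℂ)) =
      Complex.exp (Complex.I * ((θ * n : ℝ) : ℂ)) / (den τ θ : ℂ) -
      ((τ ^ K : ℝ) : ℂ) * (Complex.exp (Complex.I * ((θ * ((n - K : ℤ)) : ℝ) : ℂ)) / (den τ θ : ℂ)) := by
  have h1 : Complex.exp (Complex.I * ((θ * ((n - K : ℤ)) : ℝ) : ℂ)) =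
      Complex.exp (Complex.I * ((θ * n : ℝ) : ℂ)) * Complex.exp (-(Complex.I * (θ : ℂ))) ^ K := by
    rw [← Complex.exp_nat_mul, ← Complex.exp_add]
    congr 1
    push_cast
    ring
  rw [h1]
  unfold uK
  rw [mul_pow]
  push_cast
  ring

theorem integral_uK (K : ℕ) {τ : ℝ} (h0 : 0 ≤ τ) (h1 : τ < 1) (n : ℤ) :
    ∫ θ in Icc (-π) π, Complex.exp (Complex.I * ((θ * n : ℝ) : ℂ)) * (uK K τ θ / (den τ θ : ℂ)) =
      ((2 * π * (τ ^ n.natAbs / (1 - τ ^ 2)) -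
        τ ^ K * (2 * π * (τ ^ (n - K).natAbs / (1 - τ ^ 2))) : ℝ) : ℂ) := by
  have hc : ∀ n : ℤ, Integrable (fun θ => Complex.exp (Complex.I * ((θ * n : ℝ) : ℂ)) /
      (den τ θ : ℂ)) (volume.restrict (Icc (-π) π)) := by
    intro n
    refine ContinuousOn.integrableOn_compact isCompact_Icc ?_
    refine Continuous.continuousOn ?_
    refine Continuous.div (by fun_prop) (Complex.continuous_ofReal.comp (continuous_den' τ))
      fun θ => ?_
    exact_mod_cast (den_pos h0 h1 θ).ne'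
  simp_rw [exp_mul_uK]
  rw [integral_sub (hc n) ((hc (n - K)).const_mul _), integral_const_mul, poisson h0 h1,
    poisson h0 h1]
  push_cast
  ring

/-- the coefficient, in terms of `d = j - iK`. -/
noncomputable def Hc (K : ℕ) (d z : ℤ) (p : ℝ × ℝ) : ℝ :=
  if 0 < d then 2 * π * (Wf (d + K) z p - Wf (d - K) z p) else 0

theorem coef_eq (K : ℕ) (d : ℤ) (p : ℝ × ℝ) :
    2 * π * (p.2 ^ (K - d).natAbs / (1 - p.2 ^ 2)) -
      p.2 ^ K * (2 * π * (p.2 ^ ((K - d) - K : ℤ).natAbs / (1 - p.2 ^ 2))) = Hc K d 0 p := by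
  unfold Hc
  split_ifs with h
  · unfold Wf
    have h1 : ((K : ℤ) - d).natAbs = (d - K).natAbs := by
      rw [← Int.natAbs_neg]
      congr 1
      ring
    have h2 : p.2 ^ (d + K).natAbs = p.2 ^ K * p.2 ^ (((K : ℤ) - d) - K).natAbs := by
      rw [← pow_add]
      congr 1
      omega
    rw [h1, h2]
    simp only [Int.cast_zero, mul_zero, Real.cos_zero]
    ring
  · have h2 : ((K : ℤ) - d).natAbs = K + (((K : ℤ) - d) - K).natAbs := by omega
    rw [h2, pow_add]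
    ring

theorem Wf_sub (d K z : ℤ) (p : ℝ × ℝ) : Wf (d + K) z p - Wf (d - K) z p =
    Real.cos (p.1 * z) * (Wf (d + K) 0 p - Wf (d - K) 0 p) := by
  unfold Wf
  simp only [Int.cast_zero, mul_zero, Real.cos_zero]
  ring

/-- the numerator of `P2`. -/
noncomputable def N2 (G a : ℤ → ℤ → ℝ) (K : ℕ) (θ k : ℝ) : ℂ :=
  Complex.exp (Complex.I * ((θ * K : ℝ) : ℂ)) * hat G (K * θ) k * (starRingEnd ℂ) (hat a θ k)

theorem N2_eq {G a : ℤ → ℤ → ℝ} {t s : Finset (ℤ × ℤ)} (ht : Sup G t) (hs : Sup a s) (K : ℕ)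
    (θ k : ℝ) :
    N2 G a K θ k = ∑ i ∈ t ×ˢ s, ((G i.1.1 i.1.2 * a i.2.1 i.2.2 : ℝ) : ℂ) *
      Complex.exp (Complex.I * ((θ * ((K - (i.2.1 - i.1.1 * K) : ℤ)) : ℝ) : ℂ)) *
      Complex.exp (Complex.I * ((k * ((i.1.2 - i.2.2 : ℤ)) : ℝ) : ℂ)) := by
  unfold N2
  rw [mul_assoc, hat_eq hs, hat_eq ht, map_sum, Finset.sum_mul_sum, Finset.mul_sum,
    Finset.sum_product]
  refine Finset.sum_congr rfl fun p _ => ?_
  rw [Finset.mul_sum]
  refine Finset.sum_congr rfl fun q _ => ?_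
  unfold chr
  rw [map_mul, Complex.conj_ofReal, ← Complex.exp_conj, map_mul, Complex.conj_I,
    Complex.conj_ofReal]
  rw [show Complex.exp (Complex.I * ((θ * K : ℝ) : ℂ)) * (((G p.1 p.2 : ℂ) *
      Complex.exp (Complex.I * ((K * θ * p.1 + k * p.2 : ℝ) : ℂ))) *
    ((a q.1 q.2 : ℂ) * Complex.exp (-Complex.I * ((θ * q.1 + k * q.2 : ℝ) : ℂ)))) =
    ((G p.1 p.2 * a q.1 q.2 : ℝ) : ℂ) * ((Complex.exp (Complex.I * ((θ * K : ℝ) : ℂ)) *
      Complex.exp (Complex.I * ((K * θ * p.1 + k * p.2 : ℝ) : ℂ))) *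
      Complex.exp (-Complex.I * ((θ * q.1 + k * q.2 : ℝ) : ℂ))) by push_cast; ring]
  symm
  rw [mul_assoc, ← Complex.exp_add]
  symm
  rw [← Complex.exp_add, ← Complex.exp_add]
  congr 2
  push_cast
  ring

theorem finsum2 {b : ℤ → ℤ → ℝ} {I J : Finset ℤ} (h : ∀ i x, (i ∉ I ∨ x ∉ J) → b i x = 0) :
    ∑ᶠ i : ℤ, ∑ᶠ x : ℤ, b i x = ∑ p ∈ I ×ˢ J, b p.1 p.2 := by
  rw [Finset.sum_product, finsum_eq_sum_of_support_subset (s := I)]
  · refine Finset.sum_congr rfl fun i _ => ?_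
    refine finsum_eq_sum_of_support_subset _ ?_
    intro x hx
    by_contra h2
    exact hx (h i x (Or.inr h2))
  · intro i hi
    by_contra h2
    refine hi ?_
    simp only
    rw [finsum_congr (fun x => h i x (Or.inl h2)), finsum_zero]

section
variable {V : ℤ → ℤ → ℝ} {m : Kernel ℝ ℝ} {c κ C k0 : ℝ}

theorem In_N2a {G a : ℤ → ℤ → ℝ} {t s : Finset (ℤ × ℤ)} (ht : Sup G t) (hs : Sup a s) (K : ℕ)
    {k τ : ℝ} (hτ0 : 0 ≤ τ) (hτ1 : τ < 1) :
    In (uK K) (N2 G a K) (k, τ) = ∑ i ∈ t ×ˢ s, ((G i.1.1 i.1.2 * a i.2.1 i.2.2 : ℝ) : ℂ) *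
      Complex.exp (Complex.I * ((k * ((i.1.2 - i.2.2 : ℤ)) : ℝ) : ℂ)) *
      ∫ θ in Icc (-π) π, Complex.exp (Complex.I * ((θ * ((K - (i.2.1 - i.1.1 * K) : ℤ)) : ℝ) : ℂ)) *
        (uK K τ θ / (den τ θ : ℂ)) := by
  have hc : Continuous fun θ => uK K τ θ :=
    (continuous_uK K).comp (by fun_prop : Continuous fun θ : ℝ => (τ, θ))
  exact In_sum (t ×ˢ s) (fun i => ((G i.1.1 i.1.2 * a i.2.1 i.2.2 : ℝ) : ℂ))
    (fun i => K - (i.2.1 - i.1.1 * K)) (fun i => i.1.2 - i.2.2) (uK K)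
    hc hτ0 hτ1 (N2 G a K)
    (fun θ => N2_eq ht hs K θ k)

theorem integral_uK_Hc (K : ℕ) {k τ : ℝ} (hτ0 : 0 ≤ τ) (hτ1 : τ < 1) (d : ℤ) :
    ∫ θ in Icc (-π) π, Complex.exp (Complex.I * ((θ * ((K - d : ℤ)) : ℝ) : ℂ)) *
        (uK K τ θ / (den τ θ : ℂ)) = ((Hc K d 0 (k, τ) : ℝ) : ℂ) := by
  rw [integral_uK K hτ0 hτ1, ← coef_eq K d (k, τ)]

theorem In_N2 {G a : ℤ → ℤ → ℝ} {t s : Finset (ℤ × ℤ)} (ht : Sup G t) (hs : Sup a s) (K : ℕ)
    {p : ℝ × ℝ} (hp : 0 ≤ p.2 ∧ p.2 < 1) :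
    In (uK K) (N2 G a K) p = ∑ i ∈ t ×ˢ s, ((G i.1.1 i.1.2 * a i.2.1 i.2.2 : ℝ) : ℂ) *
      Complex.exp (Complex.I * ((p.1 * ((i.1.2 - i.2.2 : ℤ)) : ℝ) : ℂ)) *
      ((Hc K (i.2.1 - i.1.1 * K) 0 p : ℝ) : ℂ) := by
  refine (In_N2a ht hs K hp.1 hp.2).trans ?_
  refine Finset.sum_congr rfl fun i _ => ?_
  rw [integral_uK_Hc (k := p.1) K hp.1 hp.2 (i.2.1 - i.1.1 * K)]

theorem covXX_eq (h : Spec V m c κ C k0) {a : ℤ → ℤ → ℝ} {T S : ℝ} {g : ℝ × ℝ → ℝ} {L : ℝ}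
    (hs : Sup a (bx S)) (K : ℕ) (hG : Sup (fun i x => L⁻¹ * g (i * K / L, x / L)) (bx T)) :
    Integrable (In (uK K) (N2 (fun i x => L⁻¹ * g (i * K / L, x / L)) a K)) (rho m) ∧
    covXX V a K L g = (1 / (4 * π ^ 2)) *
      (∫ p, In (uK K) (N2 (fun i x => L⁻¹ * g (i * K / L, x / L)) a K) p ∂(rho m)).re := by
  have hpi := Real.pi_pos
  set G : ℤ → ℤ → ℝ := fun i x => L⁻¹ * g (i * K / L, x / L) with hGdef
  have hHi : ∀ d z, Integrable (Hc K d z) (rho m) := by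
    intro d z
    unfold Hc
    split_ifs
    · exact ((h.int_W _ _).sub (h.int_W _ _)).const_mul _
    · exact integrable_zero _ _ _
  have hterm : ∀ i : (ℤ × ℤ) × (ℤ × ℤ), Integrable (fun p : ℝ × ℝ =>
      ((G i.1.1 i.1.2 * a i.2.1 i.2.2 : ℝ) : ℂ) *
      Complex.exp (Complex.I * ((p.1 * ((i.1.2 - i.2.2 : ℤ)) : ℝ) : ℂ)) *
      ((Hc K (i.2.1 - i.1.1 * K) 0 p : ℝ) : ℂ)) (rho m) := by
    intro i
    have h1 : Integrable (fun p : ℝ × ℝ => ((Hc K (i.2.1 - i.1.1 * K) 0 p : ℝ) : ℂ)) (rho m) :=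
      (hHi _ _).ofReal (𝕜 := ℂ)
    refine Integrable.bdd_mul (c := |G i.1.1 i.1.2 * a i.2.1 i.2.2|) h1
      (Continuous.aestronglyMeasurable (by fun_prop)) ?_
    refine Eventually.of_forall fun p => ?_
    rw [norm_mul, Complex.norm_real, mul_comm Complex.I, Complex.norm_exp_ofReal_mul_I, mul_one,
      Real.norm_eq_abs]
  have hae : In (uK K) (N2 G a K) =ᵐ[rho m] fun p => ∑ i ∈ bx T ×ˢ bx S,
      ((G i.1.1 i.1.2 * a i.2.1 i.2.2 : ℝ) : ℂ) *
      Complex.exp (Complex.I * ((p.1 * ((i.1.2 - i.2.2 : ℤ)) : ℝ) : ℂ)) *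
      ((Hc K (i.2.1 - i.1.1 * K) 0 p : ℝ) : ℂ) := by
    filter_upwards [h.ae_supp] with p hp
    exact In_N2 hG hs K hp
  have hint : Integrable (In (uK K) (N2 G a K)) (rho m) :=
    (integrable_finsetSum _ fun i _ => hterm i).congr hae.symm
  refine ⟨hint, ?_⟩
  have hre : (∫ p, In (uK K) (N2 G a K) p ∂(rho m)).re = ∑ i ∈ bx T ×ˢ bx S,
      (G i.1.1 i.1.2 * a i.2.1 i.2.2) *
        ∫ p, Hc K (i.2.1 - i.1.1 * K) (i.2.2 - i.1.2) p ∂(rho m) := by
    rw [integral_congr_ae hae, integral_finsetSum _ fun i _ => hterm i, Complex.re_sum]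
    refine Finset.sum_congr rfl fun i _ => ?_
    have h2 : ∀ F : ℝ × ℝ → ℂ, Integrable F (rho m) →
        (∫ p, F p ∂(rho m)).re = ∫ p, (F p).re ∂(rho m) := by
      intro F hF
      exact (integral_re hF).symm
    rw [h2 _ (hterm i), ← integral_const_mul]
    refine integral_congr_ae (Eventually.of_forall fun p => ?_)
    simp only
    rw [mul_assoc, Complex.re_ofReal_mul]
    congr 1
    rw [mul_comm (Complex.exp _), Complex.re_ofReal_mul, mul_comm Complex.I,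
      Complex.exp_ofReal_mul_I_re]
    unfold Hc
    have h3 : Real.cos (p.1 * ((i.1.2 - i.2.2 : ℤ))) = Real.cos (p.1 * ((i.2.2 - i.1.2 : ℤ))) := by
      rw [← Real.cos_neg]
      congr 1
      push_cast
      ring
    split_ifs
    · rw [Wf_sub _ _ (i.2.2 - i.1.2), h3]
      ring
    · simp
  rw [hre]
  unfold covXX
  have hb : ∀ p : ℤ × ℤ, ∑ᶠ j : ℤ, ∑ᶠ y : ℤ, (if p.1 * K < j then a j y *
      ((V (j - p.1 * K + K) (y - p.2) - V (j - p.1 * K - K) (y - p.2)) / 2) else 0) =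
      ∑ q ∈ bx S, (if p.1 * K < q.1 then a q.1 q.2 *
      ((V (q.1 - p.1 * K + K) (q.2 - p.2) - V (q.1 - p.1 * K - K) (q.2 - p.2)) / 2) else 0) := by
    intro p
    refine finsum2 (I := Finset.Icc (-⌊S⌋) ⌊S⌋) (J := Finset.Icc (-⌊S⌋) ⌊S⌋) ?_
    intro j y hjy
    have : a j y = 0 := by
      refine hs (j, y) ?_
      unfold bx
      rw [Finset.mem_product]
      tauto
    rw [this]
    simp
  rw [finsum2 (I := Finset.Icc (-⌊T⌋) ⌊T⌋) (J := Finset.Icc (-⌊T⌋) ⌊T⌋) (by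
    intro i x hix
    have : G i x = 0 := by
      refine hG (i, x) ?_
      unfold bx
      rw [Finset.mem_product]
      tauto
    rw [hGdef] at this
    simp only at this
    rw [this, zero_mul])]
  have hb2 : ∀ p : ℤ × ℤ, L⁻¹ * g (p.1 * K / L, p.2 / L) * (∑ᶠ j : ℤ, ∑ᶠ y : ℤ,
      (if p.1 * K < j then a j y *
      ((V (j - p.1 * K + K) (y - p.2) - V (j - p.1 * K - K) (y - p.2)) / 2) else 0)) =
      ∑ q ∈ bx S, G p.1 p.2 * (if p.1 * K < q.1 then a q.1 q.2 *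
      ((V (q.1 - p.1 * K + K) (q.2 - p.2) - V (q.1 - p.1 * K - K) (q.2 - p.2)) / 2) else 0) := by
    intro p
    rw [hb p, Finset.mul_sum]
  rw [Finset.sum_congr rfl fun p _ => hb2 p]
  change ∑ p ∈ bx T, _ = _
  rw [Finset.sum_product, Finset.mul_sum]
  refine Finset.sum_congr rfl fun p _ => ?_
  rw [Finset.mul_sum]
  refine Finset.sum_congr rfl fun q _ => ?_
  simp only
  unfold Hc
  by_cases hd : p.1 * K < q.1
  · have hd' : 0 < q.1 - p.1 * K := by omega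
    rw [if_pos hd]
    simp only [if_pos hd']
    rw [integral_const_mul, integral_sub (h.int_W _ _) (h.int_W _ _), h.rep', h.rep']
    field_simp
    ring
  · have hd' : ¬ 0 < q.1 - p.1 * K := by omega
    rw [if_neg hd]
    simp only [if_neg hd']
    simp

theorem Rk_uK (K : ℕ) (k θ : ℝ) : Rk m (uK K) k θ = Om m K k θ := rfl

end

/-- the Riemann sums of the test function of `X'`. -/
theorem hatG_lim {g : ℝ × ℝ → ℝ} (hg : Continuous g) (hgs : HasCompactSupport g) {L : ℕ → ℝ}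
    (hL : ∀ n, 1 ≤ L n) (hLt : Tendsto L atTop atTop) {K : ℕ} (hK : 0 < K) {R : ℝ}
    (hsup : ∀ n, Sup (fun i x => (L n)⁻¹ * g (i * K / L n, x / L n)) (bx (R * L n))) (w q : ℝ) :
    Tendsto (fun n => (K : ℂ) * (L n : ℂ)⁻¹ *
      hat (fun i x => (L n)⁻¹ * g (i * K / L n, x / L n)) (K * (w / L n)) (q / L n)) atTop
      (𝓝 (FT g w q)) := by
  set F : ℝ × ℝ → ℂ := fun z => (g z : ℂ) * Complex.exp (Complex.I * ((w * z.1 + q * z.2 : ℝ) : ℂ))
    with hF
  have hFc : Continuous F := by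
    rw [hF]
    fun_prop
  have hFs : HasCompactSupport F := by
    rw [hF]
    exact (hgs.comp_left (g := fun x : ℝ => (x : ℂ)) (by simp)).mul_right
  have hK' : (0 : ℝ) < K := by exact_mod_cast hK
  have hLi : Tendsto (fun n => 1 / L n) atTop (𝓝 0) := by
    simp_rw [one_div]
    exact hLt.inv_tendsto_atTop
  have hLK : Tendsto (fun n => K / L n) atTop (𝓝 0) := by
    have := hLi.const_mul (K : ℝ)
    simp_rw [mul_one_div, mul_zero] at this
    exact this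
  have hr := riemann2 F hFc hFs (fun n => K / L n) (fun n => 1 / L n)
    (fun n => by have := hL n; positivity) (fun n => by have := hL n; positivity) hLK hLi
    (fun n => bx (R * L n)) (fun n p hp => by
      have h1 := hsup n p hp
      have hL0 : 0 < L n := by linarith [hL n]
      simp only at h1
      rw [mul_eq_zero, inv_eq_zero] at h1
      rcases h1 with h1 | h1
      · exact absurd h1 hL0.ne'
      · rw [hF]
        simp only [mul_one_div]
        rw [← mul_div_assoc, h1]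
        simp)
  have hFT : ∫ z, F z = FT g w q := rfl
  rw [hFT] at hr
  refine hr.congr fun n => ?_
  have hL0 : 0 < L n := by linarith [hL n]
  have hLc : (L n : ℂ) ≠ 0 := by exact_mod_cast hL0.ne'
  rw [hat_eq (hsup n), Finset.smul_sum, Finset.mul_sum]
  refine Finset.sum_congr rfl fun p _ => ?_
  rw [hF]
  unfold chr
  simp only [mul_one_div]
  rw [Complex.real_smul]
  have h2 : (w * (p.1 * (K / L n)) + q * (p.2 / L n) : ℝ) = K * (w / L n) * p.1 + q / L n * p.2 := by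
    ring
  rw [h2, ← mul_div_assoc]
  push_cast
  field_simp

theorem sqrt_bound {b s C1 E : ℝ} (hs : 0 < s) (hC1 : 0 ≤ C1) (hE : 0 ≤ E)
    (h1 : b ^ 2 * (1 + s) ^ 3 ≤ 24 * C1 ^ 2 * s) (h2 : ((1 + s) ^ 3)⁻¹ ≤ E ^ 2) :
    b / Real.sqrt s ≤ 5 * C1 * E := by
  have hsq := Real.sqrt_pos.2 hs
  refine le_of_abs_le (abs_le_of_sq_le_sq ?_ (by positivity))
  rw [div_pow, Real.sq_sqrt hs.le, div_le_iff₀ hs]
  have h3 : b ^ 2 ≤ 24 * C1 ^ 2 * s * ((1 + s) ^ 3)⁻¹ := by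
    rw [← div_eq_mul_inv, le_div_iff₀ (by positivity)]
    exact h1
  calc b ^ 2 ≤ 24 * C1 ^ 2 * s * ((1 + s) ^ 3)⁻¹ := h3
    _ ≤ 24 * C1 ^ 2 * s * E ^ 2 := by gcongr
    _ ≤ (5 * C1 * E) ^ 2 * s := by nlinarith [show 0 ≤ C1 ^ 2 * s * E ^ 2 by positivity]

theorem inv_cube_le_sq (z : ℝ × ℝ) :
    ((1 + (z.1 ^ 2 + z.2 ^ 2)) ^ 3)⁻¹ ≤ ((1 + ‖z‖ ^ 2) ^ (-(3 : ℝ) / 2)) ^ 2 := by
  have h1 := norm_sq_le z
  have h2 : 0 < 1 + ‖z‖ ^ 2 := by positivity
  have h3 : ((1 + ‖z‖ ^ 2) ^ (-(3 : ℝ) / 2)) ^ 2 = ((1 + ‖z‖ ^ 2) ^ 3)⁻¹ := by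
    rw [← Real.rpow_natCast, ← Real.rpow_mul h2.le, ← Real.rpow_natCast (1 + ‖z‖ ^ 2) 3,
      ← Real.rpow_neg h2.le]
    congr 1
    norm_num
  rw [h3]
  exact inv_anti₀ (by positivity) (by gcongr)

theorem p2_of (hKB : KBStatement) (hKL : KLStatement) : P2Statement := by
  intro V m c κ C k0 hS f L a M hD g hg hgs K hK
  have hpi := Real.pi_pos
  have hk0 := hS.k0_pos
  obtain ⟨C1, hC1, hb⟩ := hD.hat_bounds
  obtain ⟨C', hC', hKB1⟩ := hKB V m c κ C k0 hS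
  obtain ⟨n0, hn0⟩ := eventually_atTop.1 hb
  obtain ⟨Cg, hCg⟩ := hgs.exists_bound_of_continuous hg
  have hCg0 : 0 ≤ Cg := (norm_nonneg _).trans (hCg 0)
  have hK' : (1 : ℝ) ≤ K := by exact_mod_cast hK
  obtain ⟨R0, hR0⟩ := hgs.isCompact.isBounded.subset_closedBall (0 : ℝ × ℝ)
  set R : ℝ := max R0 0 with hR
  have hRR : R0 ≤ R := le_max_left _ _
  have hR00 : 0 ≤ R := le_max_right _ _
  set G : ℕ → ℤ → ℤ → ℝ := fun n i x => (L n)⁻¹ * g (i * K / L n, x / L n) with hGdef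
  have hGsup : ∀ n, Sup (G n) (bx (R * L n)) := by
    intro n p hp
    have hL : 0 < L n := by linarith [hD.L_pos n]
    rw [hGdef]
    simp only
    by_contra hne
    have h1 := hR0 (subset_tsupport _ (Function.mem_support.2 (right_ne_zero_of_mul hne)))
    rw [mem_closedBall_zero_iff, Prod.norm_def] at h1
    refine hp (mem_bx.2 ?_)
    have h2 := (le_max_left _ _).trans h1
    have h3 := (le_max_right _ _).trans h1
    simp only [Real.norm_eq_abs, abs_div, abs_of_pos hL, abs_mul] at h2 h3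
    rw [div_le_iff₀ hL] at h2 h3
    rw [abs_of_nonneg (by linarith : (0 : ℝ) ≤ K)] at h2
    have h4 : |(p.1 : ℝ)| ≤ |(p.1 : ℝ)| * K := le_mul_of_one_le_right (abs_nonneg _) hK'
    exact ⟨(h4.trans h2).trans (by gcongr), h3.trans (by gcongr)⟩
  set D0 : ℝ := (2 * R + 1) ^ 2 * Cg with hD0
  have hD00 : 0 ≤ D0 := by positivity
  have hGb : ∀ n θ k, ‖hat (G n) θ k‖ ≤ D0 * L n := by
    intro n θ k
    have hL : 0 < L n := by linarith [hD.L_pos n]
    have h1 := norm_hat_le (hGsup n) (B := (L n)⁻¹ * Cg) (fun j x => by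
      rw [hGdef]
      simp only
      rw [abs_mul, abs_of_pos (inv_pos.2 hL)]
      have := hCg (j * K / L n, x / L n)
      rw [Real.norm_eq_abs] at this
      gcongr) θ k
    refine h1.trans ?_
    have h2 := card_bx' (A := R) hR00 (hD.L_pos n)
    calc ((bx (R * L n)).card : ℝ) * ((L n)⁻¹ * Cg)
        ≤ ((2 * R + 1) ^ 2 * L n ^ 2) * ((L n)⁻¹ * Cg) := by gcongr
      _ = _ := by
        rw [hD0]
        field_simp
  rw [← tendsto_add_atTop_iff_nat n0]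
  have hshift : Tendsto (fun n => n + n0) atTop atTop := tendsto_add_atTop_nat n0
  have hL1 : ∀ n, 1 ≤ L (n + n0) := fun n => hD.L_pos _
  have hL0 : ∀ n, 0 < L (n + n0) := fun n => by linarith [hL1 n]
  have hLt : Tendsto (fun n => L (n + n0)) atTop atTop := hD.L_top.comp hshift
  have hsup : ∀ n, Sup (a n) (bx (M * L n)) := fun n => hD.sup (le_refl M) n
  have hLi : Tendsto (fun n => (L (n + n0))⁻¹) atTop (𝓝 0) := hLt.inv_tendsto_atTop
  have hnormN : ∀ n θ k, ‖N2 (G n) (a n) K θ k‖ ≤ D0 * L n * ‖hat (a n) θ k‖ := by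
    intro n θ k
    unfold N2
    rw [norm_mul, norm_mul, RCLike.norm_conj, mul_comm Complex.I,
      Complex.norm_exp_ofReal_mul_I, one_mul]
    have := hGb n (K * θ) k
    gcongr
  have hnf := nearFar hS (u := uK K) (continuous_uK K).measurable (U := 2)
    (fun τ θ h0 h1 => norm_uK_le K τ θ h0 h1)
    (fun n => L (n + n0)) hL1 (fun n => N2 (G (n + n0)) (a (n + n0)) K)
    (fun n => by
      unfold N2
      have h1 := (continuous_hat (hGsup (n + n0))).comp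
        (by fun_prop : Continuous fun p : ℝ × ℝ => ((K : ℝ) * p.1, p.2))
      have h2 := continuous_hat (hsup (n + n0))
      exact (Continuous.mul (by fun_prop) h1).mul (Complex.continuous_conj.comp h2))
    (fun n => (covXX_eq hS (hsup _) K (hGsup _)).1)
    (fun n => D0 * (C1 / k0 ^ 2) * (L (n + n0))⁻¹)
    (by
      have := hLi.const_mul (D0 * (C1 / k0 ^ 2))
      simpa using this)
    (by
      intro n θ hθ k hk hkk
      have h1 := (hn0 (n + n0) (by omega) θ k (abs_le.2 ⟨hθ.1, hθ.2⟩) (abs_le.2 ⟨hk.1, hk.2⟩)).2.2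
      have hL := hL0 n
      have h2 : k0 ^ 2 ≤ k ^ 2 := by
        rw [← sq_abs k]
        exact pow_le_pow_left₀ hk0.le hkk 2
      have h3 : ‖hat (a (n + n0)) θ k‖ * (L (n + n0) ^ 2 * k0 ^ 2) ≤ C1 :=
        le_trans (by gcongr) h1
      rw [← le_div_iff₀ (by positivity)] at h3
      refine (hnormN (n + n0) θ k).trans ?_
      calc D0 * L (n + n0) * ‖hat (a (n + n0)) θ k‖
          ≤ D0 * L (n + n0) * (C1 / (L (n + n0) ^ 2 * k0 ^ 2)) := by gcongr
        _ = _ := by field_simp)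
    (fun z => D0 * (K * C') * (5 * C1) * (1 + ‖z‖ ^ 2) ^ (-(3 : ℝ) / 2))
    (integrable_dom.const_mul _)
    (by
      intro n
      have hL := hL0 n
      filter_upwards [ae_scale hKB1 hL,
        ae_snd (Measure.ae_ne (volume : Measure ℝ) 0)] with z hz1 hz3 hk hθ
      have hq : z.2 / L (n + n0) ≠ 0 := div_ne_zero hz3 hL.ne'
      have hqk : |z.2 / L (n + n0)| < k0 := by
        rw [abs_div, abs_of_pos hL, div_lt_iff₀ hL]
        exact hk
      have hθ' : |z.1 / L (n + n0)| ≤ π := by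
        rw [abs_div, abs_of_pos hL, div_le_iff₀ hL]
        exact hθ
      have hqπ : |z.2 / L (n + n0)| ≤ π := by
        have := hS.k0_le
        linarith [Real.pi_gt_three]
      have hO := (hz1 hqk hq (z.1 / L (n + n0)) hθ').2.2 K
      obtain ⟨hb1, hb2, hb3⟩ := hn0 (n + n0) (by omega) (z.1 / L (n + n0)) (z.2 / L (n + n0)) hθ' hqπ
      have hN := hnormN (n + n0) (z.1 / L (n + n0)) (z.2 / L (n + n0))
      rw [Rk_uK]
      set b := ‖hat (a (n + n0)) (z.1 / L (n + n0)) (z.2 / L (n + n0))‖ with hbdef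
      have hb0 : 0 ≤ b := norm_nonneg _
      have hs0 : 0 < z.1 ^ 2 + z.2 ^ 2 := by positivity
      have hd := decay (b := b) (w := z.1) (q := z.2) (C1 := C1) hb0
        (by
          rw [abs_div, abs_div, abs_of_pos hL] at hb1
          calc b ≤ C1 * L (n + n0) * (|z.1| / L (n + n0) + |z.2| / L (n + n0)) := hb1
            _ = _ := by field_simp)
        (by
          calc b * z.1 ^ 2 = b * (L (n + n0) ^ 2 * (z.1 / L (n + n0)) ^ 2) := by field_simp
            _ ≤ C1 := hb2)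
        (by
          calc b * z.2 ^ 2 = b * (L (n + n0) ^ 2 * (z.2 / L (n + n0)) ^ 2) := by field_simp
            _ ≤ C1 := hb3)
      have hE0 : 0 ≤ (1 + ‖z‖ ^ 2) ^ (-(3 : ℝ) / 2) := by positivity
      have hbs := sqrt_bound hs0 hC1.le hE0 hd (inv_cube_le_sq z)
      have hsqrt : Real.sqrt ((z.2 / L (n + n0)) ^ 2 + (z.1 / L (n + n0)) ^ 2) =
          Real.sqrt (z.1 ^ 2 + z.2 ^ 2) / L (n + n0) := by
        have : (z.2 / L (n + n0)) ^ 2 + (z.1 / L (n + n0)) ^ 2 =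
              (z.1 ^ 2 + z.2 ^ 2) / L (n + n0) ^ 2 := by
          field_simp
          ring
        rw [this, Real.sqrt_div hs0.le, Real.sqrt_sq hL.le]
      rw [hsqrt] at hO
      have hsq := Real.sqrt_pos.2 hs0
      calc (L (n + n0) ^ 2)⁻¹ * (‖N2 (G (n + n0)) (a (n + n0)) K (z.1 / L (n + n0))
            (z.2 / L (n + n0))‖ * ‖Om m K (z.2 / L (n + n0)) (z.1 / L (n + n0))‖)
          ≤ (L (n + n0) ^ 2)⁻¹ * ((D0 * L (n + n0) * b) *
            (K * C' / (Real.sqrt (z.1 ^ 2 + z.2 ^ 2) / L (n + n0)))) := by gcongr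
        _ = D0 * (K * C') * (b / Real.sqrt (z.1 ^ 2 + z.2 ^ 2)) := by
          field_simp
        _ ≤ D0 * (K * C') * (5 * C1 * (1 + ‖z‖ ^ 2) ^ (-(3 : ℝ) / 2)) := by gcongr
        _ = _ := by ring)
    hLt
    (fun z => (κ : ℂ) * (FT g z.1 z.2 * (starRingEnd ℂ) (FT f z.1 z.2) /
      ((c * |z.2| : ℝ) - Complex.I * (z.1 : ℝ))))
    (by
      have hkl := hKL V m c κ C k0 hS (fun n => L (n + n0)) hL1 hLt K
      filter_upwards [ae_snd hkl, ae_snd (Measure.ae_ne (volume : Measure ℝ) 0),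
        ae_fst (Measure.ae_ne (volume : Measure ℝ) 0)] with z hz1 hz2 hz3
      have h1 := (hz1 hz2 z.1 hz3).1
      have h2 := (Complex.continuous_conj.tendsto _).comp ((hat_lim hD z.1 z.2).comp hshift)
      have h3' : Tendsto (fun n => (K : ℂ) * (L n : ℂ)⁻¹ *
          hat (G n) (K * (z.1 / L n)) (z.2 / L n)) atTop (𝓝 (FT g z.1 z.2)) :=
        hatG_lim hg hgs hD.L_pos hD.L_top hK hGsup z.1 z.2
      have h3 := h3'.comp hshift
      have h4 : Tendsto (fun n => Complex.exp (Complex.I * ((z.1 / L (n + n0) * K : ℝ) : ℂ)))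
          atTop (𝓝 1) := by
        have h5 : Tendsto (fun n => Complex.I * ((z.1 / L (n + n0) * K : ℝ) : ℂ)) atTop (𝓝 0) := by
          have h6 : Tendsto (fun n => z.1 / L (n + n0) * K) atTop (𝓝 0) := by
            have := (hLi.const_mul z.1).mul_const (K : ℝ)
            simpa [div_eq_mul_inv] using this
          have h7 := ((Complex.continuous_ofReal.tendsto _).comp h6).const_mul Complex.I
          simpa using h7
        have h8 := (Complex.continuous_exp.tendsto _).comp h5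
        rw [Complex.exp_zero] at h8
        exact h8
      have hKc : (K : ℂ) ≠ 0 := by exact_mod_cast hK.ne'
      have h9 := (((h3.const_mul (K : ℂ)⁻¹).mul h4).mul h2).mul h1
      have hlim : (K : ℂ)⁻¹ * FT g z.1 z.2 * 1 * (starRingEnd ℂ) (FT f z.1 z.2) *
          ((κ : ℂ) * K / ((c * |z.2| : ℝ) - Complex.I * (z.1 : ℝ))) =
          (κ : ℂ) * (FT g z.1 z.2 * (starRingEnd ℂ) (FT f z.1 z.2) /
            ((c * |z.2| : ℝ) - Complex.I * (z.1 : ℝ))) := by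
        field_simp
      rw [hlim] at h9
      refine h9.congr fun n => ?_
      simp only [Function.comp_apply]
      rw [Rk_uK]
      unfold N2
      have hLc : (L (n + n0) : ℂ) ≠ 0 := by exact_mod_cast (hL0 n).ne'
      field_simp)
  have hre := (Complex.continuous_re.tendsto _).comp hnf
  have hfin := hre.const_mul (1 / (4 * π ^ 2))
  have hcov : 1 / (4 * π ^ 2) * (∫ z : ℝ × ℝ, (κ : ℂ) * (FT g z.1 z.2 *
      (starRingEnd ℂ) (FT f z.1 z.2) / ((c * |z.2| : ℝ) - Complex.I * (z.1 : ℝ)))).re =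
      cov c κ g f := by
    rw [integral_const_mul, Complex.re_ofReal_mul]
    unfold cov
    ring
  rw [hcov] at hfin
  refine hfin.congr fun n => ?_
  exact ((covXX_eq hS (hsup _) K (hGsup _)).2).symm

end Vale.Agent.P153.TwoPt
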