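import Vale.Agent.P153.TwoPt.Defs2
import Vale.Agent.P153.TwoPt.Poisson
import Vale.Agent.P153.TwoPt.Hat

/-!
# P153, two-point part: the joint measure of row momentum and energy
-/

open MeasureTheory ProbabilityTheory Filter Topology Set
open scoped ENNReal Real

namespace Vale.Agent.P153.TwoPt

/-- joint measure. -/
noncomputable def rho (m : Kernel ℝ ℝ) : Measure (ℝ × ℝ) := (volume.restrict (Icc (-π) π)) ⊗ₘ m

section
variable {V : ℤ → ℤ → ℝ} {m : Kernel ℝ ℝ} {c κ C k0 : ℝ}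

theorem Spec.ae_supp (h : Spec V m c κ C k0) : ∀ᵐ p ∂(rho m), 0 ≤ p.2 ∧ p.2 < 1 := by
  have := h.sfin
  unfold rho
  have hm : MeasurableSet {p : ℝ × ℝ | 0 ≤ p.2 ∧ p.2 < 1} :=
    (measurableSet_le measurable_const measurable_snd).inter
      (measurableSet_lt measurable_snd measurable_const)
  rw [Measure.ae_compProd_iff hm]
  exact ae_restrict_of_ae h.supp

theorem Spec.ae_mem (h : Spec V m c κ C k0) : ∀ᵐ p ∂(rho m), p.1 ∈ Icc (-π) π := by
  have := h.sfin
  unfold rho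
  have hm : MeasurableSet {p : ℝ × ℝ | p.1 ∈ Icc (-π) π} := measurable_fst measurableSet_Icc
  rw [Measure.ae_compProd_iff hm]
  filter_upwards [ae_restrict_mem measurableSet_Icc] with k hk
  exact Eventually.of_forall fun _ => hk

theorem cos_k0_lt (h : Spec V m c κ C k0) {k : ℝ} (hk : k ∈ Icc (-π) π) (hk0 : k0 ≤ |k|) :
    1 - Real.cos k0 ≤ 1 - Real.cos k := by
  have : Real.cos |k| ≤ Real.cos k0 := by
    refine Real.cos_le_cos_of_nonneg_of_le_pi h.k0_pos.le (abs_le.2 ⟨by linarith [hk.1], hk.2⟩) hk0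
  rw [Real.cos_abs] at this
  linarith

theorem Spec.one_sub_cos_pos (h : Spec V m c κ C k0) : 0 < 1 - Real.cos k0 := by
  have h1 : Real.cos k0 < Real.cos 0 :=
    Real.cos_lt_cos_of_nonneg_of_le_pi le_rfl (by linarith [h.k0_le, Real.pi_gt_three]) h.k0_pos
  rw [Real.cos_zero] at h1
  linarith

theorem Spec.lint (h : Spec V m c κ C k0) :
    ∫⁻ p, ENNReal.ofReal ((1 - Real.cos p.1) * (1 / (1 - p.2 ^ 2))) ∂(rho m) ≠ ⊤ := by
  have := h.sfin
  unfold rho
  rw [Measure.lintegral_compProd (by fun_prop)]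
  refine ne_of_eq_of_ne ?_ h.fin
  refine lintegral_congr fun k => ?_
  rw [← lintegral_const_mul _ (by fun_prop)]
  refine lintegral_congr fun τ => ?_
  rw [← ENNReal.ofReal_mul (by linarith [Real.cos_le_one k])]

theorem Spec.int1 (h : Spec V m c κ C k0) :
    Integrable (fun p : ℝ × ℝ => (1 - Real.cos p.1) * (1 / (1 - p.2 ^ 2))) (rho m) := by
  refine ⟨by fun_prop, ?_⟩
  rw [hasFiniteIntegral_iff_ofReal]
  · exact h.lint.lt_top
  · filter_upwards [h.ae_supp] with p hp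
    have h2 : 0 < 1 - p.2 ^ 2 := by nlinarith [hp.1, hp.2]
    have h3 := Real.cos_le_one p.1
    have : 0 ≤ 1 - Real.cos p.1 := by linarith
    positivity

theorem Spec.finite (h : Spec V m c κ C k0) : rho m univ ≠ ⊤ := by
  have := h.sfin
  have hcos := h.one_sub_cos_pos
  have h1 : rho m univ = ∫⁻ k in Icc (-π) π, m k univ := by
    unfold rho
    rw [Measure.compProd_apply MeasurableSet.univ]
    simp
  rw [h1]
  have h2 : ∀ᵐ k ∂(volume.restrict (Icc (-π) π)), m k univ ≤ ENNReal.ofReal C +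
      ENNReal.ofReal ((1 - Real.cos k0)⁻¹) * (ENNReal.ofReal (1 - Real.cos k) *
        ∫⁻ τ, ENNReal.ofReal (1 / (1 - τ ^ 2)) ∂(m k)) := by
    filter_upwards [ae_restrict_of_ae h.mass, ae_restrict_of_ae h.supp,
      ae_restrict_mem measurableSet_Icc] with k hk1 hk2 hk3
    by_cases hk : |k| < k0
    · exact (hk1 hk).trans le_self_add
    · refine le_trans ?_ le_add_self
      have h4 : m k univ ≤ ∫⁻ τ, ENNReal.ofReal (1 / (1 - τ ^ 2)) ∂(m k) := by
        rw [← lintegral_one]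
        refine lintegral_mono_ae ?_
        filter_upwards [hk2] with τ hτ
        have h5 : 0 < 1 - τ ^ 2 := by nlinarith [hτ.1, hτ.2]
        rw [← ENNReal.ofReal_one]
        refine ENNReal.ofReal_le_ofReal ?_
        rw [le_div_iff₀ h5]
        nlinarith [sq_nonneg τ]
      have h6 : (1 : ℝ≥0∞) ≤ ENNReal.ofReal ((1 - Real.cos k0)⁻¹) * ENNReal.ofReal (1 - Real.cos k) := by
        rw [← ENNReal.ofReal_mul (by positivity), ← ENNReal.ofReal_one]
        refine ENNReal.ofReal_le_ofReal ?_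
        have h7 := cos_k0_lt h hk3 (not_lt.1 hk)
        rw [inv_mul_eq_div, le_div_iff₀ hcos]
        linarith
      calc m k univ ≤ ∫⁻ τ, ENNReal.ofReal (1 / (1 - τ ^ 2)) ∂(m k) := h4
        _ = 1 * ∫⁻ τ, ENNReal.ofReal (1 / (1 - τ ^ 2)) ∂(m k) := (one_mul _).symm
        _ ≤ _ := by
          rw [← mul_assoc]
          gcongr
  refine ne_top_of_le_ne_top ?_ (lintegral_mono_ae h2)
  rw [lintegral_add_left measurable_const, lintegral_const_mul' _ _ ENNReal.ofReal_ne_top]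
  refine ENNReal.add_ne_top.2 ⟨?_, ENNReal.mul_ne_top ENNReal.ofReal_ne_top h.fin⟩
  simp only [lintegral_const]
  refine ENNReal.mul_ne_top ENNReal.ofReal_ne_top ?_
  simp

theorem Spec.isFinite (h : Spec V m c κ C k0) : IsFiniteMeasure (rho m) :=
  ⟨h.finite.lt_top⟩

/-- `1/(1-τ²)` is integrable away from momentum `0`. -/
theorem Spec.int_far (h : Spec V m c κ C k0) :
    IntegrableOn (fun p : ℝ × ℝ => 1 / (1 - p.2 ^ 2)) {p : ℝ × ℝ | k0 ≤ |p.1|} (rho m) := by
  have hm : MeasurableSet {p : ℝ × ℝ | k0 ≤ |p.1|} :=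
    measurableSet_le measurable_const (by fun_prop)
  have hcos := h.one_sub_cos_pos
  have h1 := (h.int1.const_mul (1 - Real.cos k0)⁻¹).integrableOn (s := {p : ℝ × ℝ | k0 ≤ |p.1|})
  refine Integrable.mono h1 (Measurable.aestronglyMeasurable (by fun_prop)) ?_
  filter_upwards [ae_restrict_mem hm, ae_restrict_of_ae h.ae_supp, ae_restrict_of_ae h.ae_mem]
    with p hp1 hp2 hp3
  have h5 : 0 < 1 - p.2 ^ 2 := by nlinarith [hp2.1, hp2.2]
  have h7 := cos_k0_lt h hp3 hp1
  rw [Real.norm_of_nonneg (by positivity), Real.norm_of_nonneg (by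
    have : 0 ≤ 1 - Real.cos p.1 := by linarith
    positivity), ← mul_assoc]
  refine le_mul_of_one_le_left (by positivity) ?_
  rw [inv_mul_eq_div, le_div_iff₀ hcos]
  linarith

theorem abs_one_sub_mul_le {x t : ℝ} (hx : |x| ≤ 1) (ht0 : 0 ≤ t) (ht1 : t ≤ 1) :
    |1 - x * t| ≤ (1 - x) + (1 - t) := by
  have h1 := abs_le.1 hx
  rw [abs_le]
  constructor <;> nlinarith

theorem one_sub_pow_le {τ : ℝ} (h0 : 0 ≤ τ) (h1 : τ ≤ 1) (n : ℕ) : 1 - τ ^ n ≤ n * (1 - τ) := by
  have := one_add_mul_le_pow (a := τ - 1) (by linarith) n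
  have h2 : 1 + (τ - 1) = τ := by ring
  rw [h2] at this
  linarith

theorem abs_sin_nat_mul_le (x : ℝ) (n : ℕ) : |Real.sin (n * x)| ≤ n * |Real.sin x| := by
  induction n with
  | zero => simp
  | succ n ih =>
    push_cast
    rw [add_mul, one_mul, Real.sin_add]
    refine (abs_add_le _ _).trans ?_
    rw [abs_mul, abs_mul]
    have h1 := Real.abs_cos_le_one x
    have h2 := Real.abs_cos_le_one (n * x)
    have h3 := abs_nonneg (Real.sin (n * x))
    have h4 := abs_nonneg (Real.sin x)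
    nlinarith

theorem abs_sin_int_mul_le (x : ℝ) (z : ℤ) : |Real.sin (z * x)| ≤ |(z : ℝ)| * |Real.sin x| := by
  rcases Int.natAbs_eq z with h | h
  · rw [h]
    have := abs_sin_nat_mul_le x z.natAbs
    simpa using this
  · rw [h]
    have := abs_sin_nat_mul_le x z.natAbs
    simpa [neg_mul, Real.sin_neg] using this

theorem one_sub_cos_mul_le (k : ℝ) (z : ℤ) :
    1 - Real.cos (k * z) ≤ z ^ 2 * (1 - Real.cos k) := by
  have h1 : ∀ x : ℝ, 1 - Real.cos x = 2 * Real.sin (x / 2) ^ 2 := by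
    intro x
    have := Real.cos_sq' (x / 2)
    have h2 := Real.cos_two_mul (x / 2)
    rw [show 2 * (x / 2) = x by ring] at h2
    rw [h2, this]
    ring
  rw [h1, h1]
  have h2 : |Real.sin (k * z / 2)| ≤ |(z : ℝ)| * |Real.sin (k / 2)| := by
    have h3 := abs_sin_int_mul_le (k / 2) z
    rw [show k * z / 2 = z * (k / 2) by ring]
    exact h3
  have h3 : Real.sin (k * z / 2) ^ 2 ≤ (z : ℝ) ^ 2 * Real.sin (k / 2) ^ 2 := by
    rw [← sq_abs, ← sq_abs (z : ℝ), ← sq_abs (Real.sin (k / 2)), ← mul_pow]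
    exact pow_le_pow_left₀ (abs_nonneg _) h2 2
  linarith

/-- integrand of `V j z`. -/
noncomputable def Wf (j z : ℤ) (p : ℝ × ℝ) : ℝ :=
  (1 - Real.cos (p.1 * z) * p.2 ^ j.natAbs) / (1 - p.2 ^ 2)

theorem Spec.int_W (h : Spec V m c κ C k0) (j z : ℤ) : Integrable (Wf j z) (rho m) := by
  have := h.isFinite
  have h1 := (h.int1.const_mul ((z : ℝ) ^ 2)).add (integrable_const (μ := rho m) (j.natAbs : ℝ))
  refine Integrable.mono' h1 (Measurable.aestronglyMeasurable (by unfold Wf; fun_prop)) ?_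
  filter_upwards [h.ae_supp] with p hp
  have h5 : 0 < 1 - p.2 ^ 2 := by nlinarith [hp.1, hp.2]
  have h6 : |Wf j z p| ≤ ((1 - Real.cos (p.1 * z)) + (j.natAbs : ℝ) * (1 - p.2)) / (1 - p.2 ^ 2) := by
    unfold Wf
    rw [abs_div, abs_of_pos h5]
    gcongr
    refine (abs_one_sub_mul_le (Real.abs_cos_le_one _) (pow_nonneg hp.1 _)
      (pow_le_one₀ hp.1 hp.2.le)).trans ?_
    have := one_sub_pow_le hp.1 hp.2.le j.natAbs
    linarith
  rw [Real.norm_eq_abs]
  refine h6.trans ?_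
  simp only [Pi.add_apply]
  rw [add_div]
  refine add_le_add ?_ ?_
  · rw [← mul_assoc, mul_one_div]
    gcongr
    exact one_sub_cos_mul_le _ _
  · rw [div_le_iff₀ h5]
    have : 0 ≤ (j.natAbs : ℝ) := Nat.cast_nonneg _
    nlinarith [hp.1, hp.2, mul_nonneg this (sub_nonneg.2 hp.2.le)]

theorem Spec.rep' (h : Spec V m c κ C k0) (j z : ℤ) :
    V j z = (1 / π) * ∫ p, Wf j z p ∂(rho m) := by
  have := h.sfin
  rw [h.rep j z]
  congr 1
  have := h.int_W j z
  unfold rho at this ⊢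
  rw [Measure.integral_compProd this]
  rfl

end

end Vale.Agent.P153.TwoPt
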